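import Claimed.Agent.R252.S5.Contract

/-!
# Row 252 (Kakeya in R^4), Sec. 8, l.551-1100 (bootstrap step, endpoint, return to wide intervals): DEFINITIONS OF THE CHART MODEL      (sub-architect helper98; prefix `k8b` / `K8b`)

DEFINITIONS ONLY, no sorry.
THE CHART MODEL = the measure model of `S5/Defs.lean` with `j = 2`, STATIC `y` and AFFINE `x̄` (08 l.505-512: `y = (P - P_c)/D₀`, `x̄ = (x - H₀(t,P))/a₀`):
trajectories `l : Λ`, FIXED probability `ν = ν_H`, coefficients `c l : k5_Co 2`, labels = ONE measurable set `E ⊆ Λ × [0,1)`, time-only row `F`, scalar `S = k5_S (F t) (c l) t = x̄(t) - F(t) y`.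
All properties below except `k8bFl` are UPPER bounds: they persist under every restriction of `E`.
* `K8bCh K ν c E F`     standing facts of a chart
* `k8bMix d K ζ ν c E`  the instantaneous mixed cap `ν{t ∈ E_l, y ∈ r-square, x̄(t) ∈ w-interval} ≤ K r² w^d`, ALL real widths `r, w ∈ [ζ, 1]`   (08 l.578)
* `k8bSup d K w c E F`  the support count `N_w{S(t)} ≤ K w^(-d)` at ONE width `w`   (08 l.587)
* `k8bFl ν c E F w θ`   every occupied `w`-bin of `S(t)` has instantaneous labelled mass `≥ θ`   (08 l.602; NOT hereditary: converted at once into `k8bCnt`)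
* `k8bCnt d K w c E F`  local counts `K (R/w)^d` of occupied `w`-bins of `S(t)` in intervals of length `R ∈ [w, 1]`   (08 l.611)
* `k8bGrid ks kζ g`     the tested dyadic exponents: `0, kζ ∈ ks ⊆ [0, kζ]`, gaps `≤ g`   ("fixed finite exponent grids")
-/

set_option autoImplicit false

namespace Claimed.Agent.R252

open MeasureTheory Set
open scoped BigOperators

/-- `x̄` affine, `y` static -/
def k8bFlat {Λ : Type} (c : Λ → k5_Co 2) : Prop := ∀ l, (c l).1 2 = 0 ∧ (c l).2 1 = 0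

/-- the standing facts of a chart -/
structure K8bCh {Λ : Type} [MeasurableSpace Λ] (K : ℝ) (ν : Measure Λ) (c : Λ → k5_Co 2) (E : Set (Λ × ℝ))
    (F : ℝ → Fin 2 → ℝ) : Prop where
  prob : IsProbabilityMeasure ν
  mc : Measurable c
  mE : MeasurableSet E
  mF : Measurable F
  tI : ∀ l t, (l, t) ∈ E → 0 ≤ t ∧ t < 1
  cb : ∀ l, ‖c l‖ ≤ K
  flat : k8bFlat c
  Fb : ∀ t, ‖F t‖ ≤ K
  K1 : 1 ≤ K

/-- the position constraint: `y(t) ∈ [e, e + r]²`, `x̄(t) ∈ [a, a + w]` -/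
def k8bIn (r w a : ℝ) (e : Fin 2 → ℝ) (c : k5_Co 2) (t : ℝ) : Prop :=
  (∀ b, e b ≤ k5_y c t b ∧ k5_y c t b ≤ e b + r) ∧ a ≤ k5_x c t ∧ k5_x c t ≤ a + w

/-- the instantaneous mixed cap, all real widths in `[ζ, 1]` -/
def k8bMix {Λ : Type} [MeasurableSpace Λ] (d K ζ : ℝ) (ν : Measure Λ) (c : Λ → k5_Co 2) (E : Set (Λ × ℝ)) : Prop :=
  ∀ (t r w a : ℝ) (e : Fin 2 → ℝ), ζ ≤ r → r ≤ 1 → ζ ≤ w → w ≤ 1 →
    ν.real {l | (l, t) ∈ E ∧ k8bIn r w a e (c l) t} ≤ K * r ^ 2 * w ^ d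

/-- the support count at the width `w` -/
def k8bSup {Λ : Type} (d K w : ℝ) (c : Λ → k5_Co 2) (E : Set (Λ × ℝ)) (F : ℝ → Fin 2 → ℝ) : Prop :=
  ∀ t : ℝ, ∃ Z : Finset ℤ, (Z.card : ℝ) ≤ K * w ^ (-d) ∧ ∀ l, (l, t) ∈ E → k5_bin w (k5_S (F t) (c l) t) ∈ Z

/-- instantaneous floors of the occupied scalar bins -/
def k8bFl {Λ : Type} [MeasurableSpace Λ] (ν : Measure Λ) (c : Λ → k5_Co 2) (E : Set (Λ × ℝ)) (F : ℝ → Fin 2 → ℝ)
    (w θ : ℝ) : Prop :=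
  ∀ l t, (l, t) ∈ E →
    θ ≤ ν.real {l' | (l', t) ∈ E ∧ k5_bin w (k5_S (F t) (c l') t) = k5_bin w (k5_S (F t) (c l) t)}

/-- local counts at the mesh `w` -/
def k8bCnt {Λ : Type} (d K w : ℝ) (c : Λ → k5_Co 2) (E : Set (Λ × ℝ)) (F : ℝ → Fin 2 → ℝ) : Prop :=
  ∀ t a R : ℝ, w ≤ R → R ≤ 1 → ∃ Z : Finset ℤ, (Z.card : ℝ) ≤ K * (R / w) ^ d ∧
    ∀ l, (l, t) ∈ E → a ≤ k5_S (F t) (c l) t → k5_S (F t) (c l) t ≤ a + R → k5_bin w (k5_S (F t) (c l) t) ∈ Z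

/-- the tested dyadic exponents -/
structure k8bGrid (ks : Finset ℕ) (kζ g : ℕ) : Prop where
  zero : 0 ∈ ks
  last : kζ ∈ ks
  le : ∀ k ∈ ks, k ≤ kζ
  gap : ∀ k ∈ ks, k ≠ kζ → ∃ k' ∈ ks, k < k' ∧ k' ≤ k + g

/-- the row comparison at ONE scale `r` on the times `W` -/
def k8bRowAt (F : ℝ → Fin 2 → ℝ) (W : Set ℝ) (r B : ℝ) : Prop :=
  ∀ t ∈ W, ∀ t' ∈ W, |t - t'| ≤ r → ‖F t - F t'‖ ≤ B * r

/-- the slope comparison at ONE scale `r` : labelled points within distance `r` have slopes within `r` -/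
def k8bSlopeAt {Λ : Type} (c : Λ → k5_Co 2) (E : Set (Λ × ℝ)) (r : ℝ) : Prop :=
  ∀ l t l' u, (l, t) ∈ E → (l', u) ∈ E → |t - u| ≤ r → |k5_x (c l) t - k5_x (c l') u| ≤ r →
    ‖k5_y (c l) t - k5_y (c l') u‖ ≤ r → |(c l).1 1 - (c l').1 1| ≤ r

/-- the fixed-prior floor of the participating coefficient bins at ONE scale `r` -/
def k8bBinFl {Λ : Type} [MeasurableSpace Λ] (ν : Measure Λ) (c : Λ → k5_Co 2) (E : Set (Λ × ℝ)) (r θ : ℝ) : Prop :=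
  ∀ l t, (l, t) ∈ E → θ ≤ ν.real {l' | k5_cbin r (c l') = k5_cbin r (c l)}

/-- the incidences of `E` in the coefficient bin of `x` -/
def k8bBinOf {Λ : Type} (c : Λ → k5_Co 2) (E : Set (Λ × ℝ)) (r : ℝ) (x : Λ × ℝ) : Set (Λ × ℝ) :=
  {x' | x' ∈ E ∧ k5_cbin r (c x'.1) = k5_cbin r (c x.1)}

/-- the incidences of `E` in the entry (coefficient bin, `r`-time interval) of `x` -/
def k8bEntOf {Λ : Type} (c : Λ → k5_Co 2) (E : Set (Λ × ℝ)) (r : ℝ) (x : Λ × ℝ) : Set (Λ × ℝ) :=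
  {x' | x' ∈ E ∧ k5_cbin r (c x'.1) = k5_cbin r (c x.1) ∧ ⌊x'.2 / r⌋ = ⌊x.2 / r⌋}

/-- the spacetime cube of mesh `r` of an incidence: (time, `y`, `x̄`) -/
noncomputable def k8bCube {Λ : Type} (c : Λ → k5_Co 2) (r : ℝ) (x : Λ × ℝ) : ℤ × (Fin 2 → ℤ) × ℤ :=
  (⌊x.2 / r⌋, k5_vbin r (k5_y (c x.1) x.2), ⌊k5_x (c x.1) x.2 / r⌋)

theorem k8b_defs_eqns_cite : True := by
  have := @k8bFlat.eq_1
  have := @k8bIn.eq_1
  have := @k8bMix.eq_1
  have := @k8bSup.eq_1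
  have := @k8bFl.eq_1
  have := @k8bCnt.eq_1
  have := @k8bRowAt.eq_1
  have := @k8bSlopeAt.eq_1
  have := @k8bBinFl.eq_1
  have := @k8bBinOf.eq_1
  have := @k8bEntOf.eq_1
  have := @k8bCube.eq_1
  trivial

end Claimed.Agent.R252
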