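import Claimed.Agent.R252.S8b.Defs

/-!
# Row 252, Sec. 8, 08 l.540-700: REGULARISING THE SCALAR-NORMAL INPUT.   CONTRACT      (sub-architect helper98; prefix `k8b`)

EXIT `k8b_snd` : a chart (`K8bCh`) with the instantaneous mixed cap (`k8bMix`, all widths) and the support counts (`k8bSup`, tested dyadic widths `(1/2)^k`, `k ∈ ks`) has labels `E' ⊆ E` of density `≥ ζ^ε/(C K^C)`
which are scalar-normal data `k5_Snd 2 d K' ζ ν c E' F` (Definition 5.2) with `K' = C K^C ζ^(-ε) (2^g)^C₀`;   `C₀` does NOT depend on the number `n` of tested scales nor on `ε` (slow grids: first `g`, then `n`, `ε`, then `K`).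
EVERYTHING IS PAPER-FREE (measure model of `S5/Defs.lean`).   Every `sorry` is a leaf `L-252-S8b-*`; the complete proof is in its docstring.   Leaves may cite every statement above them (also sorried ones) and `S5/Contract.lean`.
Chain:  A `k8b_inst_cap` | B `k8b_floors_param → k8b_scalar_floor`, `k8b_S_mass → k8b_local_count` | C `k8b_shared`, `k8b_anchor → k8b_row_scale` |
D `k8b_st_count`, `k8b_aux_ball → k8b_heavy`, `k8b_entry_prune`, `k8b_cube_count`, `k8b_cube_select → k8b_slope_scale` | E `k8b_iter`, `k8b_interp → k8b_snd`.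
-/

set_option autoImplicit false

namespace Claimed.Agent.R252

open MeasureTheory Set
open scoped BigOperators

/-! ## A. From the integrated cap to the instantaneous cap (08 l.540-585) -/

/-- measurability of the position constraint -/
theorem k8b_ic_in_meas {Λ : Type} [MeasurableSpace Λ] {c : Λ → k5_Co 2} (hc : Measurable c) (r w a : ℝ)
    (e : Fin 2 → ℝ) : MeasurableSet {z : Λ × ℝ | k8bIn r w a e (c z.1) z.2} := by
  have hy : ∀ b, Measurable fun z : Λ × ℝ => k5_y (c z.1) z.2 b := by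
    intro b
    simp only [k5_y]
    fun_prop
  have hx : Measurable fun z : Λ × ℝ => k5_x (c z.1) z.2 := by
    simp only [k5_x]
    fun_prop
  have h1 : {z : Λ × ℝ | k8bIn r w a e (c z.1) z.2}
      = (⋂ b, ({z : Λ × ℝ | e b ≤ k5_y (c z.1) z.2 b} ∩ {z : Λ × ℝ | k5_y (c z.1) z.2 b ≤ e b + r}))
        ∩ ({z : Λ × ℝ | a ≤ k5_x (c z.1) z.2} ∩ {z : Λ × ℝ | k5_x (c z.1) z.2 ≤ a + w}) := by
    ext z
    simp only [k8bIn, mem_ofPred_eq, mem_inter_iff, mem_iInter]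
  rw [h1]
  exact (MeasurableSet.iInter fun b => (measurableSet_le measurable_const (hy b)).inter
    (measurableSet_le (hy b) measurable_const)).inter
    ((measurableSet_le measurable_const hx).inter (measurableSet_le hx measurable_const))

/-- pruning of the (line, `η`-time bin) pairs of short labelled duration -/
theorem k8b_ic_prune {Λ : Type} [MeasurableSpace Λ] (ν : Measure Λ) [IsProbabilityMeasure ν] (E0 : Set (Λ × ℝ))
    (hE0 : MeasurableSet E0) (hI : ∀ l t, (l, t) ∈ E0 → 0 ≤ t ∧ t < 1) (η τ : ℝ) (hη : 0 < η) (hη1 : η ≤ 1) :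
    MeasurableSet {z : Λ × ℝ | z ∈ E0 ∧
        ENNReal.ofReal τ ≤ volume {t' | (z.1, t') ∈ E0 ∧ ⌊t' / η⌋ = ⌊z.2 / η⌋}} ∧
      (ν.prod volume) {z : Λ × ℝ | z ∈ E0 ∧
        volume {t' | (z.1, t') ∈ E0 ∧ ⌊t' / η⌋ = ⌊z.2 / η⌋} < ENNReal.ofReal τ} ≤ ENNReal.ofReal (2 / η * τ) := by
  have hbin : Measurable fun z : Λ × ℝ => ⌊z.2 / η⌋ := Int.measurable_floor.comp (measurable_snd.div_const η)
  have hg : ∀ i : ℤ, Measurable fun l : Λ => volume {t' | (l, t') ∈ E0 ∧ ⌊t' / η⌋ = i} := fun i =>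
    measurable_measure_prodMk_left (hE0.inter (hbin (measurableSet_singleton i)))
  have hG0 : Measurable fun p : Λ × ℤ => volume {t' | (p.1, t') ∈ E0 ∧ ⌊t' / η⌋ = p.2} :=
    measurable_from_prod_countable_left hg
  have hG : Measurable fun z : Λ × ℝ => volume {t' | (z.1, t') ∈ E0 ∧ ⌊t' / η⌋ = ⌊z.2 / η⌋} :=
    hG0.comp (measurable_fst.prodMk hbin)
  refine ⟨hE0.inter (measurableSet_le measurable_const hG), ?_⟩
  have hDm : MeasurableSet {z : Λ × ℝ | z ∈ E0 ∧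
      volume {t' | (z.1, t') ∈ E0 ∧ ⌊t' / η⌋ = ⌊z.2 / η⌋} < ENNReal.ofReal τ} :=
    hE0.inter (measurableSet_lt hG measurable_const)
  rw [Measure.prod_apply hDm]
  have hfib : ∀ l : Λ, volume (Prod.mk l ⁻¹' {z : Λ × ℝ | z ∈ E0 ∧
      volume {t' | (z.1, t') ∈ E0 ∧ ⌊t' / η⌋ = ⌊z.2 / η⌋} < ENNReal.ofReal τ}) ≤ ENNReal.ofReal (2 / η * τ) := by
    intro l
    set T : ℕ → Set ℝ := fun n => {t | (l, t) ∈ E0 ∧ ⌊t / η⌋ = (n : ℤ) ∧
      volume {t' | (l, t') ∈ E0 ∧ ⌊t' / η⌋ = (n : ℤ)} < ENNReal.ofReal τ} with hT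
    have hTle : ∀ n, volume (T n) ≤ ENNReal.ofReal τ := by
      intro n
      by_cases hn : volume {t' | (l, t') ∈ E0 ∧ ⌊t' / η⌋ = (n : ℤ)} < ENNReal.ofReal τ
      · exact (measure_mono (show T n ⊆ {t' | (l, t') ∈ E0 ∧ ⌊t' / η⌋ = (n : ℤ)} from
          fun t ht => ⟨ht.1, ht.2.1⟩)).trans hn.le
      · have : T n = ∅ := by
          ext t
          simp only [hT, mem_ofPred_eq, mem_empty_iff_false, iff_false]
          exact fun ht => hn ht.2.2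
        rw [this]
        simp
    have hsub : Prod.mk l ⁻¹' {z : Λ × ℝ | z ∈ E0 ∧
        volume {t' | (z.1, t') ∈ E0 ∧ ⌊t' / η⌋ = ⌊z.2 / η⌋} < ENNReal.ofReal τ}
        ⊆ ⋃ n ∈ Finset.range (⌊1 / η⌋₊ + 1), T n := by
      rintro t ⟨ht1, ht2⟩
      have ht := hI l t ht1
      have h0 : 0 ≤ t / η := div_nonneg ht.1 hη.le
      have hfl : ((⌊t / η⌋₊ : ℕ) : ℤ) = ⌊t / η⌋ := Int.natCast_floor_eq_floor h0
      simp only [mem_iUnion, Finset.mem_range, exists_prop]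
      refine ⟨⌊t / η⌋₊, Nat.lt_succ_of_le (Nat.floor_le_floor (div_le_div_of_nonneg_right ht.2.le hη.le)), ht1,
        hfl.symm, ?_⟩
      rw [hfl]
      exact ht2
    have hN : ((⌊1 / η⌋₊ + 1 : ℕ) : ℝ) ≤ 2 / η := by
      have h1 : (⌊1 / η⌋₊ : ℝ) ≤ 1 / η := Nat.floor_le (by positivity)
      have h2 : 1 ≤ 1 / η := by
        rw [le_div_iff₀ hη]
        linarith
      have h3 : 2 / η = 1 / η + 1 / η := by ring
      push_cast
      linarith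
    calc volume (Prod.mk l ⁻¹' {z : Λ × ℝ | z ∈ E0 ∧
          volume {t' | (z.1, t') ∈ E0 ∧ ⌊t' / η⌋ = ⌊z.2 / η⌋} < ENNReal.ofReal τ})
        ≤ volume (⋃ n ∈ Finset.range (⌊1 / η⌋₊ + 1), T n) := measure_mono hsub
      _ ≤ ∑ n ∈ Finset.range (⌊1 / η⌋₊ + 1), volume (T n) := measure_biUnion_finset_le _ _
      _ ≤ ∑ _n ∈ Finset.range (⌊1 / η⌋₊ + 1), ENNReal.ofReal τ := Finset.sum_le_sum fun n _ => hTle n
      _ = ((⌊1 / η⌋₊ + 1 : ℕ) : ENNReal) * ENNReal.ofReal τ := by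
          rw [Finset.sum_const, Finset.card_range, nsmul_eq_mul]
      _ = ENNReal.ofReal ((⌊1 / η⌋₊ + 1 : ℕ) : ℝ) * ENNReal.ofReal τ := by rw [ENNReal.ofReal_natCast]
      _ ≤ ENNReal.ofReal (2 / η) * ENNReal.ofReal τ := by
          gcongr
      _ = ENNReal.ofReal (2 / η * τ) := (ENNReal.ofReal_mul (by positivity)).symm
  calc ∫⁻ l, volume (Prod.mk l ⁻¹' {z : Λ × ℝ | z ∈ E0 ∧
        volume {t' | (z.1, t') ∈ E0 ∧ ⌊t' / η⌋ = ⌊z.2 / η⌋} < ENNReal.ofReal τ}) ∂ν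
      ≤ ∫⁻ _l, ENNReal.ofReal (2 / η * τ) ∂ν := lintegral_mono hfib
    _ = ENNReal.ofReal (2 / η * τ) := by simp

/-- in one `η`-time bin the position constraint moves by at most one `w`-interval -/
theorem k8b_ic_shift {Λ : Type} {c : Λ → k5_Co 2} {K η w : ℝ} (hflat : k8bFlat c) (hcb : ∀ l, ‖c l‖ ≤ K) (hη : 0 < η)
    (hKη : K * η ≤ w) (r a : ℝ) (e : Fin 2 → ℝ) (l : Λ) (t t' : ℝ) (hbin : ⌊t' / η⌋ = ⌊t / η⌋)
    (hin : k8bIn r w a e (c l) t) :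
    k8bIn r w (a - w) e (c l) t' ∨ k8bIn r w a e (c l) t' ∨ k8bIn r w (a + w) e (c l) t' := by
  have hy : ∀ b, k5_y (c l) t' b = k5_y (c l) t b := by
    intro b
    simp [k5_y, (hflat l).2]
  have hx : k5_x (c l) t' - k5_x (c l) t = (t' - t) * (c l).1 1 := by
    simp only [k5_x, (hflat l).1]
    ring
  have hc1 : |(c l).1 1| ≤ K :=
    calc |(c l).1 1| = ‖(c l).1 1‖ := (Real.norm_eq_abs _).symm
      _ ≤ ‖(c l).1‖ := norm_le_pi_norm _ 1
      _ ≤ ‖c l‖ := norm_fst_le _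
      _ ≤ K := hcb l
  have htt : |t' - t| ≤ η := by
    have h1 := Int.floor_le (t / η)
    have h2 := Int.lt_floor_add_one (t / η)
    have h3 := Int.floor_le (t' / η)
    have h4 := Int.lt_floor_add_one (t' / η)
    rw [hbin] at h3 h4
    have h5 : |t' / η - t / η| ≤ 1 := by
      rw [abs_le]
      constructor <;> linarith
    rw [← sub_div, abs_div, abs_of_pos hη, div_le_one hη] at h5
    exact h5
  have hd : |k5_x (c l) t' - k5_x (c l) t| ≤ w := by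
    rw [hx, abs_mul]
    calc |t' - t| * |(c l).1 1| ≤ η * K := mul_le_mul htt hc1 (abs_nonneg _) hη.le
      _ = K * η := mul_comm _ _
      _ ≤ w := hKη
  have hd' := abs_le.1 hd
  have hY : ∀ b, e b ≤ k5_y (c l) t' b ∧ k5_y (c l) t' b ≤ e b + r := fun b => by
    rw [hy b]
    exact hin.1 b
  obtain ⟨-, hx1, hx2⟩ := hin
  by_cases h1 : k5_x (c l) t' ≤ a
  · exact Or.inl ⟨hY, by linarith [hd'.1], by linarith⟩
  · by_cases h2 : k5_x (c l) t' ≤ a + w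
    · exact Or.inr (Or.inl ⟨hY, (not_le.1 h1).le, h2⟩)
    · exact Or.inr (Or.inr ⟨hY, (not_le.1 h2).le, by linarith [hd'.2]⟩)

/-- **L-252-S8b-A** (~350 l.).   `lam ≤ K ν ⊗ dt` on `[0,1)`, mass `≥ δ`, integrated mixed cap on the time bins of mesh `η`, `K η ≤ ζ`.
PROOF.  `μ := ν.prod (volume.restrict (Ico 0 1))`, `f := lam.rnDeriv μ` (`lam ≪ μ`, both finite), `E⁰ := {f ≥ δ/2} ∩ (univ ×ˢ Ico 0 1)`: `lam (E⁰)ᶜ ≤ δ/2`; for measurable `A ⊆ E⁰`, `lam A = ∫_A f dμ ≥ (δ/2) μ A`.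
`Kd := 8K/δ`.  `E := {(l,t) ∈ E⁰ | η/Kd ≤ vol {t' | (l,t') ∈ E⁰ ∧ ⌊t'/η⌋ = ⌊t/η⌋}}` (measurable: `measurable_measure_prodMk_left`, countably many bins).  There are `≤ 2/η` bins meeting `[0,1)`, so `μ(E⁰ \ E) ≤ 2/Kd`, `lam(E⁰ \ E) ≤ 2K/Kd = δ/4`.
CAP: fix `t`, `i = ⌊t/η⌋`, `A_t` = the set in `k8bMix`.  For `l ∈ A_t` and `t'` in the bin: `y` static, `|x̄(t') - x̄(t)| ≤ K η ≤ ζ ≤ w`, so `(l,t')` lies in one of the 3 constraint sets with `a - w, a, a + w`.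
Tonelli: `(η/Kd) ν(A_t) ≤ μ(E⁰ ∩ bin ∩ 3 sets) ≤ (2/δ) lam(..) ≤ (2/δ) 3 K η r² w^d`. -/
theorem k8b_inst_cap {Λ : Type} [MeasurableSpace Λ] (ν : Measure Λ) [IsProbabilityMeasure ν] (lam : Measure (Λ × ℝ))
    (c : Λ → k5_Co 2) (d K ζ η δ : ℝ) (hd0 : 0 ≤ d) (hc : Measurable c) (hflat : k8bFlat c) (hcb : ∀ l, ‖c l‖ ≤ K)
    (hK : 1 ≤ K) (hζ : 0 < ζ) (hη : 0 < η) (hη1 : η ≤ 1) (hKη : K * η ≤ ζ) (hδ : 0 < δ)
    (hdom : lam ≤ ENNReal.ofReal K • ν.prod (volume.restrict (Ico 0 1)))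
    (hmass : ENNReal.ofReal δ ≤ lam univ)
    (hcap : ∀ (i : ℤ) (r w a : ℝ) (e : Fin 2 → ℝ), ζ ≤ r → r ≤ 1 → ζ ≤ w → w ≤ 1 →
      lam {z | ⌊z.2 / η⌋ = i ∧ k8bIn r w a e (c z.1) z.2} ≤ ENNReal.ofReal (K * η * r ^ 2 * w ^ d)) :
    ∃ E : Set (Λ × ℝ), MeasurableSet E ∧ (∀ l t, (l, t) ∈ E → 0 ≤ t ∧ t < 1) ∧ ENNReal.ofReal (δ / 4) ≤ lam E ∧
      (∀ A : Set (Λ × ℝ), MeasurableSet A → A ⊆ E → ENNReal.ofReal (δ / 2) * (ν.prod volume) A ≤ lam A) ∧
      k8bMix d (48 * K ^ 2 / δ ^ 2) ζ ν c E := by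
  have hK0 : 0 < K := by linarith
  set P : Measure (Λ × ℝ) := ν.prod volume with hP
  set S : Set (Λ × ℝ) := univ ×ˢ Ico (0 : ℝ) 1 with hS
  have hSm : MeasurableSet S := MeasurableSet.univ.prod measurableSet_Ico
  set μ : Measure (Λ × ℝ) := ν.prod (volume.restrict (Ico 0 1)) with hμ
  have hμP : μ = P.restrict S := by
    rw [hμ, hP, hS, ← Measure.prod_restrict, Measure.restrict_univ]
  have hμ1 : μ univ ≤ 1 := by
    rw [hμ, ← univ_prod_univ, Measure.prod_prod]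
    simp
  have : IsFiniteMeasure μ := ⟨lt_of_le_of_lt hμ1 ENNReal.one_lt_top⟩
  have hlamK : ∀ A, lam A ≤ ENNReal.ofReal K * μ A := fun A => by
    have := hdom A
    simpa using this
  have : IsFiniteMeasure lam :=
    ⟨lt_of_le_of_lt (hlamK univ) (ENNReal.mul_lt_top ENNReal.ofReal_lt_top (measure_lt_top μ _))⟩
  have hac : lam ≪ μ := Measure.absolutelyContinuous_of_le_smul hdom
  obtain ⟨f, hfm, hwd⟩ : ∃ f : Λ × ℝ → ENNReal, Measurable f ∧ μ.withDensity f = lam :=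
    ⟨_, Measure.measurable_rnDeriv lam μ, Measure.withDensity_rnDeriv_eq lam μ hac⟩
  have hlamA : ∀ A, MeasurableSet A → lam A = ∫⁻ z in A, f z ∂μ := fun A hA => by
    rw [← withDensity_apply f hA, hwd]
  set E0 : Set (Λ × ℝ) := {z | ENNReal.ofReal (δ / 2) ≤ f z} ∩ S with hE0
  have hE0m : MeasurableSet E0 := (measurableSet_le measurable_const hfm).inter hSm
  have hE0I : ∀ l t, (l, t) ∈ E0 → 0 ≤ t ∧ t < 1 := fun l t h => ⟨h.2.2.1, h.2.2.2⟩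
  have hlow : ∀ A, MeasurableSet A → A ⊆ E0 → ENNReal.ofReal (δ / 2) * P A ≤ lam A := by
    intro A hA hAE
    have h1 : μ A = P A := by
      rw [hμP, Measure.restrict_apply hA, inter_eq_left.2 (fun z hz => (hAE hz).2)]
    rw [hlamA A hA, ← h1, ← setLIntegral_const]
    exact setLIntegral_mono' hA (fun z hz => (hAE hz).1)
  have hcompl : lam E0ᶜ ≤ ENNReal.ofReal (δ / 2) := by
    have hsub : E0ᶜ ⊆ {z | f z < ENNReal.ofReal (δ / 2)} ∪ Sᶜ := by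
      intro z hz
      by_cases hzS : z ∈ S
      · left
        by_contra hcon
        have hcon' : ¬ f z < ENNReal.ofReal (δ / 2) := hcon
        exact hz ⟨not_lt.1 hcon', hzS⟩
      · right
        exact hzS
    have hm : MeasurableSet {z | f z < ENNReal.ofReal (δ / 2)} := measurableSet_lt hfm measurable_const
    have h1 : lam {z | f z < ENNReal.ofReal (δ / 2)} ≤ ENNReal.ofReal (δ / 2) := by
      rw [hlamA _ hm]
      calc ∫⁻ z in {z | f z < ENNReal.ofReal (δ / 2)}, f z ∂μ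
          ≤ ∫⁻ _z in {z | f z < ENNReal.ofReal (δ / 2)}, ENNReal.ofReal (δ / 2) ∂μ :=
            setLIntegral_mono' hm (fun z hz => le_of_lt hz)
        _ = ENNReal.ofReal (δ / 2) * μ {z | f z < ENNReal.ofReal (δ / 2)} := setLIntegral_const _ _
        _ ≤ ENNReal.ofReal (δ / 2) * 1 := by
            gcongr
            exact (measure_mono (subset_univ _)).trans hμ1
        _ = ENNReal.ofReal (δ / 2) := mul_one _
    have h2 : lam Sᶜ = 0 := by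
      have := hlamK Sᶜ
      rw [hμP, Measure.restrict_apply hSm.compl, compl_inter_self, measure_empty, mul_zero] at this
      exact nonpos_iff_eq_zero.1 this
    calc lam E0ᶜ ≤ lam ({z | f z < ENNReal.ofReal (δ / 2)} ∪ Sᶜ) := measure_mono hsub
      _ ≤ lam {z | f z < ENNReal.ofReal (δ / 2)} + lam Sᶜ := measure_union_le _ _
      _ ≤ ENNReal.ofReal (δ / 2) := by
          rw [h2, add_zero]
          exact h1
  set τ : ℝ := η * δ / (8 * K) with hτ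
  have hτ0 : 0 < τ := by positivity
  obtain ⟨hEm, hD⟩ := k8b_ic_prune ν E0 hE0m hE0I η τ hη hη1
  set E : Set (Λ × ℝ) := {z : Λ × ℝ | z ∈ E0 ∧
    ENNReal.ofReal τ ≤ volume {t' | (z.1, t') ∈ E0 ∧ ⌊t' / η⌋ = ⌊z.2 / η⌋}} with hE
  set D : Set (Λ × ℝ) := {z : Λ × ℝ | z ∈ E0 ∧
    volume {t' | (z.1, t') ∈ E0 ∧ ⌊t' / η⌋ = ⌊z.2 / η⌋} < ENNReal.ofReal τ} with hDdef
  have hEsub : E ⊆ E0 := fun z hz => hz.1
  refine ⟨E, hEm, fun l t h => hE0I l t h.1, ?_, fun A hA hAE => hlow A hA (hAE.trans hEsub), ?_⟩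
  · have hlamD : lam D ≤ ENNReal.ofReal (δ / 4) := by
      calc lam D ≤ ENNReal.ofReal K * μ D := hlamK D
        _ ≤ ENNReal.ofReal K * P D := by
            gcongr
            rw [hμP]
            exact Measure.restrict_le_self
        _ ≤ ENNReal.ofReal K * ENNReal.ofReal (2 / η * τ) := by
            gcongr
        _ = ENNReal.ofReal (K * (2 / η * τ)) := (ENNReal.ofReal_mul hK0.le).symm
        _ = ENNReal.ofReal (δ / 4) := by
            congr 1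
            rw [hτ]
            field_simp
            ring
    have hcov : (univ : Set (Λ × ℝ)) ⊆ E ∪ (D ∪ E0ᶜ) := by
      intro z _
      by_cases hz : z ∈ E0
      · by_cases hz2 : ENNReal.ofReal τ ≤ volume {t' | (z.1, t') ∈ E0 ∧ ⌊t' / η⌋ = ⌊z.2 / η⌋}
        · exact Or.inl ⟨hz, hz2⟩
        · exact Or.inr (Or.inl ⟨hz, not_le.1 hz2⟩)
      · exact Or.inr (Or.inr hz)
    have h1 : ENNReal.ofReal δ ≤ lam E + (ENNReal.ofReal (δ / 4) + ENNReal.ofReal (δ / 2)) :=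
      calc ENNReal.ofReal δ ≤ lam univ := hmass
        _ ≤ lam (E ∪ (D ∪ E0ᶜ)) := measure_mono hcov
        _ ≤ lam E + (lam D + lam E0ᶜ) := (measure_union_le _ _).trans (add_le_add le_rfl (measure_union_le _ _))
        _ ≤ lam E + (ENNReal.ofReal (δ / 4) + ENNReal.ofReal (δ / 2)) := by
            gcongr
    have h2 : ENNReal.ofReal δ = ENNReal.ofReal (δ / 4) + (ENNReal.ofReal (δ / 4) + ENNReal.ofReal (δ / 2)) := by
      rw [← ENNReal.ofReal_add (by positivity) (by positivity), ← ENNReal.ofReal_add (by positivity) (by positivity)]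
      congr 1
      ring
    rw [h2] at h1
    exact (ENNReal.add_le_add_iff_right (by finiteness)).1 h1
  · intro t r w a e hζr hr1 hζw hw1
    have hr0 : 0 < r := lt_of_lt_of_le hζ hζr
    have hw0 : 0 < w := lt_of_lt_of_le hζ hζw
    set Qj : ℝ → Set (Λ × ℝ) := fun a' => {z | ⌊z.2 / η⌋ = ⌊t / η⌋ ∧ k8bIn r w a' e (c z.1) z.2} with hQj
    have hbin : Measurable fun z : Λ × ℝ => ⌊z.2 / η⌋ := Int.measurable_floor.comp (measurable_snd.div_const η)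
    have hQjm : ∀ a', MeasurableSet (Qj a') := fun a' =>
      (hbin (measurableSet_singleton _)).inter (k8b_ic_in_meas hc r w a' e)
    set Q : Set (Λ × ℝ) := E0 ∩ (Qj (a - w) ∪ (Qj a ∪ Qj (a + w))) with hQ
    have hQm : MeasurableSet Q := hE0m.inter ((hQjm _).union ((hQjm _).union (hQjm _)))
    have hQjle : ∀ a', lam (Qj a') ≤ ENNReal.ofReal (K * η * r ^ 2 * w ^ d) := fun a' =>
      hcap _ r w a' e hζr hr1 hζw hw1
    have hB0 : 0 ≤ K * η * r ^ 2 * w ^ d := by positivity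
    have hlamQ : lam Q ≤ ENNReal.ofReal (3 * (K * η * r ^ 2 * w ^ d)) := by
      calc lam Q ≤ lam (Qj (a - w) ∪ (Qj a ∪ Qj (a + w))) := measure_mono inter_subset_right
        _ ≤ lam (Qj (a - w)) + (lam (Qj a) + lam (Qj (a + w))) :=
            (measure_union_le _ _).trans (add_le_add le_rfl (measure_union_le _ _))
        _ ≤ ENNReal.ofReal (K * η * r ^ 2 * w ^ d) + (ENNReal.ofReal (K * η * r ^ 2 * w ^ d)
              + ENNReal.ofReal (K * η * r ^ 2 * w ^ d)) := add_le_add (hQjle _) (add_le_add (hQjle _) (hQjle _))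
        _ = ENNReal.ofReal (3 * (K * η * r ^ 2 * w ^ d)) := by
            rw [← ENNReal.ofReal_add hB0 hB0, ← ENNReal.ofReal_add hB0 (by positivity)]
            congr 1
            ring
    have hPQ : ENNReal.ofReal (δ / 2) * P Q ≤ lam Q := hlow Q hQm inter_subset_left
    have hA : ENNReal.ofReal τ * ν {l | (l, t) ∈ E ∧ k8bIn r w a e (c l) t} ≤ P Q := by
      rw [hP, Measure.prod_apply hQm]
      calc ENNReal.ofReal τ * ν {l | (l, t) ∈ E ∧ k8bIn r w a e (c l) t}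
          ≤ ENNReal.ofReal τ * ν {l | ENNReal.ofReal τ ≤ volume (Prod.mk l ⁻¹' Q)} := by
            refine mul_le_mul_right (measure_mono ?_) _
            rintro l ⟨hl1, hl2⟩
            refine le_trans hl1.2 (measure_mono ?_)
            rintro t' ⟨ht1, ht2⟩
            refine ⟨ht1, ?_⟩
            rcases k8b_ic_shift hflat hcb hη (hKη.trans hζw) r a e l t t' ht2 hl2 with h | h | h
            · exact Or.inl ⟨ht2, h⟩
            · exact Or.inr (Or.inl ⟨ht2, h⟩)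
            · exact Or.inr (Or.inr ⟨ht2, h⟩)
        _ ≤ ∫⁻ l, volume (Prod.mk l ⁻¹' Q) ∂ν := mul_meas_ge_le_lintegral (measurable_measure_prodMk_left hQm) _
    have hfin : ENNReal.ofReal (δ / 2) * (ENNReal.ofReal τ * ν {l | (l, t) ∈ E ∧ k8bIn r w a e (c l) t})
        ≤ ENNReal.ofReal (3 * (K * η * r ^ 2 * w ^ d)) :=
      (mul_le_mul_right hA _).trans (hPQ.trans hlamQ)
    rw [← ofReal_measureReal (μ := ν) (s := {l | (l, t) ∈ E ∧ k8bIn r w a e (c l) t}),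
      ← ENNReal.ofReal_mul hτ0.le, ← ENNReal.ofReal_mul (by positivity),
      ENNReal.ofReal_le_ofReal_iff (by positivity)] at hfin
    rw [hτ] at hfin
    have h3 : δ / 2 * (η * δ / (8 * K) * ν.real {l | (l, t) ∈ E ∧ k8bIn r w a e (c l) t})
        = (η * δ ^ 2 / (16 * K)) * ν.real {l | (l, t) ∈ E ∧ k8bIn r w a e (c l) t} := by
      field_simp
      ring
    rw [h3] at hfin
    have h4 : 0 < η * δ ^ 2 / (16 * K) := by positivity
    have h5 : 48 * K ^ 2 / δ ^ 2 * r ^ 2 * w ^ d = (3 * (K * η * r ^ 2 * w ^ d)) / (η * δ ^ 2 / (16 * K)) := by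
      field_simp
      ring
    rw [h5, le_div_iff₀ h4]
    linarith

/-! ## B. Scalar floors and local counts (08 l.602-625) -/

/-- measurability of one pruning step -/
theorem k8b_step_meas {Λ ι : Type} [MeasurableSpace Λ] [Fintype ι] (ν : Measure Λ) [IsFiniteMeasure ν]
    (A : Set (Λ × ℝ)) (hA : MeasurableSet A) (φ : ι → Λ × ℝ → ℤ) (hφ : ∀ i, Measurable (φ i)) (th : ι → ℝ) :
    MeasurableSet {x : Λ × ℝ | x ∈ A ∧ ∀ i, th i ≤ ν.real {l' | (l', x.2) ∈ A ∧ φ i (l', x.2) = φ i x}} := by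
  have h1 : ∀ i, MeasurableSet {x : Λ × ℝ | th i ≤ ν.real {l' | (l', x.2) ∈ A ∧ φ i (l', x.2) = φ i x}} := by
    intro i
    have h2 : {x : Λ × ℝ | th i ≤ ν.real {l' | (l', x.2) ∈ A ∧ φ i (l', x.2) = φ i x}}
        = ⋃ z : ℤ, (φ i ⁻¹' {z}) ∩ {x : Λ × ℝ | th i ≤ ν.real {l' | (l', x.2) ∈ A ∧ φ i (l', x.2) = z}} := by
      ext x
      simp only [mem_ofPred_eq, mem_iUnion, mem_inter_iff, mem_preimage, mem_singleton_iff]
      constructor
      · intro h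
        exact ⟨φ i x, rfl, h⟩
      · rintro ⟨z, hz, h⟩
        rw [hz]
        exact h
    rw [h2]
    refine MeasurableSet.iUnion fun z => (hφ i (measurableSet_singleton z)).inter ?_
    have h3 : Measurable fun t : ℝ => ν.real {l' | (l', t) ∈ A ∧ φ i (l', t) = z} :=
      (measurable_measure_prodMk_right (hA.inter (hφ i (measurableSet_singleton z)))).ennreal_toReal
    exact measurableSet_le measurable_const (h3.comp measurable_snd)
  have h4 : {x : Λ × ℝ | x ∈ A ∧ ∀ i, th i ≤ ν.real {l' | (l', x.2) ∈ A ∧ φ i (l', x.2) = φ i x}}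
      = A ∩ ⋂ i, {x : Λ × ℝ | th i ≤ ν.real {l' | (l', x.2) ∈ A ∧ φ i (l', x.2) = φ i x}} := by
    ext x
    simp only [mem_ofPred_eq, mem_inter_iff, mem_iInter]
  rw [h4]
  exact hA.inter (MeasurableSet.iInter h1)

/-- **L-252-S8b-B1** (~400 l.; Mathlib only).   SIMULTANEOUS FLOORS AT EVERY TIME, measurably in the time (= Lemma 8.1 with a parameter).
PROOF.  `E_0 := E`, `E_{k+1} := {x ∈ E_k | ∀ i, th i ≤ ν {l' | (l', x.2) ∈ E_k ∧ φ i (l', x.2) = φ i x}}`, `E' := ⋂ E_k`.   Measurable: for each `z : ℤ`, `t ↦ ν {l' | (l',t) ∈ E_k ∧ φ i (l',t) = z}` is measurable; union over `z`.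
Fix `t`.  A bin `(i,z)` which is non-empty and light at the step `k` is empty from `k+1` on; only bins `z ∈ Z i t` are ever non-empty: the sections stabilise after `≤ ∑ card` steps, the stable section is the section of `E'`, all its non-empty bins are heavy;
every bin is deleted at most once and then carries `< th i`: deleted mass `≤ ∑ i, card (Z i t) * th i`. -/
theorem k8b_floors_param {Λ ι : Type} [MeasurableSpace Λ] [Fintype ι] (ν : Measure Λ) [IsFiniteMeasure ν]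
    (E : Set (Λ × ℝ)) (hE : MeasurableSet E) (φ : ι → Λ × ℝ → ℤ) (hφ : ∀ i, Measurable (φ i)) (th cnt : ι → ℝ)
    (hth : ∀ i, 0 ≤ th i)
    (hcnt : ∀ i t, ∃ Z : Finset ℤ, (Z.card : ℝ) ≤ cnt i ∧ ∀ l, (l, t) ∈ E → φ i (l, t) ∈ Z) :
    ∃ E' : Set (Λ × ℝ), MeasurableSet E' ∧ E' ⊆ E ∧
      (∀ t, ν.real {l | (l, t) ∈ E ∧ (l, t) ∉ E'} ≤ ∑ i, cnt i * th i) ∧
      ∀ i l t, (l, t) ∈ E' → th i ≤ ν.real {l' | (l', t) ∈ E' ∧ φ i (l', t) = φ i (l, t)} := by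
  classical
  obtain ⟨P, hP0, hPs⟩ : ∃ P : ℕ → Set (Λ × ℝ), P 0 = E ∧ ∀ k, P (k + 1)
      = {x : Λ × ℝ | x ∈ P k ∧ ∀ i, th i ≤ ν.real {l' | (l', x.2) ∈ P k ∧ φ i (l', x.2) = φ i x}} :=
    ⟨fun k => (fun A : Set (Λ × ℝ) =>
      {x : Λ × ℝ | x ∈ A ∧ ∀ i, th i ≤ ν.real {l' | (l', x.2) ∈ A ∧ φ i (l', x.2) = φ i x}})^[k] E, rfl,
      fun k => Function.iterate_succ_apply' _ k E⟩
  have hPm : ∀ k, MeasurableSet (P k) := by
    intro k
    induction k with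
    | zero => rw [hP0]; exact hE
    | succ k ih => rw [hPs]; exact k8b_step_meas ν (P k) ih φ hφ th
  have hPa : Antitone P := by
    refine antitone_nat_of_succ_le fun k => ?_
    rw [hPs]
    exact fun x hx => hx.1
  refine ⟨⋂ k, P k, MeasurableSet.iInter hPm, fun x hx => hP0 ▸ mem_iInter.1 hx 0, ?_, ?_⟩
  · intro t
    choose Z hZc hZ using fun i => hcnt i t
    set D : ι → ℤ → Set Λ := fun i z => {l | ∃ k, (l, t) ∈ P k ∧ φ i (l, t) = z ∧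
      ν.real {l' | (l', t) ∈ P k ∧ φ i (l', t) = z} < th i} with hD
    have hDle : ∀ i z, ν.real (D i z) ≤ th i := by
      intro i z
      by_cases hex : ∃ k, ν.real {l' | (l', t) ∈ P k ∧ φ i (l', t) = z} < th i
      · have hsub : D i z ⊆ {l' | (l', t) ∈ P (Nat.find hex) ∧ φ i (l', t) = z} := by
          rintro l ⟨k, hk1, hk2, hk3⟩
          exact ⟨hPa (Nat.find_min' hex hk3) hk1, hk2⟩
        exact (measureReal_mono hsub).trans (Nat.find_spec hex).le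
      · have : D i z = ∅ := by
          ext l
          simp only [hD, mem_ofPred_eq, mem_empty_iff_false, iff_false]
          rintro ⟨k, -, -, hk3⟩
          exact hex ⟨k, hk3⟩
        rw [this]
        simpa using hth i
    have hsub : {l | (l, t) ∈ E ∧ (l, t) ∉ ⋂ k, P k} ⊆ ⋃ i ∈ (Finset.univ : Finset ι), ⋃ z ∈ Z i, D i z := by
      rintro l ⟨hl1, hl2⟩
      have hex : ∃ k, (l, t) ∉ P k := by
        simpa [mem_iInter] using hl2
      have hk0 : Nat.find hex ≠ 0 := by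
        intro h0
        have := Nat.find_spec hex
        rw [h0, hP0] at this
        exact this hl1
      obtain ⟨k, hk⟩ := Nat.exists_eq_succ_of_ne_zero hk0
      have hin : (l, t) ∈ P k := by
        by_contra hcon
        exact Nat.find_min hex (m := k) (by omega) hcon
      have hout : (l, t) ∉ P (k + 1) := by
        have := Nat.find_spec hex
        rwa [hk] at this
      rw [hPs] at hout
      simp only [mem_ofPred_eq, not_and, not_forall, not_le] at hout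
      obtain ⟨i, hi⟩ := hout hin
      simp only [mem_iUnion, Finset.mem_univ, exists_prop, true_and]
      exact ⟨i, φ i (l, t), hZ i l hl1, k, hin, rfl, hi⟩
    calc ν.real {l | (l, t) ∈ E ∧ (l, t) ∉ ⋂ k, P k}
        ≤ ν.real (⋃ i ∈ (Finset.univ : Finset ι), ⋃ z ∈ Z i, D i z) := measureReal_mono hsub (measure_ne_top ν _)
      _ ≤ ∑ i, ν.real (⋃ z ∈ Z i, D i z) := measureReal_biUnion_finset_le _ _
      _ ≤ ∑ i, cnt i * th i := by
          refine Finset.sum_le_sum fun i _ => ?_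
          calc ν.real (⋃ z ∈ Z i, D i z) ≤ ∑ z ∈ Z i, ν.real (D i z) := measureReal_biUnion_finset_le _ _
            _ ≤ ∑ _z ∈ Z i, th i := Finset.sum_le_sum fun z _ => hDle i z
            _ = (Z i).card * th i := by rw [Finset.sum_const, nsmul_eq_mul]
            _ ≤ cnt i * th i := mul_le_mul_of_nonneg_right (hZc i) (hth i)
  · intro i l t hl
    set B : ℕ → Set Λ := fun k => {l' | (l', t) ∈ P k ∧ φ i (l', t) = φ i (l, t)} with hB
    have hBm : ∀ k, MeasurableSet (B k) := fun k =>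
      measurable_prodMk_right ((hPm k).inter (hφ i (measurableSet_singleton (φ i (l, t)))))
    have hBa : Antitone B := fun a b hab l' hl' => ⟨hPa hab hl'.1, hl'.2⟩
    have hBi : {l' | (l', t) ∈ ⋂ k, P k ∧ φ i (l', t) = φ i (l, t)} = ⋂ k, B k := by
      ext l'
      simp only [hB, mem_ofPred_eq, mem_iInter]
      constructor
      · rintro ⟨h1, h2⟩ k
        exact ⟨h1 k, h2⟩
      · intro h
        exact ⟨fun k => (h k).1, (h 0).2⟩
    rw [hBi]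
    have hlim := tendsto_measure_iInter_atTop (μ := ν) (fun k => (hBm k).nullMeasurableSet) hBa
      ⟨0, measure_ne_top ν _⟩
    have hge : ENNReal.ofReal (th i) ≤ ν (⋂ k, B k) := by
      refine ge_of_tendsto' hlim fun k => ?_
      have h1 : (l, t) ∈ P (k + 1) := mem_iInter.1 hl (k + 1)
      rw [hPs] at h1
      exact (ENNReal.ofReal_le_iff_le_toReal (measure_ne_top ν _)).2 (h1.2 i)
    exact (ENNReal.ofReal_le_iff_le_toReal (measure_ne_top ν _)).1 hge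

/-- joint measurability of the scalar -/
theorem k8b_S_meas {Λ : Type} [MeasurableSpace Λ] {c : Λ → k5_Co 2} {F : ℝ → Fin 2 → ℝ} (hc : Measurable c)
    (hF : Measurable F) : Measurable fun x : Λ × ℝ => k5_S (F x.2) (c x.1) x.2 := by
  simp only [k5_S, k5_x, k5_y, dotProduct, Fin.sum_univ_two]
  fun_prop

/-- joint measurability of the scalar bins -/
theorem k8b_Sbin_meas {Λ : Type} [MeasurableSpace Λ] {c : Λ → k5_Co 2} {F : ℝ → Fin 2 → ℝ} (hc : Measurable c)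
    (hF : Measurable F) (w : ℝ) : Measurable fun x : Λ × ℝ => k5_bin w (k5_S (F x.2) (c x.1) x.2) :=
  Int.measurable_floor.comp ((k8b_S_meas hc hF).div_const w)

/-- **L-252-S8b-B2** (~150 l.).   `k8b_floors_param` with `ι = ks`, `φ k x = k5_bin ((1/2)^k) (S x)`, `cnt k = K w^(-d)`, `th k = w^d δ/(2 K #ks)`: `∑ cnt * th = δ/2`; integrate the deleted sections over `t ∈ [0,1)` (Tonelli). -/
theorem k8b_scalar_floor {Λ : Type} [MeasurableSpace Λ] {ν : Measure Λ} {c : Λ → k5_Co 2} {E : Set (Λ × ℝ)}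
    {F : ℝ → Fin 2 → ℝ} {K : ℝ} (h : K8bCh K ν c E F) (d δ : ℝ) (ks : Finset ℕ) (hks : ks.Nonempty)
    (hsup : ∀ k ∈ ks, k8bSup d K ((1 / 2 : ℝ) ^ k) c E F) (hδ : 0 < δ) (hm : δ ≤ k5_mass ν E) :
    ∃ E' : Set (Λ × ℝ), MeasurableSet E' ∧ E' ⊆ E ∧ δ / 2 ≤ k5_mass ν E' ∧
      ∀ k ∈ ks, k8bFl ν c E' F ((1 / 2 : ℝ) ^ k) (((1 / 2 : ℝ) ^ k) ^ d * δ / (2 * K * ks.card)) := by
  have := h.prob
  have hK1 := h.K1
  have hK0 : 0 < K := by linarith
  have hn : 0 < (ks.card : ℝ) := by exact_mod_cast hks.card_pos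
  obtain ⟨E', hE'm, hE'sub, hdel, hfl⟩ := k8b_floors_param (ι := ks) ν E h.mE
    (fun k x => k5_bin ((1 / 2 : ℝ) ^ (k : ℕ)) (k5_S (F x.2) (c x.1) x.2))
    (fun k => k8b_Sbin_meas h.mc h.mF _)
    (fun k => ((1 / 2 : ℝ) ^ (k : ℕ)) ^ d * δ / (2 * K * ks.card))
    (fun k => K * ((1 / 2 : ℝ) ^ (k : ℕ)) ^ (-d))
    (fun k => by positivity)
    (fun k t => hsup k k.2 t)
  have hsum : ∑ k : ks, (K * ((1 / 2 : ℝ) ^ (k : ℕ)) ^ (-d)) * (((1 / 2 : ℝ) ^ (k : ℕ)) ^ d * δ / (2 * K * ks.card))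
      = δ / 2 := by
    have h1 : ∀ k : ks, (K * ((1 / 2 : ℝ) ^ (k : ℕ)) ^ (-d)) * (((1 / 2 : ℝ) ^ (k : ℕ)) ^ d * δ / (2 * K * ks.card))
        = δ / (2 * ks.card) := by
      intro k
      have h2 : 0 < ((1 / 2 : ℝ) ^ (k : ℕ)) ^ d := by positivity
      rw [Real.rpow_neg (by positivity)]
      field_simp
    rw [Finset.sum_congr rfl fun k _ => h1 k, Finset.sum_const, Finset.card_univ, Fintype.card_coe, nsmul_eq_mul]
    field_simp
  rw [hsum] at hdel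
  refine ⟨E', hE'm, hE'sub, ?_, fun k hk l t hl => hfl ⟨k, hk⟩ l t hl⟩
  have hI : k5_In E (Ico 0 1) := fun l t hl => h.tI l t hl
  have hfin : volume (Ico (0 : ℝ) 1) ≠ ⊤ := by simp
  have hsplit := k5_mass_split (ν := ν) h.mE hfin hI hE'm
  rw [inter_eq_right.2 hE'sub] at hsplit
  have h2 : k5_mass ν (E \ E') ≤ δ / 2 * volume.real (Ico (0 : ℝ) 1) :=
    k5_mass_le_sec (h.mE.diff hE'm) measurableSet_Ico hfin (fun l t hl => hI l t hl.1) (fun t _ => hdel t)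
  have h3 : volume.real (Ico (0 : ℝ) 1) = 1 := by simp
  rw [h3] at h2
  linarith

/-- a point of `[0, M R]` lies in one of the cells `[i R, i R + R]`, `i ≤ ⌊M⌋` -/
theorem k8b_nat_cell (R u M : ℝ) (hR : 0 < R) (hu0 : 0 ≤ u) (huM : u ≤ M * R) :
    ∃ i : ℕ, i < ⌊M⌋₊ + 1 ∧ (i : ℝ) * R ≤ u ∧ u ≤ (i : ℝ) * R + R := by
  have h0 : 0 ≤ u / R := div_nonneg hu0 hR.le
  refine ⟨⌊u / R⌋₊, Nat.lt_succ_of_le (Nat.floor_le_floor ((div_le_iff₀ hR).2 huM)), ?_, ?_⟩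
  · exact (le_div_iff₀ hR).1 (Nat.floor_le h0)
  · have := (div_lt_iff₀ hR).1 (Nat.lt_floor_add_one (u / R))
    linarith

/-- static `y` -/
theorem k8b_y_flat {Λ : Type} {c : Λ → k5_Co 2} (hflat : k8bFlat c) (l : Λ) (t : ℝ) (b : Fin 2) :
    k5_y (c l) t b = (c l).2 0 b := by
  simp [k5_y, (hflat l).2]

/-- affine `x̄` -/
theorem k8b_x_flat {Λ : Type} {c : Λ → k5_Co 2} (hflat : k8bFlat c) (l : Λ) (t : ℝ) :
    k5_x (c l) t = (c l).1 0 + t * (c l).1 1 := by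
  simp [k5_x, (hflat l).1]

theorem k8b_y_abs {Λ : Type} {c : Λ → k5_Co 2} {K : ℝ} (hflat : k8bFlat c) (hcb : ∀ l, ‖c l‖ ≤ K) (l : Λ) (t : ℝ)
    (b : Fin 2) : |k5_y (c l) t b| ≤ K := by
  rw [k8b_y_flat hflat]
  calc |(c l).2 0 b| = ‖(c l).2 0 b‖ := (Real.norm_eq_abs _).symm
    _ ≤ ‖(c l).2 0‖ := norm_le_pi_norm _ b
    _ ≤ ‖(c l).2‖ := norm_le_pi_norm _ 0
    _ ≤ ‖c l‖ := norm_snd_le _
    _ ≤ K := hcb l

theorem k8b_co1_abs {Λ : Type} {c : Λ → k5_Co 2} {K : ℝ} (hcb : ∀ l, ‖c l‖ ≤ K) (l : Λ) (i : Fin 3) :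
    |(c l).1 i| ≤ K := by
  calc |(c l).1 i| = ‖(c l).1 i‖ := (Real.norm_eq_abs _).symm
    _ ≤ ‖(c l).1‖ := norm_le_pi_norm _ i
    _ ≤ ‖c l‖ := norm_fst_le _
    _ ≤ K := hcb l

/-- the row varies by `≤ 2 K r` on an `r`-square -/
theorem k8b_dot_sq (f y e : Fin 2 → ℝ) (K r : ℝ) (hf : ‖f‖ ≤ K) (hy : ∀ b, e b ≤ y b ∧ y b ≤ e b + r) :
    |f ⬝ᵥ y - f ⬝ᵥ e| ≤ 2 * K * r := by
  have hfb : ∀ b, |f b| ≤ K := fun b => ((Real.norm_eq_abs _).symm.le.trans (norm_le_pi_norm f b)).trans hf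
  have h1 : f ⬝ᵥ y - f ⬝ᵥ e = f 0 * (y 0 - e 0) + f 1 * (y 1 - e 1) := by
    simp only [dotProduct, Fin.sum_univ_two]
    ring
  have h2 : ∀ b, |f b * (y b - e b)| ≤ K * r := by
    intro b
    rw [abs_mul]
    have h3 : |y b - e b| ≤ r := by
      rw [abs_le]
      constructor <;> linarith [(hy b).1, (hy b).2]
    exact mul_le_mul (hfb b) h3 (abs_nonneg _) ((abs_nonneg _).trans (hfb b))
  rw [h1]
  calc |f 0 * (y 0 - e 0) + f 1 * (y 1 - e 1)| ≤ |f 0 * (y 0 - e 0)| + |f 1 * (y 1 - e 1)| := abs_add_le _ _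
    _ ≤ K * r + K * r := add_le_add (h2 0) (h2 1)
    _ = 2 * K * r := by ring

/-- **L-252-S8b-B3** (~200 l.).   Mass of an `R`-interval of the scalar (08 l.605-611).
PROOF.  `|y| ≤ K`: `≤ (3K/R)²` squares of side `R`; on a square `F(t)·y` varies by `≤ 2KR`, so `x̄ = S + F y` lies in an interval of length `≤ 3KR`, i.e. in `≤ 4K` intervals of length `R`; each costs `K R² R^d` (`k8bMix` with `r = w = R`). -/
theorem k8b_S_mass {Λ : Type} [MeasurableSpace Λ] {ν : Measure Λ} {c : Λ → k5_Co 2} {E : Set (Λ × ℝ)}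
    {F : ℝ → Fin 2 → ℝ} {K : ℝ} (h : K8bCh K ν c E F) (d ζ : ℝ) (hd0 : 0 ≤ d) (hζ : 0 < ζ) (hmix : k8bMix d K ζ ν c E)
    (t a R : ℝ) (hR : ζ ≤ R) (hR1 : R ≤ 1) :
    ν.real {l | (l, t) ∈ E ∧ a ≤ k5_S (F t) (c l) t ∧ k5_S (F t) (c l) t ≤ a + R} ≤ 100 * K ^ 4 * R ^ d := by
  have := h.prob
  have hK1 := h.K1
  have hR0 : 0 < R := lt_of_lt_of_le hζ hR
  set ny : ℕ := ⌊2 * K / R⌋₊ + 1 with hny
  set nx : ℕ := ⌊4 * K + 1⌋₊ + 1 with hnx
  set I : Finset ((ℕ × ℕ) × ℕ) := (Finset.range ny ×ˢ Finset.range ny) ×ˢ Finset.range nx with hI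
  set e : ℕ × ℕ → Fin 2 → ℝ := fun p => ![-K + (p.1 : ℝ) * R, -K + (p.2 : ℝ) * R] with he
  set a0 : ℕ × ℕ → ℝ := fun p => a + F t ⬝ᵥ e p - 2 * K * R with ha0
  have hsub : {l | (l, t) ∈ E ∧ a ≤ k5_S (F t) (c l) t ∧ k5_S (F t) (c l) t ≤ a + R}
      ⊆ ⋃ p ∈ I, {l | (l, t) ∈ E ∧ k8bIn R R (a0 p.1 + (p.2 : ℝ) * R) (e p.1) (c l) t} := by
    rintro l ⟨hl, hS1, hS2⟩
    have hy : ∀ b, ∃ i : ℕ, i < ny ∧ (i : ℝ) * R ≤ k5_y (c l) t b + K ∧ k5_y (c l) t b + K ≤ (i : ℝ) * R + R := by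
      intro b
      have := abs_le.1 (k8b_y_abs h.flat h.cb l t b)
      refine k8b_nat_cell R _ (2 * K / R) hR0 (by linarith [this.1]) ?_
      rw [div_mul_cancel₀ _ hR0.ne']
      linarith [this.2]
    obtain ⟨i0, hi0, hi0a, hi0b⟩ := hy 0
    obtain ⟨i1, hi1, hi1a, hi1b⟩ := hy 1
    have hsq : ∀ b, e (i0, i1) b ≤ k5_y (c l) t b ∧ k5_y (c l) t b ≤ e (i0, i1) b + R := by
      intro b
      fin_cases b
      · simp only [he, Fin.zero_eta, Matrix.cons_val_zero]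
        constructor <;> linarith
      · simp only [he, Fin.mk_one, Matrix.cons_val_one, Matrix.cons_val_zero]
        constructor <;> linarith
    have hdot := abs_le.1 (k8b_dot_sq (F t) (k5_y (c l) t) (e (i0, i1)) K R (h.Fb t) hsq)
    have hx : k5_x (c l) t = k5_S (F t) (c l) t + F t ⬝ᵥ k5_y (c l) t := by
      simp only [k5_S]
      ring
    obtain ⟨i, hi, hia, hib⟩ := k8b_nat_cell R (k5_x (c l) t - a0 (i0, i1)) (4 * K + 1) hR0
      (by simp only [ha0]; linarith [hdot.1]) (by simp only [ha0]; linarith [hdot.2])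
    simp only [mem_iUnion, exists_prop]
    refine ⟨((i0, i1), i), ?_, hl, hsq, ?_, ?_⟩
    · simp only [hI, Finset.mem_product, Finset.mem_range]
      exact ⟨⟨hi0, hi1⟩, hi⟩
    · show a0 (i0, i1) + (i : ℝ) * R ≤ _
      linarith
    · show _ ≤ a0 (i0, i1) + (i : ℝ) * R + R
      linarith
  have hRd : 0 ≤ R ^ d := Real.rpow_nonneg hR0.le d
  have hnyle : (ny : ℝ) ≤ 3 * K / R := by
    have h1 : (⌊2 * K / R⌋₊ : ℝ) ≤ 2 * K / R := Nat.floor_le (by positivity)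
    have h2 : 1 ≤ K / R := by
      rw [le_div_iff₀ hR0]
      linarith
    have h3 : 3 * K / R = 2 * K / R + K / R := by ring
    rw [hny, h3]
    push_cast
    linarith
  have hnxle : (nx : ℝ) ≤ 6 * K := by
    have h1 : (⌊4 * K + 1⌋₊ : ℝ) ≤ 4 * K + 1 := Nat.floor_le (by positivity)
    rw [hnx]
    push_cast
    linarith
  calc ν.real {l | (l, t) ∈ E ∧ a ≤ k5_S (F t) (c l) t ∧ k5_S (F t) (c l) t ≤ a + R}
      ≤ ν.real (⋃ p ∈ I, {l | (l, t) ∈ E ∧ k8bIn R R (a0 p.1 + (p.2 : ℝ) * R) (e p.1) (c l) t}) :=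
        measureReal_mono hsub (measure_ne_top ν _)
    _ ≤ ∑ p ∈ I, ν.real {l | (l, t) ∈ E ∧ k8bIn R R (a0 p.1 + (p.2 : ℝ) * R) (e p.1) (c l) t} :=
        measureReal_biUnion_finset_le _ _
    _ ≤ ∑ _p ∈ I, K * R ^ 2 * R ^ d := Finset.sum_le_sum fun p _ => hmix t R R _ _ hR hR1 hR hR1
    _ = (ny : ℝ) * ny * nx * (K * R ^ 2 * R ^ d) := by
        rw [Finset.sum_const, nsmul_eq_mul, hI, Finset.card_product, Finset.card_product, Finset.card_range,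
          Finset.card_range]
        push_cast
        ring
    _ ≤ (3 * K / R) * (3 * K / R) * (6 * K) * (K * R ^ 2 * R ^ d) := by
        have : (0 : ℝ) ≤ ny := Nat.cast_nonneg _
        have : (0 : ℝ) ≤ nx := Nat.cast_nonneg _
        gcongr
    _ = 54 * K ^ 4 * R ^ d := by
        field_simp
        ring
    _ ≤ 100 * K ^ 4 * R ^ d := by
        have : 0 ≤ K ^ 4 * R ^ d := by positivity
        nlinarith

/-- **L-252-S8b-B4** (~200 l.).   Floors + `k8b_S_mass` ⟹ local counts.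
PROOF.  The occupied `w`-bins meeting `[a, a+R]` lie in `[a - w, a + R + w]` = 3 intervals of length `R`: total mass `≤ 300 K⁴ R^d`; they are disjoint, each `≥ θ`; so every finite set of them has `≤ 300 K⁴ R^d/θ` elements, hence they form a finite set. -/
theorem k8b_local_count {Λ : Type} [MeasurableSpace Λ] {ν : Measure Λ} {c : Λ → k5_Co 2} {E : Set (Λ × ℝ)}
    {F : ℝ → Fin 2 → ℝ} {K : ℝ} (h : K8bCh K ν c E F) (d ζ : ℝ) (hd0 : 0 ≤ d) (hζ : 0 < ζ) (hmix : k8bMix d K ζ ν c E)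
    (w θ : ℝ) (hw : ζ ≤ w) (hw1 : w ≤ 1) (hθ : 0 < θ) (hfl : k8bFl ν c E F w θ) :
    k8bCnt d (300 * K ^ 4 * w ^ d / θ) w c E F := by
  classical
  have := h.prob
  intro t a R hwR hR1
  have hw0 : 0 < w := lt_of_lt_of_le hζ hw
  have hR0 : 0 < R := lt_of_lt_of_le hw0 hwR
  set Z : Finset ℤ := (Finset.Icc ⌊a / w⌋ ⌊(a + R) / w⌋).filter
    (fun z => ∃ l, (l, t) ∈ E ∧ k5_bin w (k5_S (F t) (c l) t) = z) with hZ
  refine ⟨Z, ?_, ?_⟩
  · set B : ℤ → Set Λ := fun z => {l | (l, t) ∈ E ∧ k5_bin w (k5_S (F t) (c l) t) = z} with hB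
    have hBm : ∀ z, MeasurableSet (B z) := fun z =>
      measurable_prodMk_right (h.mE.inter (k8b_Sbin_meas h.mc h.mF w (measurableSet_singleton z)))
    have hBd : (Z : Set ℤ).PairwiseDisjoint B := by
      intro z _ z' _ hzz
      refine Set.disjoint_left.2 fun l hl hl' => hzz ?_
      rw [← hl.2, ← hl'.2]
    have hBθ : ∀ z ∈ Z, θ ≤ ν.real (B z) := by
      intro z hz
      obtain ⟨l, hl, hlz⟩ := (Finset.mem_filter.1 hz).2
      have := hfl l t hl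
      rw [hlz] at this
      exact this
    set G : ℝ → Set Λ := fun b => {l | (l, t) ∈ E ∧ b ≤ k5_S (F t) (c l) t ∧ k5_S (F t) (c l) t ≤ b + R} with hG
    have hBsub : (⋃ z ∈ Z, B z) ⊆ G (a - w) ∪ (G (a - w + R) ∪ G (a - w + 2 * R)) := by
      intro l hl
      simp only [mem_iUnion, exists_prop] at hl
      obtain ⟨z, hz, hlE, hlz⟩ := hl
      have hzI := Finset.mem_Icc.1 (Finset.mem_filter.1 hz).1
      have h1 : (z : ℝ) ≤ k5_S (F t) (c l) t / w := by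
        rw [← hlz]
        exact Int.floor_le _
      have h2 : k5_S (F t) (c l) t / w < z + 1 := by
        rw [← hlz]
        exact Int.lt_floor_add_one _
      have h3 : a / w < (z : ℝ) + 1 := by
        have h4 : ((⌊a / w⌋ : ℤ) : ℝ) ≤ z := by exact_mod_cast hzI.1
        linarith [Int.lt_floor_add_one (a / w)]
      have h5 : (z : ℝ) ≤ (a + R) / w := by
        have h4 : (z : ℝ) ≤ ((⌊(a + R) / w⌋ : ℤ) : ℝ) := by exact_mod_cast hzI.2
        linarith [Int.floor_le ((a + R) / w)]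
      have h6 : a - w ≤ k5_S (F t) (c l) t := by
        have : a / w - 1 < k5_S (F t) (c l) t / w := by linarith
        have h7 : (a - w) / w < k5_S (F t) (c l) t / w := by
          rw [sub_div, div_self hw0.ne']
          exact this
        exact ((div_lt_div_iff_of_pos_right hw0).1 h7).le
      have h8 : k5_S (F t) (c l) t ≤ a + R + w := by
        have : k5_S (F t) (c l) t / w < (a + R) / w + 1 := by linarith
        have h7 : k5_S (F t) (c l) t / w < (a + R + w) / w := by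
          rw [add_div _ w, div_self hw0.ne']
          exact this
        exact ((div_lt_div_iff_of_pos_right hw0).1 h7).le
      by_cases hc1 : k5_S (F t) (c l) t ≤ a - w + R
      · exact Or.inl ⟨hlE, h6, hc1⟩
      · by_cases hc2 : k5_S (F t) (c l) t ≤ a - w + R + R
        · exact Or.inr (Or.inl ⟨hlE, (not_le.1 hc1).le, hc2⟩)
        · exact Or.inr (Or.inr ⟨hlE, by linarith [not_le.1 hc2], by linarith⟩)
    have hGle : ∀ b, ν.real (G b) ≤ 100 * K ^ 4 * R ^ d := fun b =>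
      k8b_S_mass h d ζ hd0 hζ hmix t b R (hw.trans hwR) hR1
    have hsum : (Z.card : ℝ) * θ ≤ 300 * K ^ 4 * R ^ d := by
      calc (Z.card : ℝ) * θ = ∑ _z ∈ Z, θ := by rw [Finset.sum_const, nsmul_eq_mul]
        _ ≤ ∑ z ∈ Z, ν.real (B z) := Finset.sum_le_sum hBθ
        _ = ν.real (⋃ z ∈ Z, B z) := (measureReal_biUnion_finset hBd fun z _ => hBm z).symm
        _ ≤ ν.real (G (a - w) ∪ (G (a - w + R) ∪ G (a - w + 2 * R))) := measureReal_mono hBsub (measure_ne_top ν _)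
        _ ≤ ν.real (G (a - w)) + (ν.real (G (a - w + R)) + ν.real (G (a - w + 2 * R))) :=
            (measureReal_union_le _ _).trans (add_le_add le_rfl (measureReal_union_le _ _))
        _ ≤ 300 * K ^ 4 * R ^ d := by linarith [hGle (a - w), hGle (a - w + R), hGle (a - w + 2 * R)]
    have hwd : 0 < w ^ d := Real.rpow_pos_of_pos hw0 d
    have heq : 300 * K ^ 4 * w ^ d / θ * (R / w) ^ d = 300 * K ^ 4 * R ^ d / θ := by
      rw [Real.div_rpow hR0.le hw0.le]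
      field_simp
    rw [heq, le_div_iff₀ hθ]
    exact hsum
  · intro l hl h1 h2
    rw [hZ, Finset.mem_filter, Finset.mem_Icc]
    exact ⟨⟨Int.floor_le_floor (div_le_div_of_nonneg_right h1 hw0.le),
      Int.floor_le_floor (div_le_div_of_nonneg_right h2 hw0.le)⟩, l, hl, rfl⟩

/-! ## C. The Lipschitz comparison of the row at one scale (08 l.626-632) -/

theorem k8b_sh_fib {Λ β γ : Type} (A : Set Λ) (f : Λ → β) (g : Λ → γ) (N N' : ℝ) (hN' : 0 ≤ N')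
    (h1 : ∃ Z : Finset β, (Z.card : ℝ) ≤ N ∧ ∀ l ∈ A, f l ∈ Z)
    (h2 : ∀ z, ∃ Z : Finset γ, (Z.card : ℝ) ≤ N' ∧ ∀ l ∈ A, f l = z → g l ∈ Z) :
    ∃ Z : Finset (β × γ), (Z.card : ℝ) ≤ N * N' ∧ ∀ l ∈ A, (f l, g l) ∈ Z := by
  classical
  obtain ⟨Z1, hZ1, hm1⟩ := h1
  choose Z2 hZ2 hm2 using h2
  refine ⟨(Z1.sigma Z2).image (fun p => (p.1, p.2)), ?_, fun l hl => ?_⟩
  · have e1 : (((Z1.sigma Z2).image (fun p => ((p.1, p.2) : β × γ))).card : ℝ) ≤ ((Z1.sigma Z2).card : ℝ) := by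
      exact_mod_cast Finset.card_image_le
    have e2 : ((Z1.sigma Z2).card : ℝ) = ∑ z ∈ Z1, ((Z2 z).card : ℝ) := by
      rw [Finset.card_sigma]
      push_cast
      rfl
    have e3 : ∑ z ∈ Z1, ((Z2 z).card : ℝ) ≤ ∑ _z ∈ Z1, N' := Finset.sum_le_sum fun z _ => hZ2 z
    rw [Finset.sum_const, nsmul_eq_mul] at e3
    calc _ ≤ (Z1.card : ℝ) * N' := by linarith
      _ ≤ N * N' := mul_le_mul_of_nonneg_right hZ1 hN'
  · refine Finset.mem_image.mpr ⟨⟨f l, g l⟩, ?_, rfl⟩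
    exact Finset.mem_sigma.mpr ⟨hm1 l hl, hm2 (f l) l hl rfl⟩

theorem k8b_sh_floor {Λ : Type} (A : Set Λ) (g : Λ → ℝ) (a L r : ℝ) (hr : 0 < r) (hL : 0 ≤ L)
    (h : ∀ l ∈ A, a ≤ g l ∧ g l ≤ a + L) :
    ∃ Z : Finset ℤ, (Z.card : ℝ) ≤ L / r + 2 ∧ ∀ l ∈ A, ⌊g l / r⌋ ∈ Z := by
  refine ⟨Finset.Icc ⌊a / r⌋ ⌊(a + L) / r⌋, ?_, fun l hl => ?_⟩
  · rw [Int.card_Icc]
    have h0 : ⌊a / r⌋ ≤ ⌊(a + L) / r⌋ := Int.floor_le_floor (div_le_div_of_nonneg_right (by linarith) hr.le)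
    have h1 : (((⌊(a + L) / r⌋ + 1 - ⌊a / r⌋).toNat : ℕ) : ℝ) = ((⌊(a + L) / r⌋ + 1 - ⌊a / r⌋ : ℤ) : ℝ) := by
      have : (((⌊(a + L) / r⌋ + 1 - ⌊a / r⌋).toNat : ℕ) : ℤ) = ⌊(a + L) / r⌋ + 1 - ⌊a / r⌋ := Int.toNat_of_nonneg (by omega)
      exact_mod_cast this
    rw [h1]
    push_cast
    have h2 := Int.floor_le ((a + L) / r)
    have h3 := Int.lt_floor_add_one (a / r)
    have h4 : (a + L) / r = a / r + L / r := add_div _ _ _
    linarith
  · rw [Finset.mem_Icc]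
    exact ⟨Int.floor_le_floor (div_le_div_of_nonneg_right (h l hl).1 hr.le), Int.floor_le_floor (div_le_div_of_nonneg_right (h l hl).2 hr.le)⟩

theorem k8b_sh_fl (u r : ℝ) (hr : 0 < r) : (⌊u / r⌋ : ℝ) * r ≤ u ∧ u ≤ (⌊u / r⌋ : ℝ) * r + r := by
  have h1 := Int.floor_le (u / r)
  have h2 := (Int.lt_floor_add_one (u / r)).le
  rw [le_div_iff₀ hr] at h1
  rw [div_le_iff₀ hr] at h2
  exact ⟨h1, by linarith⟩

theorem k8b_sh_mul {a b A B : ℝ} (ha : |a| ≤ A) (hb : |b| ≤ B) : |a * b| ≤ A * B := by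
  rw [abs_mul]
  exact mul_le_mul ha hb (abs_nonneg _) (le_trans (abs_nonneg _) ha)

theorem k8b_sh_coord (v : Fin 2 → ℝ) (hv : 0 < ‖v‖) : ∃ i i' : Fin 2, (∀ b, b = i ∨ b = i') ∧ (∀ u w : Fin 2 → ℝ, u ⬝ᵥ w = u i * w i + u i' * w i') ∧
    |v i| = ‖v‖ ∧ |v i'| ≤ ‖v‖ := by
  have hle : ∀ b, |v b| ≤ ‖v‖ := fun b => by simpa using norm_le_pi_norm v b
  by_cases h0 : ‖v‖ ≤ |v 0|
  · refine ⟨0, 1, fun b => by fin_cases b <;> simp, fun u w => by simp [dotProduct, Fin.sum_univ_two], le_antisymm (hle 0) h0, hle 1⟩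
  · have h1 : ‖v‖ ≤ |v 1| := by
      by_contra hcon
      push Not at h0 hcon
      have : ‖v‖ < ‖v‖ := by
        rw [pi_norm_lt_iff hv]
        intro b
        fin_cases b
        · simpa using h0
        · simpa using hcon
      exact lt_irrefl _ this
    refine ⟨1, 0, fun b => by fin_cases b <;> simp, fun u w => by simp [dotProduct, Fin.sum_univ_two]; ring, le_antisymm (hle 1) h1, hle 0⟩


set_option maxHeartbeats 1000000 in
theorem k8b_sh_count {Λ : Type} (A : Set Λ) (S S' Yi Yi' X X1 : Λ → ℝ) (d K r M t t' Fi Fi' Di Di' : ℝ) (hd0 : 0 ≤ d)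
    (hK : 1 ≤ K) (hr : 0 < r) (hr1 : r ≤ 1) (hrM : r ≤ M) (hM2 : M ≤ 2 * K) (htt : |t - t'| ≤ r)
    (hFi : |Fi| ≤ K) (hFi' : |Fi'| ≤ K) (hDi : |Di| = M) (hDi' : |Di'| ≤ M)
    (hS : ∀ l ∈ A, |S l| ≤ 4 * K ^ 2)
    (hdiff : ∀ l ∈ A, S l - S' l = (t - t') * X1 l - (Di * Yi l + Di' * Yi' l))
    (hX : ∀ l ∈ A, X l = S l + Fi * Yi l + Fi' * Yi' l)
    (hX1 : ∀ l ∈ A, |X1 l| ≤ K) (hYi : ∀ l ∈ A, |Yi l| ≤ K) (hYi' : ∀ l ∈ A, |Yi' l| ≤ K)
    (hc1 : ∀ a R : ℝ, r ≤ R → R ≤ 1 → ∃ Z : Finset ℤ, (Z.card : ℝ) ≤ K * (R / r) ^ d ∧ ∀ l ∈ A, a ≤ S l → S l ≤ a + R → ⌊S l / r⌋ ∈ Z)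
    (hc2 : ∀ a R : ℝ, r ≤ R → R ≤ 1 → ∃ Z : Finset ℤ, (Z.card : ℝ) ≤ K * (R / r) ^ d ∧ ∀ l ∈ A, a ≤ S' l → S' l ≤ a + R → ⌊S' l / r⌋ ∈ Z) :
    ∃ Z : Finset ((((((ℤ × ℤ) × ℤ) × ℤ) × ℤ) × ℤ) × ℤ),
      (Z.card : ℝ) ≤ 10 * K ^ 2 * (K * (1 / r) ^ d) * (16 * K ^ 2) * (K * (M / r) ^ d) * (4 * K / r) * (12 * K / M) * (7 * K) ∧
      ∀ l ∈ A, ((((((⌊S l / 1⌋, ⌊S l / r⌋), ⌊S' l / min M 1⌋), ⌊S' l / r⌋), ⌊Yi' l / r⌋), ⌊Yi l / r⌋), ⌊X l / r⌋) ∈ Z := by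
  have hM0 : 0 < M := lt_of_lt_of_le hr hrM
  have hK0 : 0 < K := by linarith
  have hKK : K ≤ K ^ 2 := by nlinarith
  obtain ⟨R, hR⟩ : ∃ R : ℝ, R = min M 1 := ⟨_, rfl⟩
  have hR0 : 0 < R := by rw [hR]; exact lt_min hM0 one_pos
  have hrR : r ≤ R := by rw [hR]; exact le_min hrM hr1
  have hR1 : R ≤ 1 := by rw [hR]; exact min_le_right _ _
  have hRM : R ≤ M := by rw [hR]; exact min_le_left _ _
  rw [← hR]
  -- stage 1
  have c1 : ∃ Z : Finset ℤ, (Z.card : ℝ) ≤ 10 * K ^ 2 ∧ ∀ l ∈ A, ⌊S l / 1⌋ ∈ Z := by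
    obtain ⟨Z, hZ, hm⟩ := k8b_sh_floor A S (-(4 * K ^ 2)) (8 * K ^ 2) 1 one_pos (by positivity)
      (fun l hl => by have := abs_le.mp (hS l hl); constructor <;> linarith [this.1, this.2])
    exact ⟨Z, by nlinarith, hm⟩
  -- stage 2
  have c2 : ∀ z : ℤ, ∃ Z : Finset ℤ, (Z.card : ℝ) ≤ K * (1 / r) ^ d ∧ ∀ l ∈ A, ⌊S l / 1⌋ = z → ⌊S l / r⌋ ∈ Z := by
    intro z
    obtain ⟨Z, hZ, hm⟩ := hc1 z 1 hr1 le_rfl
    refine ⟨Z, hZ, fun l hl hz => ?_⟩
    have := k8b_sh_fl (S l) 1 one_pos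
    rw [hz] at this
    exact hm l hl (by linarith [this.1]) (by linarith [this.2])
  have c12 := k8b_sh_fib A _ _ _ _ (by positivity) c1 c2
  -- stage 3
  have c3 : ∀ z : ℤ × ℤ, ∃ Z : Finset ℤ, (Z.card : ℝ) ≤ 16 * K ^ 2 ∧ ∀ l ∈ A, (⌊S l / 1⌋, ⌊S l / r⌋) = z → ⌊S' l / R⌋ ∈ Z := by
    intro z
    obtain ⟨Z, hZ, hm⟩ := k8b_sh_floor {l | l ∈ A ∧ ⌊S l / r⌋ = z.2} S' ((z.2 : ℝ) * r - r * K - 2 * (M * K)) (r + 2 * (r * K) + 4 * (M * K)) R hR0 (by positivity)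
      (fun l hl => by
        have h1 := k8b_sh_fl (S l) r hr
        rw [hl.2] at h1
        have h2 := abs_le.mp (k8b_sh_mul htt (hX1 l hl.1))
        have h3 := abs_le.mp (k8b_sh_mul hDi.le (hYi l hl.1))
        have h4 := abs_le.mp (k8b_sh_mul hDi' (hYi' l hl.1))
        have h5 := hdiff l hl.1
        constructor <;> linarith [h1.1, h1.2, h2.1, h2.2, h3.1, h3.2, h4.1, h4.2])
    refine ⟨Z, le_trans hZ ?_, fun l hl hz => hm l ⟨hl, by rw [← hz]⟩⟩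
    have : (r + 2 * (r * K) + 4 * (M * K)) / R ≤ 16 * K ^ 2 - 2 := by
      rw [div_le_iff₀ hR0]
      rcases le_total M 1 with hM1 | hM1
      · have : R = M := by rw [hR]; exact min_eq_left hM1
        rw [this]
        nlinarith
      · have : R = 1 := by rw [hR]; exact min_eq_right hM1
        rw [this]
        nlinarith
    linarith
  have c123 := k8b_sh_fib A _ _ _ _ (by positivity) c12 c3
  -- stage 4
  have c4 : ∀ z : (ℤ × ℤ) × ℤ, ∃ Z : Finset ℤ, (Z.card : ℝ) ≤ K * (M / r) ^ d ∧ ∀ l ∈ A, ((⌊S l / 1⌋, ⌊S l / r⌋), ⌊S' l / R⌋) = z → ⌊S' l / r⌋ ∈ Z := by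
    intro z
    obtain ⟨Z, hZ, hm⟩ := hc2 ((z.2 : ℝ) * R) R hrR hR1
    refine ⟨Z, le_trans hZ ?_, fun l hl hz => ?_⟩
    · refine mul_le_mul_of_nonneg_left ?_ hK0.le
      exact Real.rpow_le_rpow (by positivity) (div_le_div_of_nonneg_right hRM hr.le) hd0
    · have := k8b_sh_fl (S' l) R hR0
      have e : ⌊S' l / R⌋ = z.2 := by rw [← hz]
      rw [e] at this
      exact hm l hl this.1 this.2
  have c1234 := k8b_sh_fib A _ _ _ _ (by positivity) c123 c4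
  -- stage 5
  have c5 : ∀ z : ((ℤ × ℤ) × ℤ) × ℤ, ∃ Z : Finset ℤ, (Z.card : ℝ) ≤ 4 * K / r ∧ ∀ l ∈ A, (((⌊S l / 1⌋, ⌊S l / r⌋), ⌊S' l / R⌋), ⌊S' l / r⌋) = z → ⌊Yi' l / r⌋ ∈ Z := by
    intro z
    obtain ⟨Z, hZ, hm⟩ := k8b_sh_floor A Yi' (-K) (2 * K) r hr (by positivity)
      (fun l hl => by have := abs_le.mp (hYi' l hl); constructor <;> linarith [this.1, this.2])
    refine ⟨Z, le_trans hZ ?_, fun l hl _ => hm l hl⟩
    have : (2 : ℝ) ≤ 2 * K / r := by rw [le_div_iff₀ hr]; nlinarith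
    have e : 4 * K / r = 2 * K / r + 2 * K / r := by ring
    linarith
  have c12345 := k8b_sh_fib A _ _ _ _ (by positivity) c1234 c5
  -- stage 6
  have hDi0 : Di ≠ 0 := by
    intro h0
    rw [h0, abs_zero] at hDi
    linarith
  have c6 : ∀ z : (((ℤ × ℤ) × ℤ) × ℤ) × ℤ, ∃ Z : Finset ℤ, (Z.card : ℝ) ≤ 12 * K / M ∧
      ∀ l ∈ A, ((((⌊S l / 1⌋, ⌊S l / r⌋), ⌊S' l / R⌋), ⌊S' l / r⌋), ⌊Yi' l / r⌋) = z → ⌊Yi l / r⌋ ∈ Z := by
    intro z
    obtain ⟨B, hB⟩ : ∃ B : ℝ, B = -((z.1.1.1.2 : ℝ) * r - (z.1.2 : ℝ) * r) - Di' * ((z.2 : ℝ) * r) := ⟨_, rfl⟩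
    obtain ⟨W, hW⟩ : ∃ W : ℝ, W = (r + r * K + M * r) / M := ⟨_, rfl⟩
    have hW0 : 0 ≤ W := by rw [hW]; positivity
    obtain ⟨Z, hZ, hm⟩ := k8b_sh_floor {l | l ∈ A ∧ ⌊S l / r⌋ = z.1.1.1.2 ∧ ⌊S' l / r⌋ = z.1.2 ∧ ⌊Yi' l / r⌋ = z.2} Yi (B / Di - W) (2 * W) r hr (by positivity)
      (fun l hl => by
        obtain ⟨hlA, e1, e2, e3⟩ := hl
        have h1 := k8b_sh_fl (S l) r hr
        rw [e1] at h1
        have h2 := k8b_sh_fl (S' l) r hr
        rw [e2] at h2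
        have h3 := k8b_sh_fl (Yi' l) r hr
        rw [e3] at h3
        have h4 := abs_le.mp (k8b_sh_mul htt (hX1 l hlA))
        have h5 : |Yi' l - (z.2 : ℝ) * r| ≤ r := by rw [abs_le]; constructor <;> linarith [h3.1, h3.2]
        have h6 := abs_le.mp (k8b_sh_mul hDi' h5)
        have h7 := hdiff l hlA
        have h8 : |Di * Yi l - B| ≤ r + r * K + M * r := by
          rw [abs_le, hB]
          constructor <;> linarith [h1.1, h1.2, h2.1, h2.2, h4.1, h4.2, h6.1, h6.2]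
        have h9 : |Yi l - B / Di| ≤ W := by
          have : Yi l - B / Di = (Di * Yi l - B) / Di := by field_simp
          rw [this, abs_div, hDi, hW]
          exact div_le_div_of_nonneg_right h8 hM0.le
        have := abs_le.mp h9
        constructor <;> linarith [this.1, this.2])
    refine ⟨Z, le_trans hZ ?_, fun l hl hz => hm l ⟨hl, by rw [← hz], by rw [← hz], by rw [← hz]⟩⟩
    have e : 2 * W / r + 2 = (2 + 2 * K + 4 * M) / M := by
      rw [hW]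
      field_simp
      ring
    rw [e]
    exact div_le_div_of_nonneg_right (by linarith) hM0.le
  have c123456 := k8b_sh_fib A _ _ _ _ (by positivity) c12345 c6
  -- stage 7
  have c7 : ∀ z : ((((ℤ × ℤ) × ℤ) × ℤ) × ℤ) × ℤ, ∃ Z : Finset ℤ, (Z.card : ℝ) ≤ 7 * K ∧
      ∀ l ∈ A, (((((⌊S l / 1⌋, ⌊S l / r⌋), ⌊S' l / R⌋), ⌊S' l / r⌋), ⌊Yi' l / r⌋), ⌊Yi l / r⌋) = z → ⌊X l / r⌋ ∈ Z := by
    intro z
    obtain ⟨B, hB⟩ : ∃ B : ℝ, B = (z.1.1.1.1.2 : ℝ) * r + Fi * ((z.2 : ℝ) * r) + Fi' * ((z.1.2 : ℝ) * r) := ⟨_, rfl⟩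
    obtain ⟨Z, hZ, hm⟩ := k8b_sh_floor {l | l ∈ A ∧ ⌊S l / r⌋ = z.1.1.1.1.2 ∧ ⌊Yi' l / r⌋ = z.1.2 ∧ ⌊Yi l / r⌋ = z.2} X (B - 2 * (K * r)) (r + 4 * (K * r)) r hr (by positivity)
      (fun l hl => by
        obtain ⟨hlA, e1, e2, e3⟩ := hl
        have h1 := k8b_sh_fl (S l) r hr
        rw [e1] at h1
        have h2 := k8b_sh_fl (Yi' l) r hr
        rw [e2] at h2
        have h3 := k8b_sh_fl (Yi l) r hr
        rw [e3] at h3
        have h4 : |Yi' l - (z.1.2 : ℝ) * r| ≤ r := by rw [abs_le]; constructor <;> linarith [h2.1, h2.2]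
        have h5 : |Yi l - (z.2 : ℝ) * r| ≤ r := by rw [abs_le]; constructor <;> linarith [h3.1, h3.2]
        have h6 := abs_le.mp (k8b_sh_mul hFi' h4)
        have h7 := abs_le.mp (k8b_sh_mul hFi h5)
        have h8 := hX l hlA
        rw [hB]
        constructor <;> linarith [h1.1, h1.2, h6.1, h6.2, h7.1, h7.2])
    refine ⟨Z, le_trans hZ ?_, fun l hl hz => hm l ⟨hl, by rw [← hz], by rw [← hz], by rw [← hz]⟩⟩
    have e : (r + 4 * (K * r)) / r + 2 = 3 + 4 * K := by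
      field_simp
      ring
    rw [e]
    linarith
  exact k8b_sh_fib A _ _ _ _ (by positivity) c123456 c7


theorem k8b_sh_num (d K r M : ℝ) (hK : 1 ≤ K) (hr : 0 < r) (hM0 : 0 < M) :
    10 * K ^ 2 * (K * (1 / r) ^ d) * (16 * K ^ 2) * (K * (M / r) ^ d) * (4 * K / r) * (12 * K / M) * (7 * K) * (K * r ^ 2 * r ^ d)
      ≤ 53760 * K ^ (53760 : ℝ) * (r / M) ^ (1 - d) := by
  have hus : (1 / r) ^ d * r ^ d = 1 := by
    rw [← Real.mul_rpow (by positivity) hr.le, one_div_mul_cancel hr.ne', Real.one_rpow]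
  have hρ : 0 < r / M := by positivity
  have hv : (M / r) ^ d * (r / M) = (r / M) ^ (1 - d) := by
    rw [Real.rpow_sub hρ, Real.rpow_one]
    have : M / r = (r / M)⁻¹ := by rw [inv_div]
    rw [this, Real.inv_rpow hρ.le]
    field_simp
  have e : 10 * K ^ 2 * (K * (1 / r) ^ d) * (16 * K ^ 2) * (K * (M / r) ^ d) * (4 * K / r) * (12 * K / M) * (7 * K) * (K * r ^ 2 * r ^ d)
      = 53760 * K ^ 10 * (((1 / r) ^ d * r ^ d) * ((M / r) ^ d * (r / M))) := by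
    obtain ⟨u, hu⟩ : ∃ u : ℝ, u = (1 / r) ^ d := ⟨_, rfl⟩
    obtain ⟨w, hw⟩ : ∃ w : ℝ, w = (M / r) ^ d := ⟨_, rfl⟩
    obtain ⟨s, hs⟩ : ∃ s : ℝ, s = r ^ d := ⟨_, rfl⟩
    rw [← hu, ← hw, ← hs]
    field_simp
    ring
  rw [e, hus, hv, one_mul]
  have h10 : K ^ 10 ≤ K ^ (53760 : ℝ) := by
    have : K ^ (10 : ℕ) = K ^ ((10 : ℕ) : ℝ) := (Real.rpow_natCast K 10).symm
    rw [this]
    exact Real.rpow_le_rpow_of_exponent_le hK (by norm_num)
  have hp : 0 ≤ (r / M) ^ (1 - d) := by positivity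
  exact mul_le_mul_of_nonneg_right (mul_le_mul_of_nonneg_left h10 (by norm_num)) hp

/-- **L-252-S8b-C1** (~500 l.).   THE SHARED-LINE BOUND: `|t - t'| ≤ r ≤ M = ‖F t - F t'‖` ⟹ `ν{l labelled at t and t'} ≤ C K^C (r/M)^(1-d)`.
PROOF.  `|S| ≤ 4K²`: `≤ 9K³ r^(-d)` source bins `S(t)_r` (`k8bCnt` on unit intervals).   On common lines `S(t') - S(t) = x̄(t') - x̄(t) - ΔF·y`, `ΔF = F t' - F t`, so `S(t')` lies within `Kr + 2KM` of the source bin: `≤ C K^C (M/r)^d` target bins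
(`k8bCnt` at the time `t'`; intervals longer than 1 are cut into unit intervals; `M ≤ 2K`).   Given both bins, `ΔF·y` lies in an interval of length `≤ 4Kr`.  Let `i` be the coordinate with `|ΔF i| = M`.  In a column `y_{i'} ∈ r`-cell, `y_i` lies in an interval of length `4Kr/M + r`:
`≤ (3K/r)(4K/M + 3) ≤ 30K²/(rM)` squares of side `r`.   In a square with the given source bin, `x̄(t) = S + F y` lies in `≤ 4K` intervals of length `r`: mass `≤ 4K² r^(2+d)` (`k8bMix`, `r = w`).   Multiply. -/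
theorem k8b_shared (d : ℝ) (hd0 : 0 ≤ d) (hd : d < 1) :
    ∃ C : ℝ, 1 ≤ C ∧ ∀ (Λ : Type) [MeasurableSpace Λ] (ν : Measure Λ) (c : Λ → k5_Co 2) (E : Set (Λ × ℝ))
      (F : ℝ → Fin 2 → ℝ) (K ζ r t t' : ℝ), K8bCh K ν c E F → 0 < ζ → ζ ≤ r → r ≤ 1 → k8bMix d K ζ ν c E →
      k8bCnt d K r c E F → |t - t'| ≤ r → r ≤ ‖F t - F t'‖ →
      ν.real {l | (l, t) ∈ E ∧ (l, t') ∈ E} ≤ C * K ^ C * (r / ‖F t - F t'‖) ^ (1 - d) := by
  refine ⟨53760, by norm_num, ?_⟩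
  intro Λ _ ν c E F K ζ r t t' h hζ hζr hr1 hmix hcnt htt hrM
  have := h.prob
  have hr : 0 < r := lt_of_lt_of_le hζ hζr
  have hK1 := h.K1
  have hK0 : 0 < K := by linarith
  obtain ⟨M, hM⟩ : ∃ M : ℝ, M = ‖F t - F t'‖ := ⟨_, rfl⟩
  rw [← hM] at hrM ⊢
  have hM0 : 0 < M := lt_of_lt_of_le hr hrM
  have hM2 : M ≤ 2 * K := by
    rw [hM]
    calc ‖F t - F t'‖ ≤ ‖F t‖ + ‖F t'‖ := norm_sub_le _ _
      _ ≤ 2 * K := by linarith [h.Fb t, h.Fb t']
  obtain ⟨i, i', hall, hdot, hMi, hMi'⟩ := k8b_sh_coord (F t - F t') (by rw [← hM]; exact hM0)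
  rw [← hM] at hMi hMi'
  obtain ⟨A, hA⟩ : ∃ A : Set Λ, A = {l | (l, t) ∈ E ∧ (l, t') ∈ E} := ⟨_, rfl⟩
  rw [← hA]
  have hFb : ∀ s b, |F s b| ≤ K := fun s b => le_trans (by simpa using norm_le_pi_norm (F s) b) (h.Fb s)
  have hc1b : ∀ l k, |(c l).1 k| ≤ K := fun l k =>
    le_trans (by simpa using norm_le_pi_norm (c l).1 k) (le_trans (norm_fst_le (c l)) (h.cb l))
  have hc2b : ∀ l k b, |(c l).2 k b| ≤ K := fun l k b =>
    le_trans (by simpa using norm_le_pi_norm ((c l).2 k) b) (le_trans (norm_le_pi_norm (c l).2 k) (le_trans (norm_snd_le (c l)) (h.cb l)))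
  have hy : ∀ l s b, k5_y (c l) s b = (c l).2 0 b := by
    intro l s b
    unfold k5_y
    rw [(h.flat l).2]
    simp
  have hx : ∀ l s, k5_x (c l) s = (c l).1 0 + s * (c l).1 1 := by
    intro l s
    unfold k5_x
    rw [(h.flat l).1]
    ring
  have hS : ∀ l s, k5_S (F s) (c l) s = (c l).1 0 + s * (c l).1 1 - (F s i * (c l).2 0 i + F s i' * (c l).2 0 i') := by
    intro l s
    unfold k5_S
    rw [hdot, hx, hy, hy]
  have hSb : ∀ l ∈ A, |k5_S (F t) (c l) t| ≤ 4 * K ^ 2 := by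
    intro l hl
    rw [hA] at hl
    have ht := h.tI l t hl.1
    have ht1 : |t| ≤ 1 := by rw [abs_le]; constructor <;> linarith [ht.1, ht.2]
    have a1 := abs_le.mp (hc1b l 0)
    have a2 := abs_le.mp (k8b_sh_mul ht1 (hc1b l 1))
    have a3 := abs_le.mp (k8b_sh_mul (hFb t i) (hc2b l 0 i))
    have a4 := abs_le.mp (k8b_sh_mul (hFb t i') (hc2b l 0 i'))
    have hKK : K ≤ K * K := by nlinarith
    rw [hS, abs_le, pow_two]
    constructor <;> linarith [a1.1, a1.2, a2.1, a2.2, a3.1, a3.2, a4.1, a4.2]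
  have hdiff : ∀ l ∈ A, k5_S (F t) (c l) t - k5_S (F t') (c l) t' =
      (t - t') * (c l).1 1 - ((F t - F t') i * (c l).2 0 i + (F t - F t') i' * (c l).2 0 i') := by
    intro l _
    rw [hS, hS, Pi.sub_apply, Pi.sub_apply]
    ring
  have hX : ∀ l ∈ A, k5_x (c l) t = k5_S (F t) (c l) t + F t i * (c l).2 0 i + F t i' * (c l).2 0 i' := by
    intro l _
    rw [hS, hx]
    ring
  have hcn1 : ∀ a R : ℝ, r ≤ R → R ≤ 1 → ∃ Z : Finset ℤ, (Z.card : ℝ) ≤ K * (R / r) ^ d ∧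
      ∀ l ∈ A, a ≤ k5_S (F t) (c l) t → k5_S (F t) (c l) t ≤ a + R → ⌊k5_S (F t) (c l) t / r⌋ ∈ Z := by
    intro a R h1 h2
    obtain ⟨Z, hZ, hm⟩ := hcnt t a R h1 h2
    exact ⟨Z, hZ, fun l hl => by rw [hA] at hl; exact hm l hl.1⟩
  have hcn2 : ∀ a R : ℝ, r ≤ R → R ≤ 1 → ∃ Z : Finset ℤ, (Z.card : ℝ) ≤ K * (R / r) ^ d ∧
      ∀ l ∈ A, a ≤ k5_S (F t') (c l) t' → k5_S (F t') (c l) t' ≤ a + R → ⌊k5_S (F t') (c l) t' / r⌋ ∈ Z := by
    intro a R h1 h2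
    obtain ⟨Z, hZ, hm⟩ := hcnt t' a R h1 h2
    exact ⟨Z, hZ, fun l hl => by rw [hA] at hl; exact hm l hl.2⟩
  obtain ⟨Z, hZ, hmem⟩ := k8b_sh_count A (fun l => k5_S (F t) (c l) t) (fun l => k5_S (F t') (c l) t') (fun l => (c l).2 0 i)
    (fun l => (c l).2 0 i') (fun l => k5_x (c l) t) (fun l => (c l).1 1) d K r M t t' (F t i) (F t i') ((F t - F t') i) ((F t - F t') i')
    hd0 hK1 hr hr1 hrM hM2 htt (hFb t i) (hFb t i') hMi hMi' hSb hdiff hX (fun l _ => hc1b l 1) (fun l _ => hc2b l 0 i)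
    (fun l _ => hc2b l 0 i') hcn1 hcn2
  obtain ⟨P, hP⟩ : ∃ P : ((((((ℤ × ℤ) × ℤ) × ℤ) × ℤ) × ℤ) × ℤ) → Set Λ, P = fun τ =>
      {l | (l, t) ∈ E ∧ k8bIn r r ((τ.2 : ℝ) * r) (fun b => if b = i then (τ.1.2 : ℝ) * r else (τ.1.1.2 : ℝ) * r) (c l) t} := ⟨_, rfl⟩
  have hPm : ∀ τ, ν.real (P τ) ≤ K * r ^ 2 * r ^ d := fun τ => by
    rw [hP]
    exact hmix t r r _ _ hζr hr1 hζr hr1
  have hcover : A ⊆ ⋃ τ ∈ Z, P τ := by
    intro l hl
    refine Set.mem_iUnion₂.mpr ⟨_, hmem l hl, ?_⟩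
    rw [hP]
    have hl' := hl
    rw [hA] at hl'
    refine ⟨hl'.1, fun b => ?_, ?_⟩
    · rw [hy]
      by_cases hb : b = i
      · simp only [hb, if_true]
        exact k8b_sh_fl _ r hr
      · have hb' : b = i' := (hall b).resolve_left hb
        simp only [hb, if_false]
        rw [hb']
        exact k8b_sh_fl _ r hr
    · exact k8b_sh_fl _ r hr
  calc ν.real A ≤ ν.real (⋃ τ ∈ Z, P τ) := measureReal_mono hcover (measure_ne_top _ _)
    _ ≤ ∑ τ ∈ Z, ν.real (P τ) := measureReal_biUnion_finset_le _ _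
    _ ≤ ∑ _τ ∈ Z, K * r ^ 2 * r ^ d := Finset.sum_le_sum fun τ _ => hPm τ
    _ = (Z.card : ℝ) * (K * r ^ 2 * r ^ d) := by rw [Finset.sum_const, nsmul_eq_mul]
    _ ≤ 10 * K ^ 2 * (K * (1 / r) ^ d) * (16 * K ^ 2) * (K * (M / r) ^ d) * (4 * K / r) * (12 * K / M) * (7 * K) * (K * r ^ 2 * r ^ d) :=
      mul_le_mul_of_nonneg_right hZ (by positivity)
    _ ≤ 53760 * K ^ (53760 : ℝ) * (r / M) ^ (1 - d) := k8b_sh_num d K r M hK1 hr hM0

theorem k8b_an_amgm (a b : ENNReal) : 2 * a * b ≤ a ^ 2 + b ^ 2 := by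
  induction a using ENNReal.recTopCoe with
  | top => simp
  | coe a =>
    induction b using ENNReal.recTopCoe with
    | top => simp
    | coe b => exact_mod_cast two_mul_le_add_sq a b

/-- Jensen for the square, probability measure -/
theorem k8b_an_jensen {Λ : Type} [MeasurableSpace Λ] (ν : Measure Λ) [IsProbabilityMeasure ν] (g : Λ → ENNReal) (hg : Measurable g) :
    (∫⁻ l, g l ∂ν) ^ 2 ≤ ∫⁻ l, g l ^ 2 ∂ν := by
  by_cases htop : ∫⁻ l, g l ∂ν = ⊤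
  · -- then the right side is infinite as well
    have h1 : ∫⁻ l, g l ∂ν ≤ ∫⁻ l, (g l ^ 2 + 1) ∂ν := by
      refine lintegral_mono fun l => ?_
      have := k8b_an_amgm (g l) 1
      calc g l ≤ 2 * g l * 1 := by
            rw [mul_one, two_mul]; exact le_self_add
        _ ≤ g l ^ 2 + 1 ^ 2 := this
        _ = _ := by rw [one_pow]
    rw [lintegral_add_right _ measurable_const, lintegral_const, measure_univ, mul_one, htop, top_le_iff] at h1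
    have h2 : ∫⁻ l, g l ^ 2 ∂ν = ⊤ := by
      by_contra h
      exact (ENNReal.add_ne_top.2 ⟨h, ENNReal.one_ne_top⟩) h1
    rw [h2]
    exact le_top
  set ρ := ∫⁻ l, g l ∂ν with hρ
  have h1 : ∫⁻ l, 2 * ρ * g l ∂ν ≤ ∫⁻ l, (g l ^ 2 + ρ ^ 2) ∂ν := by
    refine lintegral_mono fun l => ?_
    have := k8b_an_amgm ρ (g l)
    rw [add_comm] at this
    exact this
  rw [lintegral_const_mul _ hg, lintegral_add_right _ measurable_const, lintegral_const, measure_univ, mul_one, ← hρ] at h1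
  have h2 : 2 * ρ * ρ = ρ ^ 2 + ρ ^ 2 := by ring
  rw [h2] at h1
  exact (ENNReal.add_le_add_iff_right (ENNReal.pow_ne_top htop)).1 h1

/-- one time bin -/
theorem k8b_an_bin {Λ : Type} [MeasurableSpace Λ] (ν : Measure Λ) [IsProbabilityMeasure ν] (E : Set (Λ × ℝ))
    (hE : MeasurableSet E) (F : ℝ → Fin 2 → ℝ) (hF : Measurable F) (r B : ℝ) (η : ENNReal) (hr : 0 < r)
    (I : Set ℝ) (hI : MeasurableSet I) (hvol : volume I = ENNReal.ofReal r)
    (hsh : ∀ t ∈ I, ∀ t' ∈ I, B * r < ‖F t - F t'‖ → ν {l | (l, t) ∈ E ∧ (l, t') ∈ E} ≤ η) :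
    ∃ W : Set ℝ, MeasurableSet W ∧ W ⊆ I ∧ (∀ t ∈ W, ∀ t' ∈ W, ‖F t - F t'‖ ≤ 2 * B * r) ∧
      (ν.prod volume (E ∩ univ ×ˢ I)) ^ 2 ≤ ENNReal.ofReal r * (ν.prod volume (E ∩ univ ×ˢ W) + ENNReal.ofReal r * η) := by
  classical
  -- masses over a set of times
  have hmass : ∀ S : Set ℝ, MeasurableSet S → ν.prod volume (E ∩ univ ×ˢ S) = (ν.prod (volume.restrict S)) E := by
    intro S hS
    have := Measure.prod_restrict (μ := ν) (ν := (volume : Measure ℝ)) univ S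
    rw [Measure.restrict_univ] at this
    rw [this, Measure.restrict_apply hE]
  set vI : Measure ℝ := volume.restrict I with hvI
  set g : Λ → ENNReal := fun l => vI (Prod.mk l ⁻¹' E) with hg
  have hgm : Measurable g := measurable_measure_prodMk_left hE
  have hgle : ∀ l, g l ≤ ENNReal.ofReal r := fun l => by
    calc g l ≤ vI univ := measure_mono (subset_univ _)
      _ = ENNReal.ofReal r := by rw [hvI, Measure.restrict_apply_univ, hvol]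
  have hρ : ν.prod volume (E ∩ univ ×ˢ I) = ∫⁻ l, g l ∂ν := by rw [hmass I hI, Measure.prod_apply hE]
  -- the shared mass
  set H : ℝ → ENNReal := fun t => (ν.withDensity g) ((fun l => (l, t)) ⁻¹' E) with hH
  have hT1 : ∫⁻ t in I, H t = ∫⁻ l, g l ^ 2 ∂ν := by
    have h1 : ((ν.withDensity g).prod vI) E = ∫⁻ t, H t ∂vI := Measure.prod_apply_symm hE
    have h2 : ((ν.withDensity g).prod vI) E = ∫⁻ l, g l ∂(ν.withDensity g) := Measure.prod_apply hE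
    rw [← h1, h2, lintegral_withDensity_eq_lintegral_mul _ hgm hgm]
    refine lintegral_congr fun l => ?_
    simp only [Pi.mul_apply, sq]
  have hfin : ∫⁻ t in I, H t ≠ ⊤ := by
    rw [hT1]
    refine ne_top_of_le_ne_top (b := ENNReal.ofReal r ^ 2) (ENNReal.pow_ne_top ENNReal.ofReal_ne_top) ?_
    calc ∫⁻ l, g l ^ 2 ∂ν ≤ ∫⁻ _, ENNReal.ofReal r ^ 2 ∂ν := lintegral_mono fun l => pow_le_pow_left₀ zero_le (hgle l) 2
      _ = _ := by rw [lintegral_const, measure_univ, mul_one]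
  have hI0 : volume I ≠ 0 := by rw [hvol]; exact (ENNReal.ofReal_pos.2 hr).ne'
  obtain ⟨t₀, ht₀, hav⟩ := exists_setLAverage_le hI0 hI.nullMeasurableSet hfin
  rw [setLAverage_eq, hvol] at hav
  have hav' : ∫⁻ t in I, H t ≤ ENNReal.ofReal r * H t₀ := by
    rw [mul_comm]
    exact (ENNReal.div_le_iff (ENNReal.ofReal_pos.2 hr).ne' ENNReal.ofReal_ne_top).1 hav
  -- the anchor
  set A : Set Λ := (fun l => (l, t₀)) ⁻¹' E with hA
  have hAm : MeasurableSet A := measurable_prodMk_right hE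
  set q : ℝ → ENNReal := fun t' => ν.restrict A ((fun l => (l, t')) ⁻¹' E) with hq
  have hH0 : H t₀ = ∫⁻ t' in I, q t' := by
    have h1 : ((ν.restrict A).prod vI) E = ∫⁻ t', q t' ∂vI := Measure.prod_apply_symm hE
    have h2 : ((ν.restrict A).prod vI) E = ∫⁻ l in A, g l ∂ν := Measure.prod_apply hE
    rw [← h1, h2, hH]
    exact withDensity_apply _ hAm
  set W : Set ℝ := {t' | t' ∈ I ∧ ‖F t' - F t₀‖ ≤ B * r} with hW
  have hWm : MeasurableSet W := hI.inter (measurableSet_le ((hF.sub measurable_const).norm) measurable_const)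
  have hWI : W ⊆ I := fun t h => h.1
  have hsplit : ∫⁻ t' in I, q t' = (∫⁻ t' in W, q t') + ∫⁻ t' in I \ W, q t' := by
    have := lintegral_inter_add_sdiff (μ := volume) q I hWm
    rw [inter_eq_self_of_subset_right hWI] at this
    exact this.symm
  have hbad : ∫⁻ t' in I \ W, q t' ≤ ENNReal.ofReal r * η := by
    calc ∫⁻ t' in I \ W, q t' ≤ ∫⁻ _ in I \ W, η := by
          refine setLIntegral_mono' (hI.diff hWm) fun t' ht' => ?_
          have h1 : B * r < ‖F t₀ - F t'‖ := by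
            rw [norm_sub_rev]
            by_contra h
            exact ht'.2 ⟨ht'.1, not_lt.1 h⟩
          refine le_trans (le_of_eq ?_) (hsh t₀ ht₀ t' ht'.1 h1)
          rw [hq]
          simp only
          rw [Measure.restrict_apply (measurable_prodMk_right hE)]
          congr 1
          ext l
          simp only [hA, mem_inter_iff, mem_preimage, mem_ofPred_eq]
          tauto
      _ = η * volume (I \ W) := by rw [lintegral_const, Measure.restrict_apply_univ]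
      _ ≤ η * ENNReal.ofReal r := by
          refine mul_le_mul' le_rfl ?_
          rw [← hvol]
          exact measure_mono sdiff_subset
      _ = _ := mul_comm _ _
  have hgood : ∫⁻ t' in W, q t' ≤ ν.prod volume (E ∩ univ ×ˢ W) := by
    rw [hmass W hWm, Measure.prod_apply_symm hE]
    exact lintegral_mono fun t' => Measure.restrict_apply_le _ _
  refine ⟨W, hWm, hWI, fun t ht t' ht' => ?_, ?_⟩
  · calc ‖F t - F t'‖ = ‖(F t - F t₀) - (F t' - F t₀)‖ := by congr 1; abel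
      _ ≤ ‖F t - F t₀‖ + ‖F t' - F t₀‖ := norm_sub_le _ _
      _ ≤ B * r + B * r := add_le_add ht.2 ht'.2
      _ = 2 * B * r := by ring
  · calc (ν.prod volume (E ∩ univ ×ˢ I)) ^ 2 = (∫⁻ l, g l ∂ν) ^ 2 := by rw [hρ]
      _ ≤ ∫⁻ l, g l ^ 2 ∂ν := k8b_an_jensen ν g hgm
      _ = ∫⁻ t in I, H t := hT1.symm
      _ ≤ ENNReal.ofReal r * H t₀ := hav'
      _ ≤ _ := by
          refine mul_le_mul' le_rfl ?_
          rw [hH0, hsplit]
          exact add_le_add hgood hbad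

theorem k8b_an_rt {Λ : Type} (E : Set (Λ × ℝ)) (W : Set ℝ) : k5_rt E W = E ∩ univ ×ˢ W := by
  ext x
  simp [k5_rt]

/-- **L-252-S8b-C2** (~400 l.; Mathlib + `k5_mass`).   ANCHOR TIMES.   If pairs of times at distance `≤ r` with `‖F t - F t'‖ > B r` share lines of weight `≤ δ²/8`, then a set of times `W` keeps mass `δ²/8` and `F` varies by `≤ 2Br` on `W` at distance `≤ r`.
PROOF.  `I_i = [ir, (i+1)r)`, `m ≤ 2/r` of them meet `[0,1)`, `ρ_i` = mass of `E` over `I_i`; `∑ ρ_i² ≥ δ²/m ≥ δ² r/2`.   `∫_{I_i}∫_{I_i} ν{t, t' ∈ E_l} = ∫ |E_l ∩ I_i|² dν ≥ ρ_i²` (Tonelli, Jensen; `ν` probability); bad pairs contribute `≤ r² δ²/8`.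
Choose `t_i ∈ I_i` with `∫_{t' ∈ I_i, ‖F t' - F t_i‖ ≤ Br} ν{t_i, t' ∈ E_l} dt' ≥ (ρ_i² - r²δ²/8)/r`; `W_i := {t' ∈ I_i | ‖F t' - F t_i‖ ≤ Br}`; mass of `E` over `W_i` is at least that.   Sum: `≥ δ²/2 - m r δ²/8 ≥ δ²/4`.   Keep the better parity class of `i`: `δ²/8`;
two times of `W` at distance `≤ r` lie in the same `I_i`. -/
theorem k8b_anchor {Λ : Type} [MeasurableSpace Λ] (ν : Measure Λ) [IsProbabilityMeasure ν] (E : Set (Λ × ℝ))
    (hE : MeasurableSet E) (hI : ∀ l t, (l, t) ∈ E → 0 ≤ t ∧ t < 1) (F : ℝ → Fin 2 → ℝ) (hF : Measurable F)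
    (r δ B : ℝ) (hr : 0 < r) (hr1 : r ≤ 1) (hδ : 0 < δ) (hm : δ ≤ k5_mass ν E) (hB : 0 ≤ B)
    (hsh : ∀ t t', |t - t'| ≤ r → B * r < ‖F t - F t'‖ → ν.real {l | (l, t) ∈ E ∧ (l, t') ∈ E} ≤ δ ^ 2 / 8) :
    ∃ W : Set ℝ, MeasurableSet W ∧ δ ^ 2 / 8 ≤ k5_mass ν (k5_rt E W) ∧ k8bRowAt F W r (2 * B) := by
  classical
  set μ : Measure (Λ × ℝ) := ν.prod volume with hμ
  -- finiteness
  have hfinE : ∀ S : Set (Λ × ℝ), μ (E ∩ S) ≠ ⊤ := by
    intro S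
    refine ne_top_of_le_ne_top (b := μ (univ ×ˢ Ico (0 : ℝ) 1)) ?_ (measure_mono ?_)
    · rw [hμ, Measure.prod_prod, measure_univ, Real.volume_Ico]
      simp
    · rintro ⟨l, t⟩ ⟨h, -⟩
      exact ⟨mem_univ _, hI l t h⟩
  set m : ℕ := ⌈1 / r⌉₊ with hmdef
  have hm1 : 1 / r ≤ m := Nat.le_ceil _
  have hm2 : (m : ℝ) * r ≤ 2 := by
    have h1 : (m : ℝ) < 1 / r + 1 := Nat.ceil_lt_add_one (by positivity)
    have h2 : (m : ℝ) * r < (1 / r + 1) * r := mul_lt_mul_of_pos_right h1 hr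
    have h3 : (1 / r + 1) * r = 1 + r := by field_simp
    linarith
  set J : ℕ → Set ℝ := fun i => Ico ((i : ℝ) * r) (((i : ℝ) + 1) * r) with hJ
  have hJm : ∀ i, MeasurableSet (J i) := fun i => measurableSet_Ico
  have hJv : ∀ i, volume (J i) = ENNReal.ofReal r := fun i => by
    rw [hJ]
    simp only
    rw [Real.volume_Ico]
    congr 1
    ring
  have hbin : ∀ i, ∃ W : Set ℝ, MeasurableSet W ∧ W ⊆ J i ∧ (∀ t ∈ W, ∀ t' ∈ W, ‖F t - F t'‖ ≤ 2 * B * r) ∧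
      (μ (E ∩ univ ×ˢ J i)) ^ 2 ≤ ENNReal.ofReal r * (μ (E ∩ univ ×ˢ W) + ENNReal.ofReal r * ENNReal.ofReal (δ ^ 2 / 8)) := by
    intro i
    refine k8b_an_bin ν E hE F hF r B _ hr (J i) (hJm i) (hJv i) fun t ht t' ht' hb => ?_
    have h1 : |t - t'| ≤ r := by
      have a1 := ht.1
      have a2 := ht.2
      have b1 := ht'.1
      have b2 := ht'.2
      rw [abs_le]
      constructor <;> nlinarith
    have h2 := hsh t t' h1 hb
    rw [← ofReal_measureReal (measure_ne_top _ _)]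
    exact ENNReal.ofReal_le_ofReal h2
  choose Wf hWm hWJ hWrow hWineq using hbin
  set ρ : ℕ → ℝ := fun i => μ.real (E ∩ univ ×ˢ J i) with hρ
  set M : ℕ → ℝ := fun i => μ.real (E ∩ univ ×ˢ Wf i) with hM
  have hM0 : ∀ i, 0 ≤ M i := fun i => measureReal_nonneg
  have hρ0 : ∀ i, 0 ≤ ρ i := fun i => measureReal_nonneg
  have hreal : ∀ i, ρ i ^ 2 ≤ r * (M i + r * (δ ^ 2 / 8)) := by
    intro i
    have h1 := ENNReal.toReal_mono (ENNReal.mul_ne_top ENNReal.ofReal_ne_top (ENNReal.add_ne_top.2 ⟨hfinE _,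
      ENNReal.mul_ne_top ENNReal.ofReal_ne_top ENNReal.ofReal_ne_top⟩)) (hWineq i)
    rw [ENNReal.toReal_pow, ENNReal.toReal_mul, ENNReal.toReal_add (hfinE _) (ENNReal.mul_ne_top ENNReal.ofReal_ne_top ENNReal.ofReal_ne_top),
      ENNReal.toReal_mul, ENNReal.toReal_ofReal hr.le, ENNReal.toReal_ofReal (by positivity)] at h1
    exact h1
  -- the bins cover
  have hcover : μ.real E ≤ ∑ i ∈ Finset.range m, ρ i := by
    have hsub : E ⊆ ⋃ i ∈ Finset.range m, E ∩ univ ×ˢ J i := by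
      rintro ⟨l, t⟩ h
      obtain ⟨t0, t1⟩ := hI l t h
      have hq0 : 0 ≤ t / r := by positivity
      have h1 : ((⌊t / r⌋₊ : ℕ) : ℝ) ≤ t / r := Nat.floor_le hq0
      have h2 : t / r < (⌊t / r⌋₊ : ℕ) + 1 := Nat.lt_floor_add_one _
      have h3 : t / r < m := lt_of_lt_of_le ((div_lt_div_iff_of_pos_right hr).2 t1) hm1
      have h4 : ⌊t / r⌋₊ < m := by
        have : ((⌊t / r⌋₊ : ℕ) : ℝ) < m := lt_of_le_of_lt h1 h3
        exact_mod_cast this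
      simp only [mem_iUnion, Finset.mem_range]
      refine ⟨⌊t / r⌋₊, h4, h, mem_univ _, ?_, ?_⟩
      · exact (le_div_iff₀ hr).1 h1
      · exact (div_lt_iff₀ hr).1 h2
    calc μ.real E ≤ μ.real (⋃ i ∈ Finset.range m, E ∩ univ ×ˢ J i) := by
          refine measureReal_mono hsub ?_
          refine ne_top_of_le_ne_top (hfinE univ) (measure_mono ?_)
          intro x hx
          simp only [mem_iUnion] at hx
          obtain ⟨i, -, hx⟩ := hx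
          exact ⟨hx.1, mem_univ _⟩
      _ ≤ ∑ i ∈ Finset.range m, ρ i := measureReal_biUnion_finset_le _ _
  have hδρ : δ ≤ ∑ i ∈ Finset.range m, ρ i := hm.trans hcover
  have hCS : (∑ i ∈ Finset.range m, ρ i) ^ 2 ≤ m * ∑ i ∈ Finset.range m, ρ i ^ 2 := by
    have := sq_sum_le_card_mul_sum_sq (s := Finset.range m) (f := ρ)
    rwa [Finset.card_range] at this
  have hsumM : δ ^ 2 / 4 ≤ ∑ i ∈ Finset.range m, M i := by
    have h1 : ∑ i ∈ Finset.range m, ρ i ^ 2 ≤ r * (∑ i ∈ Finset.range m, M i) + m * (r * (r * (δ ^ 2 / 8))) := by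
      calc ∑ i ∈ Finset.range m, ρ i ^ 2 ≤ ∑ i ∈ Finset.range m, (r * M i + r * (r * (δ ^ 2 / 8))) :=
            Finset.sum_le_sum fun i _ => by have := hreal i; linarith
        _ = _ := by
            rw [Finset.sum_add_distrib, Finset.mul_sum, Finset.sum_const, Finset.card_range, nsmul_eq_mul]
    have h2 : δ ^ 2 ≤ (∑ i ∈ Finset.range m, ρ i) ^ 2 := pow_le_pow_left₀ hδ.le hδρ 2
    have hS0 : 0 ≤ ∑ i ∈ Finset.range m, M i := Finset.sum_nonneg fun i _ => hM0 i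
    have hm0 : (0 : ℝ) ≤ m := Nat.cast_nonneg _
    have h3 : δ ^ 2 ≤ (m * r) * (∑ i ∈ Finset.range m, M i) + (m * r) ^ 2 * (δ ^ 2 / 8) := by
      calc δ ^ 2 ≤ m * ∑ i ∈ Finset.range m, ρ i ^ 2 := h2.trans hCS
        _ ≤ m * (r * (∑ i ∈ Finset.range m, M i) + m * (r * (r * (δ ^ 2 / 8)))) := mul_le_mul_of_nonneg_left h1 hm0
        _ = _ := by ring
    have hmr0 : 0 ≤ (m : ℝ) * r := by positivity
    have h4 : (m * r) * (∑ i ∈ Finset.range m, M i) ≤ 2 * ∑ i ∈ Finset.range m, M i := mul_le_mul_of_nonneg_right hm2 hS0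
    have h5 : ((m : ℝ) * r) ^ 2 ≤ 4 := by nlinarith
    have h6 : ((m : ℝ) * r) ^ 2 * (δ ^ 2 / 8) ≤ 4 * (δ ^ 2 / 8) := mul_le_mul_of_nonneg_right h5 (by positivity)
    linarith
  -- the mass of a class
  have hclass : ∀ S : Finset ℕ, ∑ i ∈ S, M i = k5_mass ν (k5_rt E (⋃ i ∈ S, Wf i)) := by
    intro S
    rw [k8b_an_rt]
    have e1 : E ∩ univ ×ˢ (⋃ i ∈ S, Wf i) = ⋃ i ∈ S, E ∩ univ ×ˢ Wf i := by
      ext x
      simp only [mem_inter_iff, mem_prod, mem_univ, true_and, mem_iUnion, exists_prop]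
      tauto
    rw [e1]
    show _ = μ.real _
    rw [measureReal_biUnion_finset (fun i _ i' _ hii => ?_) (fun i _ => hE.inter (MeasurableSet.univ.prod (hWm i))) (fun i _ => hfinE _)]
    rw [Function.onFun, Set.disjoint_left]
    rintro ⟨l, t⟩ ⟨-, -, h1⟩ ⟨-, -, h2⟩
    have a := hWJ i h1
    have b := hWJ i' h2
    have a1 := a.1
    have a2 := a.2
    have b1 := b.1
    have b2 := b.2
    rcases lt_or_gt_of_ne hii with h | h
    · have : (i : ℝ) + 1 ≤ i' := by exact_mod_cast h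
      nlinarith
    · have : (i' : ℝ) + 1 ≤ i := by exact_mod_cast h
      nlinarith
  -- the row comparison on a parity class
  have hrow : ∀ (S : Finset ℕ) (p : ℕ), (∀ i ∈ S, i % 2 = p) → k8bRowAt F (⋃ i ∈ S, Wf i) r (2 * B) := by
    intro S p hS t ht t' ht' htt
    simp only [mem_iUnion, exists_prop] at ht ht'
    obtain ⟨i, hi, hti⟩ := ht
    obtain ⟨i', hi', hti'⟩ := ht'
    have a := hWJ i hti
    have b := hWJ i' hti'
    have a1 := a.1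
    have a2 := a.2
    have b1 := b.1
    have b2 := b.2
    have hpi := hS i hi
    have hpi' := hS i' hi'
    rw [abs_le] at htt
    have hii : i = i' := by
      by_contra hne
      rcases lt_or_gt_of_ne hne with h | h
      · have h2 : i + 2 ≤ i' := by omega
        have : (i : ℝ) + 2 ≤ i' := by exact_mod_cast h2
        nlinarith [htt.1]
      · have h2 : i' + 2 ≤ i := by omega
        have : (i' : ℝ) + 2 ≤ i := by exact_mod_cast h2
        nlinarith [htt.2]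
    subst hii
    exact hWrow i t hti t' hti'
  have hsplit := Finset.sum_filter_add_sum_filter_not (Finset.range m) (fun i => i % 2 = 0) M
  have hmeasW : ∀ S : Finset ℕ, MeasurableSet (⋃ i ∈ S, Wf i) := fun S => Finset.measurableSet_biUnion S fun i _ => hWm i
  by_cases hcase : δ ^ 2 / 8 ≤ ∑ i ∈ (Finset.range m).filter (fun i => i % 2 = 0), M i
  · refine ⟨_, hmeasW ((Finset.range m).filter (fun i => i % 2 = 0)), ?_, hrow _ 0 fun i hi => (Finset.mem_filter.1 hi).2⟩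
    rw [← hclass]
    exact hcase
  · refine ⟨_, hmeasW ((Finset.range m).filter (fun i => ¬ i % 2 = 0)), ?_, hrow _ 1 fun i hi => ?_⟩
    · rw [← hclass]
      rw [not_le] at hcase
      linarith
    · have := (Finset.mem_filter.1 hi).2
      omega

theorem k8b_mass_le_one {Λ : Type} [MeasurableSpace Λ] {ν : Measure Λ} {c : Λ → k5_Co 2} {E : Set (Λ × ℝ)}
    {F : ℝ → Fin 2 → ℝ} {K : ℝ} (h : K8bCh K ν c E F) : k5_mass ν E ≤ 1 := by
  have := h.prob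
  have h1 := k5_mass_le (ν := ν) (E := E) (T := Ico (0 : ℝ) 1) (by simp) (fun l t hlt => h.tI l t hlt)
  simpa using h1

/-- **L-252-S8b-C3** (glue, ~120 l.).   `k8b_shared` + `k8b_anchor` with `B := (8 C K^C/δ²)^(1/(1-d))` (`≥ 1`). -/
theorem k8b_row_scale (d : ℝ) (hd0 : 0 ≤ d) (hd : d < 1) :
    ∃ C : ℝ, 1 ≤ C ∧ ∀ (Λ : Type) [MeasurableSpace Λ] (ν : Measure Λ) (c : Λ → k5_Co 2) (E : Set (Λ × ℝ))
      (F : ℝ → Fin 2 → ℝ) (K ζ r δ : ℝ), K8bCh K ν c E F → 0 < ζ → ζ ≤ r → r ≤ 1 → k8bMix d K ζ ν c E →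
      k8bCnt d K r c E F → 0 < δ → δ ≤ k5_mass ν E →
      ∃ W : Set ℝ, MeasurableSet W ∧ δ ^ 2 / 8 ≤ k5_mass ν (k5_rt E W) ∧ k8bRowAt F W r (C * (K / δ) ^ C) := by
  obtain ⟨C1, hC1, hsh⟩ := k8b_shared d hd0 hd
  have hd1 : 0 < 1 - d := by linarith
  set p : ℝ := 1 / (1 - d) with hp
  have hp0 : 0 < p := by rw [hp]; positivity
  have h8 : (1 : ℝ) ≤ 8 * C1 := by linarith
  have h8p : (1 : ℝ) ≤ (8 * C1) ^ p := Real.one_le_rpow h8 hp0.le
  refine ⟨max (2 * (8 * C1) ^ p) ((C1 + 2) * p), le_max_of_le_left (by linarith), ?_⟩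
  intro Λ _ ν c E F K ζ r δ h hζ hζr hr1 hmix hcnt hδ hm
  have := h.prob
  have hr : 0 < r := lt_of_lt_of_le hζ hζr
  have hδ1 : δ ≤ 1 := hm.trans (k8b_mass_le_one h)
  have hK1 : 1 ≤ K := h.K1
  set X : ℝ := K / δ with hX
  have hXK : K ≤ X := by
    rw [hX, le_div_iff₀ hδ]
    nlinarith
  have hX1 : 1 ≤ X := hK1.trans hXK
  have hX0 : 0 < X := by linarith
  set Y : ℝ := 8 * C1 * X ^ (C1 + 2) with hY
  have hXp : 1 ≤ X ^ (C1 + 2) := Real.one_le_rpow hX1 (by linarith)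
  have hY1 : 1 ≤ Y := by rw [hY]; nlinarith
  have hY0 : 0 < Y := by linarith
  set B : ℝ := Y ^ p with hB
  have hB1 : 1 ≤ B := Real.one_le_rpow hY1 hp0.le
  have hB0 : 0 < B := by linarith
  have hBd : B ^ (1 - d) = Y := by
    rw [hB, ← Real.rpow_mul hY0.le, hp, one_div, inv_mul_cancel₀ hd1.ne', Real.rpow_one]
  have hkey : C1 * K ^ C1 / Y ≤ δ ^ 2 / 8 := by
    have hK0 : 0 < K := by linarith
    have h1 : K ^ C1 ≤ X ^ C1 := Real.rpow_le_rpow hK0.le hXK (by linarith)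
    have h2 : X ^ (C1 + 2) = X ^ C1 * X ^ 2 := by
      rw [Real.rpow_add hX0]
      norm_num
    have h3 : 1 ≤ δ ^ 2 * X ^ 2 := by
      have : δ ^ 2 * X ^ 2 = K ^ 2 := by
        rw [hX]; field_simp
      rw [this]
      nlinarith
    have h4 : 0 < X ^ C1 := Real.rpow_pos_of_pos hX0 _
    rw [div_le_iff₀ hY0, hY, h2]
    have h5 : K ^ C1 ≤ X ^ C1 * (δ ^ 2 * X ^ 2) := by nlinarith
    nlinarith
  have hsh' : ∀ t t', |t - t'| ≤ r → B * r < ‖F t - F t'‖ → ν.real {l | (l, t) ∈ E ∧ (l, t') ∈ E} ≤ δ ^ 2 / 8 := by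
    intro t t' htt hBM
    set M : ℝ := ‖F t - F t'‖ with hM
    have hrM : r ≤ M := by nlinarith
    have hM0 : 0 < M := lt_of_lt_of_le hr hrM
    have h1 := hsh Λ ν c E F K ζ r t t' h hζ hζr hr1 hmix hcnt htt hrM
    have h2 : r / M ≤ 1 / B := by
      rw [div_le_div_iff₀ hM0 hB0]
      nlinarith
    have h3 : (r / M) ^ (1 - d) ≤ (1 / B) ^ (1 - d) := Real.rpow_le_rpow (by positivity) h2 hd1.le
    have h4 : (1 / B) ^ (1 - d) = 1 / Y := by
      rw [Real.div_rpow zero_le_one hB0.le, Real.one_rpow, hBd]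
    have hK0 : 0 < K := by linarith
    have h5 : 0 ≤ C1 * K ^ C1 := by positivity
    calc ν.real {l | (l, t) ∈ E ∧ (l, t') ∈ E} ≤ C1 * K ^ C1 * (r / M) ^ (1 - d) := h1
      _ ≤ C1 * K ^ C1 * (1 / Y) := by rw [← h4]; exact mul_le_mul_of_nonneg_left h3 h5
      _ = C1 * K ^ C1 / Y := by ring
      _ ≤ δ ^ 2 / 8 := hkey
  obtain ⟨W, hWm, hWmass, hrow⟩ := k8b_anchor ν E h.mE h.tI F h.mF r δ B hr hr1 hδ hm hB0.le hsh'
  refine ⟨W, hWm, hWmass, ?_⟩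
  set C : ℝ := max (2 * (8 * C1) ^ p) ((C1 + 2) * p) with hC
  have hBC : 2 * B ≤ C * X ^ C := by
    have h1 : B = (8 * C1) ^ p * X ^ ((C1 + 2) * p) := by
      rw [hB, hY, Real.mul_rpow (by linarith) (by positivity), ← Real.rpow_mul hX0.le]
    have h2 : X ^ ((C1 + 2) * p) ≤ X ^ C := Real.rpow_le_rpow_of_exponent_le hX1 (le_max_right _ _)
    have h3 : 2 * (8 * C1) ^ p ≤ C := le_max_left _ _
    have h4 : 0 < X ^ ((C1 + 2) * p) := Real.rpow_pos_of_pos hX0 _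
    rw [h1]
    calc 2 * ((8 * C1) ^ p * X ^ ((C1 + 2) * p)) = (2 * (8 * C1) ^ p) * X ^ ((C1 + 2) * p) := by ring
      _ ≤ C * X ^ C := mul_le_mul h3 h2 h4.le (by linarith)
  intro t ht t' ht' htt
  exact (hrow t ht t' ht' htt).trans (mul_le_mul_of_nonneg_right hBC hr.le)

/-! ## D. The slope comparison and the coefficient-bin floors at one scale (08 l.634-700) -/

theorem k8b_abs_mul_le {a b K : ℝ} (ha : |a| ≤ K) (hb : |b| ≤ 1) : |a * b| ≤ K := by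
  rw [abs_mul]
  calc |a| * |b| ≤ K * 1 := mul_le_mul ha hb (abs_nonneg _) ((abs_nonneg _).trans ha)
    _ = K := mul_one K

theorem k8b_card_Ioo_le (α L : ℝ) (hL : 0 ≤ L) : ((Finset.Ioo ⌊α⌋ ⌈α + L⌉).card : ℝ) ≤ L + 1 := by
  rw [Int.card_Ioo]
  have h1 := Int.ceil_lt_add_one (α + L)
  have h2 := Int.sub_one_lt_floor α
  rcases le_total 0 (⌈α + L⌉ - ⌊α⌋ - 1) with h | h
  · have h3 : (((⌈α + L⌉ - ⌊α⌋ - 1).toNat : ℤ) : ℝ) = ((⌈α + L⌉ - ⌊α⌋ - 1 : ℤ) : ℝ) := by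
      rw [Int.toNat_of_nonneg h]
    rw [Int.cast_natCast] at h3
    rw [h3]
    push_cast
    linarith
  · rw [Int.toNat_of_nonpos h]
    simp only [Nat.cast_zero]
    linarith

/-- **L-252-S8b-D1** (~300 l.).   Spacetime bins of one `y_r`-group (08 l.641-646).   Every labelled (line, `r`-time bin) has labelled duration `≥ r/Kd`.
PROOF.  At a fixed time the group has `≤ (2K+3) Kc r^(-d)` occupied `x̄`-bins (`x̄ = S + F y`, `F y` varies by `2Kr` in the group).   Fix a time bin `I`.  For each occupied `(I, z)` choose a witness line `l_z`, `T_z := {t' ∈ I | (l_z,t') ∈ E}`, `|T_z| ≥ r/Kd`;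
for `t' ∈ T_z` the bin of `x̄_{l_z}(t')` is within `K+1` of `z`.   So `#{z | t' ∈ T_z} ≤ (2K+3)² Kc r^(-d)` for every `t'`; integrate over `I` (`z` ranges in a finite set since `|x̄| ≤ 2K`): `#z · r/Kd ≤ r (2K+3)² Kc r^(-d)`.   `≤ 2/r` time bins. -/
theorem k8b_st_count {Λ : Type} [MeasurableSpace Λ] {ν : Measure Λ} {c : Λ → k5_Co 2} {E : Set (Λ × ℝ)}
    {F : ℝ → Fin 2 → ℝ} {K : ℝ} (h : K8bCh K ν c E F) (d r Kc Kd : ℝ) (hd0 : 0 ≤ d) (hr : 0 < r) (hr1 : r ≤ 1)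
    (hKc : 1 ≤ Kc) (hKd : 1 ≤ Kd) (hsup : k8bSup d Kc r c E F)
    (hdur : ∀ l t, (l, t) ∈ E → r / Kd ≤ volume.real {t' | (l, t') ∈ E ∧ ⌊t' / r⌋ = ⌊t / r⌋}) (g : Fin 2 → ℤ) :
    ∃ Z : Finset (ℤ × ℤ), (Z.card : ℝ) ≤ 100 * K ^ 2 * Kc * Kd * r ^ (-1 - d) ∧
      ∀ l t, (l, t) ∈ E → k5_vbin r (k5_y (c l) t) = g → (⌊t / r⌋, ⌊k5_x (c l) t / r⌋) ∈ Z := by
  classical
  have := h.prob
  have : Nonempty Λ := nonempty_of_isProbabilityMeasure ν
  have hK1 := h.K1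
  have hKd0 : 0 < Kd := by linarith
  have hrd0 : 0 < r ^ (-d) := Real.rpow_pos_of_pos hr _
  set O : Set (ℤ × ℤ) :=
    {y | ∃ l t, (l, t) ∈ E ∧ k5_vbin r (k5_y (c l) t) = g ∧ (⌊t / r⌋, ⌊k5_x (c l) t / r⌋) = y} with hO
  set N : ℝ := 9 * K * Kc * r ^ (-d) with hN
  have hN0 : 0 ≤ N := by rw [hN]; positivity
  have key : ∀ Y : Finset (ℤ × ℤ), (Y : Set (ℤ × ℤ)) ⊆ O → (Y.card : ℝ) * (r / Kd) ≤ N := by
    intro Y hY
    have hex : ∀ y ∈ Y, ∃ l t, (l, t) ∈ E ∧ k5_vbin r (k5_y (c l) t) = g ∧ (⌊t / r⌋, ⌊k5_x (c l) t / r⌋) = y :=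
      fun y hy => hY hy
    choose! L T hLT using hex
    set TT : ℤ × ℤ → Set ℝ := fun y => {t' | (L y, t') ∈ E ∧ ⌊t' / r⌋ = y.1} with hTT
    have hTTm : ∀ y, MeasurableSet (TT y) := fun y =>
      (k5_meas_fib h.mE (L y)).inter ((measurable_id.div_const r).floor (measurableSet_singleton _))
    have hvol : ∀ y ∈ Y, ENNReal.ofReal (r / Kd) ≤ volume (TT y) := by
      intro y hy
      obtain ⟨h1, -, h3⟩ := hLT y hy
      have h4 : ⌊T y / r⌋ = y.1 := congrArg Prod.fst h3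
      have h5 := hdur (L y) (T y) h1
      rw [h4] at h5
      exact ENNReal.ofReal_le_of_le_toReal h5
    have cnt : ∀ t', ((Y.filter (fun y => t' ∈ TT y)).card : ℝ) ≤ N := by
      intro t'
      obtain ⟨Z', hZc, hZ'⟩ := hsup t'
      set φ : ℝ := F t' 0 * (g 0 : ℝ) + F t' 1 * (g 1 : ℝ) with hφ
      set D : Finset ℤ := Finset.Ioo ⌊φ - 3 * K - 1⌋ ⌈φ - 3 * K - 1 + (6 * K + 2)⌉ with hD
      have hDc : (D.card : ℝ) ≤ 6 * K + 2 + 1 := k8b_card_Ioo_le _ _ (by linarith)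
      set f : ℤ × ℤ → ℤ × ℤ := fun y =>
        (k5_bin r (k5_S (F t') (c (L y)) t'), y.2 - k5_bin r (k5_S (F t') (c (L y)) t')) with hf
      have hmaps : Set.MapsTo f (Y.filter (fun y => t' ∈ TT y) : Finset (ℤ × ℤ)) (Z' ×ˢ D : Finset (ℤ × ℤ)) := by
        intro y hy
        rw [Finset.mem_coe, Finset.mem_filter] at hy
        obtain ⟨hyY, hyE, hyt⟩ := hy
        obtain ⟨h1, h2, h3⟩ := hLT y hyY
        have h4 : ⌊T y / r⌋ = y.1 := congrArg Prod.fst h3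
        have h5 : ⌊k5_x (c (L y)) (T y) / r⌋ = y.2 := congrArg Prod.snd h3
        rw [Finset.mem_coe, Finset.mem_product]
        refine ⟨hZ' (L y) hyE, ?_⟩
        set l := L y with hl
        set t := T y with ht
        have hfl := h.flat l
        have hc1 : ‖(c l).1‖ ≤ K := (norm_fst_le (c l)).trans (h.cb l)
        have hc11 : |(c l).1 1| ≤ K := (norm_le_pi_norm ((c l).1) 1).trans hc1
        have hF0 : |F t' 0| ≤ K := (norm_le_pi_norm (F t') 0).trans (h.Fb t')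
        have hF1 : |F t' 1| ≤ K := (norm_le_pi_norm (F t') 1).trans (h.Fb t')
        have hyb : ∀ b' s, k5_y (c l) s b' = (c l).2 0 b' := by
          intro b' s
          have hz : (c l).2 1 b' = 0 := congrFun hfl.2 b'
          unfold k5_y
          rw [hz]; ring
        have hu : ∀ b', |(c l).2 0 b' / r - (g b' : ℝ)| ≤ 1 := by
          intro b'
          have h6 : ⌊k5_y (c l) t b' / r⌋ = g b' := congrFun h2 b'
          rw [hyb] at h6
          have h7 := Int.floor_eq_iff.1 h6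
          rw [abs_le]
          constructor <;> linarith [h7.1, h7.2]
        have htt : |t / r - t' / r| ≤ 1 := (Int.abs_sub_lt_one_of_floor_eq_floor (h4.trans hyt.symm)).le
        have e0 := abs_le.1 (k8b_abs_mul_le hF0 (hu 0))
        have e1 := abs_le.1 (k8b_abs_mul_le hF1 (hu 1))
        have e2 := abs_le.1 (k8b_abs_mul_le hc11 htt)
        have hid : k5_x (c l) t / r = k5_S (F t') (c l) t' / r + φ + F t' 0 * ((c l).2 0 0 / r - (g 0 : ℝ))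
            + F t' 1 * ((c l).2 0 1 / r - (g 1 : ℝ)) + (c l).1 1 * (t / r - t' / r) := by
          unfold k5_S
          simp only [dotProduct, Fin.sum_univ_two, hyb]
          unfold k5_x
          rw [hfl.1, hφ]
          ring
        have s1 := Int.floor_le (k5_S (F t') (c l) t' / r)
        have s2 := Int.lt_floor_add_one (k5_S (F t') (c l) t' / r)
        have z1 := Int.floor_le (k5_x (c l) t / r)
        have z2 := Int.lt_floor_add_one (k5_x (c l) t / r)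
        rw [h5] at z1 z2
        simp only [hf, hD, Finset.mem_Ioo, Int.floor_lt, Int.lt_ceil, k5_bin]
        push_cast
        constructor <;> linarith [e0.1, e0.2, e1.1, e1.2, e2.1, e2.2]
      have hinj : Set.InjOn f (Y.filter (fun y => t' ∈ TT y) : Finset (ℤ × ℤ)) := by
        intro y hy y' hy' hyy
        rw [Finset.mem_coe, Finset.mem_filter] at hy hy'
        have h1 : y.1 = y'.1 := hy.2.2.symm.trans hy'.2.2
        have h2 := congrArg Prod.fst hyy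
        have h3 := congrArg Prod.snd hyy
        simp only [hf] at h2 h3
        rw [h2] at h3
        exact Prod.ext h1 (by linarith)
      have hcard := Finset.card_le_card_of_injOn f hmaps hinj
      rw [Finset.card_product] at hcard
      have hcard' : ((Y.filter (fun y => t' ∈ TT y)).card : ℝ) ≤ (Z'.card : ℝ) * (D.card : ℝ) := by
        exact_mod_cast hcard
      calc ((Y.filter (fun y => t' ∈ TT y)).card : ℝ) ≤ (Z'.card : ℝ) * (D.card : ℝ) := hcard'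
        _ ≤ (Kc * r ^ (-d)) * (9 * K) :=
          mul_le_mul hZc (by linarith) (Nat.cast_nonneg _) (by positivity)
        _ = N := by rw [hN]; ring
    have hpt : ∀ t', ∑ y ∈ Y, (TT y).indicator (1 : ℝ → ENNReal) t'
        ≤ (Ico (0 : ℝ) 1).indicator (fun _ => ENNReal.ofReal N) t' := by
      intro t'
      by_cases ht' : t' ∈ Ico (0 : ℝ) 1
      · rw [indicator_of_mem ht']
        have h1 : ∑ y ∈ Y, (TT y).indicator (1 : ℝ → ENNReal) t'
            = ((Y.filter (fun y => t' ∈ TT y)).card : ENNReal) := by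
          rw [← Finset.sum_boole]
          refine Finset.sum_congr rfl fun y _ => ?_
          simp only [indicator_apply, Pi.one_apply]
        rw [h1, ← ENNReal.ofReal_natCast]
        exact ENNReal.ofReal_le_ofReal (cnt t')
      · rw [indicator_of_notMem ht']
        refine le_of_eq (Finset.sum_eq_zero fun y _ => ?_)
        refine indicator_of_notMem (fun hy => ht' ?_) _
        exact h.tI _ _ hy.1
    have hsum : (Y.card : ENNReal) * ENNReal.ofReal (r / Kd) ≤ ENNReal.ofReal N := by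
      calc (Y.card : ENNReal) * ENNReal.ofReal (r / Kd) = ∑ _y ∈ Y, ENNReal.ofReal (r / Kd) := by
            rw [Finset.sum_const, nsmul_eq_mul]
        _ ≤ ∑ y ∈ Y, volume (TT y) := Finset.sum_le_sum hvol
        _ = ∑ y ∈ Y, ∫⁻ t', (TT y).indicator (1 : ℝ → ENNReal) t' := by
            refine Finset.sum_congr rfl fun y _ => ?_
            rw [lintegral_indicator_one (hTTm y)]
        _ = ∫⁻ t', ∑ y ∈ Y, (TT y).indicator (1 : ℝ → ENNReal) t' := by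
            rw [lintegral_finsetSum]
            exact fun y _ => measurable_one.indicator (hTTm y)
        _ ≤ ∫⁻ t', (Ico (0 : ℝ) 1).indicator (fun _ => ENNReal.ofReal N) t' := lintegral_mono hpt
        _ = ENNReal.ofReal N := by
            rw [lintegral_indicator_const measurableSet_Ico]
            simp
    rw [← ENNReal.ofReal_natCast, ← ENNReal.ofReal_mul (Nat.cast_nonneg _)] at hsum
    exact (ENNReal.ofReal_le_ofReal_iff hN0).1 hsum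
  have key2 : ∀ Y : Finset (ℤ × ℤ), (Y : Set (ℤ × ℤ)) ⊆ O → (Y.card : ℝ) ≤ N * Kd / r := by
    intro Y hY
    have h1 := key Y hY
    rw [le_div_iff₀ hr]
    have h2 : (Y.card : ℝ) * (r / Kd) * Kd = (Y.card : ℝ) * r := by field_simp
    rw [← h2]
    exact mul_le_mul_of_nonneg_right h1 hKd0.le
  have hfin : O.Finite := by
    by_contra hinf
    obtain ⟨Y, hY, hYc⟩ := Set.Infinite.exists_subset_card_eq hinf (⌈N * Kd / r⌉₊ + 1)
    have h1 := key2 Y hY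
    rw [hYc] at h1
    have h2 := Nat.le_ceil (N * Kd / r)
    push_cast at h1
    linarith
  refine ⟨hfin.toFinset, ?_, ?_⟩
  · have h1 := key2 hfin.toFinset (by simp)
    refine h1.trans ?_
    have h2 : r ^ (-1 - d) = r ^ (-d) / r := by
      rw [show (-1 - d) = -d - 1 by ring, Real.rpow_sub hr, Real.rpow_one]
    rw [h2, hN]
    have h3 : 9 * K * Kc * r ^ (-d) * Kd / r = 9 * K * (Kc * Kd * (r ^ (-d) / r)) := by ring
    have h4 : 100 * K ^ 2 * Kc * Kd * (r ^ (-d) / r) = 100 * K ^ 2 * (Kc * Kd * (r ^ (-d) / r)) := by ring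
    rw [h3, h4]
    exact mul_le_mul_of_nonneg_right (by nlinarith) (by positivity)
  · intro l t hlt hg
    rw [Set.Finite.mem_toFinset]
    exact ⟨l, t, hlt, hg, rfl⟩

/-- **L-252-S8b-D2** (~250 l.).   Coefficient balls of the auxiliary prior (08 l.650-655).
PROOF.  For `l` in the set and `t ∈ [0,1)`: `|x̄_l(t) - (b 0 + t b 1)| ≤ 2w`.   If `4w ≤ 1`: `k8bMix` with the `y`-cell `g` and the scalar width `4w`: `ν{l ∈ set, (l,t) ∈ E} ≤ 4 K r² w^d`; if `4w > 1`: `|x̄| ≤ 2K`, `4K` unit intervals: `≤ 4K² r² ≤ 16 K² r² w^d`.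
Tonelli: `ν(set)/KL ≤ ∫_set |E_l| dν = ∫₀¹ ν{l ∈ set, (l,t) ∈ E} dt`. -/
theorem k8b_aux_ball {Λ : Type} [MeasurableSpace Λ] {ν : Measure Λ} {c : Λ → k5_Co 2} {E : Set (Λ × ℝ)}
    {F : ℝ → Fin 2 → ℝ} {K : ℝ} (h : K8bCh K ν c E F) (d ζ r KL w : ℝ) (hd0 : 0 ≤ d) (hd1 : d ≤ 1) (hζ : 0 < ζ)
    (hmix : k8bMix d K ζ ν c E) (hr : ζ ≤ r) (hr1 : r ≤ 1) (hKL : 1 ≤ KL) (hw : r ≤ w) (g : Fin 2 → ℤ) (b : Fin 3 → ℝ) :
    ν.real {l | k5_vbin r ((c l).2 0) = g ∧ 1 / KL ≤ volume.real (k5_fib E l) ∧ ‖(c l).1 - b‖ ≤ w}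
      ≤ 20 * K ^ 2 * KL * r ^ 2 * w ^ d := by
  classical
  have := h.prob
  have hK1 := h.K1
  have hr0 : 0 < r := lt_of_lt_of_le hζ hr
  have hw0 : 0 < w := lt_of_lt_of_le hr0 hw
  have hKL0 : 0 < KL := by linarith
  have hwd0 : 0 < w ^ d := Real.rpow_pos_of_pos hw0 d
  set A : Set Λ := {l | k5_vbin r ((c l).2 0) = g ∧ 1 / KL ≤ volume.real (k5_fib E l) ∧ ‖(c l).1 - b‖ ≤ w} with hA
  have hAm : MeasurableSet A := by
    have m1 : MeasurableSet {l | k5_vbin r ((c l).2 0) = g} := by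
      have hm : Measurable (fun l => k5_vbin r ((c l).2 0)) := by
        unfold k5_vbin
        refine measurable_pi_iff.2 fun a => ?_
        have h1 : Measurable (fun l => (c l).2 0 a) :=
          (measurable_pi_apply a).comp ((measurable_pi_apply 0).comp h.mc.snd)
        exact (h1.div_const r).floor
      exact hm (measurableSet_singleton g)
    have m2 : MeasurableSet {l | 1 / KL ≤ volume.real (k5_fib E l)} :=
      measurableSet_le measurable_const (k5_measurable_fib h.mE)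
    have m3 : MeasurableSet {l | ‖(c l).1 - b‖ ≤ w} :=
      measurableSet_le (h.mc.fst.sub_const b).norm measurable_const
    exact m1.inter (m2.inter m3)
  set P : Set (Λ × ℝ) := {x | x ∈ E ∧ x.1 ∈ A} with hP
  have hPm : MeasurableSet P := h.mE.inter (measurable_fst hAm)
  have hPI : k5_In P (Ico (0 : ℝ) 1) := fun l t hlt => h.tI l t hlt.1
  set M : ℝ := 20 * K ^ 2 * r ^ 2 * w ^ d with hM
  have hsec : ∀ t ∈ Ico (0 : ℝ) 1, ν.real (k5_sec P t) ≤ M := by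
    intro t ht
    set e : Fin 2 → ℝ := fun b' => (g b' : ℝ) * r with he
    -- position facts
    have hy : ∀ l ∈ A, ∀ b', e b' ≤ k5_y (c l) t b' ∧ k5_y (c l) t b' ≤ e b' + r := by
      intro l hl b'
      have h1 : ⌊(c l).2 0 b' / r⌋ = g b' := congrFun hl.1 b'
      have h2 : (c l).2 1 b' = 0 := congrFun (h.flat l).2 b'
      have h3 := Int.floor_eq_iff.1 h1
      have h4 : k5_y (c l) t b' = (c l).2 0 b' := by
        unfold k5_y
        rw [h2]; ring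
      rw [h4]
      have h5 := (le_div_iff₀ hr0).1 h3.1
      have h6 := (div_lt_iff₀ hr0).1 h3.2
      constructor
      · exact h5
      · simp only [he]; nlinarith
    have hx : ∀ l, k5_x (c l) t = (c l).1 0 + (c l).1 1 * t := by
      intro l
      unfold k5_x
      rw [(h.flat l).1]; ring
    have ht1 : |t| ≤ 1 := by rw [abs_of_nonneg ht.1]; exact ht.2.le
    by_cases h4w : 4 * w ≤ 1
    · have hsub : k5_sec P t ⊆ {l | (l, t) ∈ E ∧ k8bIn r (4 * w) (b 0 + b 1 * t - 2 * w) e (c l) t} := by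
        intro l hl
        refine ⟨hl.1, hy l hl.2, ?_⟩
        have hn := hl.2.2.2
        have h0 : |(c l).1 0 - b 0| ≤ w := (norm_le_pi_norm ((c l).1 - b) 0).trans hn
        have h1 : |(c l).1 1 - b 1| ≤ w := (norm_le_pi_norm ((c l).1 - b) 1).trans hn
        have h2 := abs_le.1 (k8b_abs_mul_le h1 ht1)
        have h3 := abs_le.1 h0
        rw [hx l]
        constructor <;> nlinarith [h2.1, h2.2, h3.1, h3.2]
      have h1 := hmix t r (4 * w) (b 0 + b 1 * t - 2 * w) e hr hr1 (by linarith) h4w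
      have h2 : (4 * w) ^ d ≤ 4 * w ^ d := by
        rw [Real.mul_rpow (by norm_num) hw0.le]
        have : (4 : ℝ) ^ d ≤ 4 ^ (1 : ℝ) := Real.rpow_le_rpow_of_exponent_le (by norm_num) hd1
        rw [Real.rpow_one] at this
        exact mul_le_mul_of_nonneg_right this hwd0.le
      calc ν.real (k5_sec P t) ≤ _ := measureReal_mono hsub
        _ ≤ K * r ^ 2 * (4 * w) ^ d := h1
        _ ≤ K * r ^ 2 * (4 * w ^ d) := mul_le_mul_of_nonneg_left h2 (by positivity)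
        _ = 4 * K * (r ^ 2 * w ^ d) := by ring
        _ ≤ 20 * K ^ 2 * (r ^ 2 * w ^ d) :=
          mul_le_mul_of_nonneg_right (by nlinarith) (by positivity)
        _ = M := by rw [hM]; ring
    · rw [not_le] at h4w
      set N : ℕ := ⌈4 * K⌉₊ with hN
      have hNK : (N : ℝ) ≤ 5 * K := by
        have := Nat.ceil_lt_add_one (a := 4 * K) (by linarith)
        linarith
      have hsub : k5_sec P t ⊆ ⋃ i ∈ Finset.range N, {l | (l, t) ∈ E ∧ k8bIn r 1 (-(2 * K) + (i : ℝ)) e (c l) t} := by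
        intro l hl
        have hc := h.cb l
        have hc1 : ‖(c l).1‖ ≤ K := (norm_fst_le (c l)).trans hc
        have h0 : |(c l).1 0| ≤ K := (norm_le_pi_norm ((c l).1) 0).trans hc1
        have h1 : |(c l).1 1| ≤ K := (norm_le_pi_norm ((c l).1) 1).trans hc1
        have h0' := abs_le.1 h0
        have h1' := abs_le.1 h1
        have hlo : 0 ≤ k5_x (c l) t + 2 * K := by
          rw [hx l]
          nlinarith [ht.1, ht.2]
        have hhi : k5_x (c l) t + 2 * K < 4 * K := by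
          rw [hx l]
          nlinarith [ht.1, ht.2]
        have hi1 := Nat.floor_le hlo
        have hi2 := Nat.lt_floor_add_one (k5_x (c l) t + 2 * K)
        have hi3 : ⌊k5_x (c l) t + 2 * K⌋₊ < N := by
          have : ((⌊k5_x (c l) t + 2 * K⌋₊ : ℕ) : ℝ) < (N : ℝ) :=
            lt_of_le_of_lt hi1 (lt_of_lt_of_le hhi (Nat.le_ceil _))
          exact_mod_cast this
        simp only [mem_iUnion, Finset.mem_range, exists_prop]
        refine ⟨_, hi3, hl.1, hy l hl.2, ?_, ?_⟩ <;> linarith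
      have hone : ∀ i ∈ Finset.range N,
          ν.real {l | (l, t) ∈ E ∧ k8bIn r 1 (-(2 * K) + (i : ℝ)) e (c l) t} ≤ K * r ^ 2 := by
        intro i _
        have := hmix t r 1 (-(2 * K) + (i : ℝ)) e hr hr1 (hr.trans hr1) le_rfl
        rwa [Real.one_rpow, mul_one] at this
      have hwd : 1 / 4 ≤ w ^ d := by
        rcases le_total 1 w with h1 | h1
        · have := Real.one_le_rpow h1 hd0
          linarith
        · have := Real.rpow_le_rpow_of_exponent_ge hw0 h1 hd1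
          rw [Real.rpow_one] at this
          linarith
      calc ν.real (k5_sec P t) ≤ _ := measureReal_mono hsub (measure_ne_top _ _)
        _ ≤ ∑ i ∈ Finset.range N, ν.real {l | (l, t) ∈ E ∧ k8bIn r 1 (-(2 * K) + (i : ℝ)) e (c l) t} :=
          measureReal_biUnion_finset_le _ _
        _ ≤ ∑ _i ∈ Finset.range N, K * r ^ 2 := Finset.sum_le_sum hone
        _ = N * (K * r ^ 2) := by rw [Finset.sum_const, Finset.card_range, nsmul_eq_mul]
        _ ≤ 5 * K * (K * r ^ 2) := mul_le_mul_of_nonneg_right hNK (by positivity)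
        _ = 20 * K ^ 2 * r ^ 2 * (1 / 4) := by ring
        _ ≤ M := by
          rw [hM]
          exact mul_le_mul_of_nonneg_left hwd (by positivity)
  have hup : k5_mass ν P ≤ M := by
    have := k5_mass_le_sec hPm measurableSet_Ico (by simp) hPI hsec
    simpa using this
  have hlow : ν.real A * (1 / KL) ≤ k5_mass ν P := by
    rw [k5_mass_eq_fib hPm (T := Ico 0 1) (by simp) hPI]
    have hint : Integrable (fun l => volume.real (k5_fib P l)) ν := by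
      refine Integrable.of_bound (k5_measurable_fib hPm).aestronglyMeasurable (volume.real (Ico (0 : ℝ) 1)) ?_
      refine Filter.Eventually.of_forall fun l => ?_
      rw [Real.norm_of_nonneg measureReal_nonneg]
      exact measureReal_mono (k5_fib_sub hPI l) (by simp)
    calc ν.real A * (1 / KL) = ∫ l, A.indicator (fun _ => 1 / KL) l ∂ν := by
          rw [integral_indicator hAm, setIntegral_const, smul_eq_mul]
      _ ≤ ∫ l, volume.real (k5_fib P l) ∂ν := by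
          refine integral_mono ((integrable_const _).indicator hAm) hint fun l => ?_
          by_cases hl : l ∈ A
          · simp only [indicator_of_mem hl]
            have : k5_fib P l = k5_fib E l := by
              ext t
              exact ⟨fun h' => h'.1, fun h' => ⟨h', hl⟩⟩
            rw [this]
            exact hl.2.1
          · simp only [indicator_of_notMem hl]
            exact measureReal_nonneg
  have hfin : ν.real A * (1 / KL) ≤ M := hlow.trans hup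
  have : ν.real A ≤ M * KL := by
    rw [mul_one_div, div_le_iff₀ hKL0] at hfin
    exact hfin
  calc ν.real A ≤ M * KL := this
    _ = 20 * K ^ 2 * KL * r ^ 2 * w ^ d := by rw [hM]; ring

/-- helper (pruning): the classes of a finite key of measure `< a` carry `≤ #keys · a` -/
theorem k8b_pr_light {α β : Type} [MeasurableSpace α] (μ : Measure α) (κ : α → β) (E : Set α) (hE : μ E ≠ ⊤) (a : ℝ)
    (ha : 0 ≤ a) (I : Finset β) (hI : ∀ x ∈ E, κ x ∈ I) :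
    μ.real {x | x ∈ E ∧ μ.real {x' | x' ∈ E ∧ κ x' = κ x} < a} ≤ I.card * a := by
  classical
  set D : Set α := {x | x ∈ E ∧ μ.real {x' | x' ∈ E ∧ κ x' = κ x} < a} with hD
  have hsub : D ⊆ ⋃ i ∈ I, {x | x ∈ D ∧ κ x = i} := fun x hx => by
    simp only [mem_iUnion]
    exact ⟨κ x, hI x hx.1, hx, rfl⟩
  have hfin : μ (⋃ i ∈ I, {x | x ∈ D ∧ κ x = i}) ≠ ⊤ := by
    refine ne_top_of_le_ne_top hE (measure_mono fun x hx => ?_)
    simp only [mem_iUnion] at hx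
    obtain ⟨i, _, hx, _⟩ := hx
    exact hx.1
  calc μ.real D ≤ μ.real (⋃ i ∈ I, {x | x ∈ D ∧ κ x = i}) := measureReal_mono hsub hfin
    _ ≤ ∑ i ∈ I, μ.real {x | x ∈ D ∧ κ x = i} := measureReal_biUnion_finset_le _ _
    _ ≤ ∑ i ∈ I, a := Finset.sum_le_sum fun i _ => ?_
    _ = I.card * a := by simp
  by_cases hne : ∃ x, x ∈ D ∧ κ x = i
  · obtain ⟨x, hx, rfl⟩ := hne
    have hss : {y | y ∈ D ∧ κ y = κ x} ⊆ {x' | x' ∈ E ∧ κ x' = κ x} := fun y hy => ⟨hy.1.1, hy.2⟩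
    refine le_trans (measureReal_mono hss ?_) hx.2.le
    exact ne_top_of_le_ne_top hE (measure_mono fun y hy => hy.1)
  · have : {x | x ∈ D ∧ κ x = i} = ∅ := by
      ext x
      simp only [mem_ofPred_eq, mem_empty_iff_false, iff_false]
      exact fun hx => hne ⟨x, hx⟩
    rw [this]
    simpa using ha

/-- helper (pruning): comparison class by class of a countable key -/
theorem k8b_pr_cmp {α β : Type} [MeasurableSpace α] [MeasurableSpace β] [Countable β] [MeasurableSingletonClass β]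
    (μ : Measure α) (κ : α → β) (hκ : Measurable κ) (D E : Set α) (hEm : MeasurableSet E) (hE : μ E ≠ ⊤) (hDE : D ⊆ E)
    (δ : ℝ) (hδ : 0 ≤ δ) (h : ∀ b, μ.real {x | x ∈ D ∧ κ x = b} ≤ δ * μ.real {x | x ∈ E ∧ κ x = b}) :
    μ.real D ≤ δ * μ.real E := by
  have hEb : ∀ b, μ {x | x ∈ E ∧ κ x = b} ≠ ⊤ := fun b => ne_top_of_le_ne_top hE (measure_mono fun y hy => hy.1)
  have hDb : ∀ b, μ {x | x ∈ D ∧ κ x = b} ≠ ⊤ := fun b => ne_top_of_le_ne_top hE (measure_mono fun y hy => hDE hy.1)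
  have h1 : μ D ≤ ∑' b, μ {x | x ∈ D ∧ κ x = b} := by
    refine le_trans (measure_mono fun x hx => ?_) (measure_iUnion_le _)
    simp only [mem_iUnion]
    exact ⟨κ x, hx, rfl⟩
  have h2 : ∀ b, μ {x | x ∈ D ∧ κ x = b} ≤ ENNReal.ofReal δ * μ {x | x ∈ E ∧ κ x = b} := by
    intro b
    rw [← ofReal_measureReal (hDb b), ← ofReal_measureReal (hEb b), ← ENNReal.ofReal_mul hδ]
    exact ENNReal.ofReal_le_ofReal (h b)
  have h3 : ∑' b, μ {x | x ∈ E ∧ κ x = b} ≤ μ E := by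
    refine le_trans (tsum_meas_le_meas_iUnion_of_disjoint μ (fun b => hEm.inter (hκ (measurableSet_singleton b))) ?_)
      (measure_mono fun x hx => ?_)
    · intro b b' hbb
      refine Set.disjoint_left.2 fun x hx hx' => hbb ?_
      exact hx.2.symm.trans hx'.2
    · simp only [mem_iUnion] at hx
      obtain ⟨b, hx⟩ := hx
      exact hx.1
  have h4 : μ D ≤ ENNReal.ofReal δ * μ E := by
    refine h1.trans ((ENNReal.tsum_le_tsum h2).trans ?_)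
    rw [ENNReal.tsum_mul_left]
    gcongr
  have h5 := ENNReal.toReal_mono (ENNReal.mul_ne_top ENNReal.ofReal_ne_top hE) h4
  rw [ENNReal.toReal_mul, ENNReal.toReal_ofReal hδ] at h5
  exact h5

/-- helper: the `r`-bins of the times of `[0,1)` -/
theorem k8b_pr_tbins (r : ℝ) (hr : 0 < r) (hr1 : r ≤ 1) :
    ∃ I : Finset ℤ, (I.card : ℝ) ≤ 2 / r ∧ ∀ t : ℝ, 0 ≤ t → t < 1 → ⌊t / r⌋ ∈ I := by
  refine ⟨Finset.Ico 0 ⌈1 / r⌉, ?_, fun t h0 h1 => ?_⟩
  · rw [Int.card_Ico, sub_zero]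
    have h0 : (0 : ℤ) ≤ ⌈1 / r⌉ := Int.ceil_nonneg (by positivity)
    have h1 : ((⌈1 / r⌉.toNat : ℤ) : ℝ) = (⌈1 / r⌉ : ℝ) := by rw [Int.toNat_of_nonneg h0]
    have h2 : ((⌈1 / r⌉.toNat : ℕ) : ℝ) = (⌈1 / r⌉ : ℝ) := by rw [← h1]; norm_cast
    rw [h2]
    have h3 := Int.ceil_lt_add_one (1 / r)
    have h4 : 1 ≤ 1 / r := by rw [le_div_iff₀ hr]; linarith
    have h5 : 2 / r = 1 / r + 1 / r := by ring
    linarith
  · rw [Finset.mem_Ico]
    refine ⟨Int.floor_nonneg.2 (div_nonneg h0 hr.le), Int.floor_lt.2 ?_⟩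
    exact lt_of_lt_of_le (div_lt_div_of_pos_right h1 hr) (Int.le_ceil _)

/-- helper: measurability of the coefficient bin -/
theorem k8b_pr_cbin_meas {Λ : Type} [MeasurableSpace Λ] {c : Λ → k5_Co 2} (hc : Measurable c) (r : ℝ) :
    Measurable fun l => k5_cbin r (c l) := by
  unfold k5_cbin
  refine Measurable.prodMk (measurable_pi_lambda _ fun i => ?_)
    (measurable_pi_lambda _ fun i => measurable_pi_lambda _ fun a => ?_)
  · exact Int.measurable_floor.comp (((measurable_pi_apply i).comp (measurable_fst.comp hc)).div_const r)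
  · exact Int.measurable_floor.comp
      (((measurable_pi_apply a).comp ((measurable_pi_apply i).comp (measurable_snd.comp hc))).div_const r)

/-- helper (pruning of the fibres): delete the (line, `τ`-class) pairs of labelled duration `< a` -/
theorem k8b_pr_fib {Λ : Type} [MeasurableSpace Λ] (ν : Measure Λ) [IsFiniteMeasure ν] (E : Set (Λ × ℝ))
    (hE : MeasurableSet E) (hIn : k5_In E (Ico (0 : ℝ) 1)) (τ : ℝ → ℤ) (hτ : Measurable τ) (a : ℝ) (ha : 0 ≤ a)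
    (I : Finset ℤ) (hI : ∀ t : ℝ, 0 ≤ t → t < 1 → τ t ∈ I) :
    MeasurableSet {x : Λ × ℝ | x ∈ E ∧ a ≤ volume.real {t' | (x.1, t') ∈ E ∧ τ t' = τ x.2}} ∧
      k5_mass ν E - I.card * a * ν.real univ
        ≤ k5_mass ν {x : Λ × ℝ | x ∈ E ∧ a ≤ volume.real {t' | (x.1, t') ∈ E ∧ τ t' = τ x.2}} := by
  have hT : volume (Ico (0 : ℝ) 1) ≠ ⊤ := by simp
  set E' : Set (Λ × ℝ) := {x : Λ × ℝ | x ∈ E ∧ a ≤ volume.real {t' | (x.1, t') ∈ E ∧ τ t' = τ x.2}} with hE'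
  have hE'm : MeasurableSet E' := by
    have hEi : ∀ i : ℤ, MeasurableSet {x : Λ × ℝ | x ∈ E ∧ τ x.2 = i} := fun i =>
      hE.inter ((hτ.comp measurable_snd) (measurableSet_singleton i))
    have h1 : E' = ⋃ i : ℤ, ({x : Λ × ℝ | x ∈ E ∧ τ x.2 = i}
        ∩ {x : Λ × ℝ | a ≤ volume.real (k5_fib {x : Λ × ℝ | x ∈ E ∧ τ x.2 = i} x.1)}) := by
      ext x
      simp only [mem_iUnion]
      constructor
      · intro hx
        exact ⟨τ x.2, ⟨hx.1, rfl⟩, hx.2⟩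
      · rintro ⟨i, ⟨hx1, rfl⟩, hx2⟩
        exact ⟨hx1, hx2⟩
    rw [h1]
    refine MeasurableSet.iUnion fun i => (hEi i).inter ?_
    exact measurableSet_le measurable_const ((k5_measurable_fib (hEi i)).comp measurable_fst)
  refine ⟨hE'm, ?_⟩
  have hsplit := k5_mass_split (ν := ν) hE hT hIn hE'm
  have e1 : E ∩ E' = E' := inter_eq_right.2 fun x hx => hx.1
  rw [e1] at hsplit
  have hDm : MeasurableSet (E \ E') := hE.diff hE'm
  have hDIn : k5_In (E \ E') (Ico (0 : ℝ) 1) := fun l t hlt => hIn l t hlt.1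
  have hD : k5_mass ν (E \ E') ≤ I.card * a * ν.real univ := by
    refine k5_mass_le_fib hDm hT hDIn fun l => ?_
    have hfin : volume (k5_fib E l) ≠ ⊤ := ne_top_of_le_ne_top hT (measure_mono (k5_fib_sub hIn l))
    have hq := k8b_pr_light volume τ (k5_fib E l) hfin a ha I (fun t ht => hI t (hIn l t ht).1 (hIn l t ht).2)
    refine le_trans (le_of_eq ?_) hq
    congr 1
    ext t
    simp only [k5_fib, hE', mem_sdiff, mem_ofPred_eq, not_and, not_le]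
    exact ⟨fun hx => ⟨hx.1, hx.2 hx.1⟩, fun hx => ⟨hx.1, fun _ => hx.2⟩⟩
  linarith

/-- helper (pruning of the lines): delete the lines of labelled duration `< a` -/
theorem k8b_pr_line {Λ : Type} [MeasurableSpace Λ] (ν : Measure Λ) [IsFiniteMeasure ν] (E : Set (Λ × ℝ))
    (hE : MeasurableSet E) (hIn : k5_In E (Ico (0 : ℝ) 1)) (a : ℝ) (ha : 0 ≤ a) :
    MeasurableSet {x : Λ × ℝ | x ∈ E ∧ a ≤ volume.real (k5_fib E x.1)} ∧
      k5_mass ν E - a * ν.real univ ≤ k5_mass ν {x : Λ × ℝ | x ∈ E ∧ a ≤ volume.real (k5_fib E x.1)} := by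
  have := k8b_pr_fib ν E hE hIn (fun _ => 0) measurable_const a ha {0} (by simp)
  simpa [k5_fib] using this

/-- helper: lower bound of the mass over a set of lines of long duration -/
theorem k8b_pr_mass_ge {Λ : Type} [MeasurableSpace Λ] (ν : Measure Λ) [IsFiniteMeasure ν] (E : Set (Λ × ℝ))
    (hE : MeasurableSet E) (hIn : k5_In E (Ico (0 : ℝ) 1)) (T : Set Λ) (hTm : MeasurableSet T) (a : ℝ)
    (h : ∀ l ∈ T, a ≤ volume.real (k5_fib E l)) : a * ν.real T ≤ k5_mass ν {x | x ∈ E ∧ x.1 ∈ T} := by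
  have hT : volume (Ico (0 : ℝ) 1) ≠ ⊤ := by simp
  have hEm : MeasurableSet {x : Λ × ℝ | x ∈ E ∧ x.1 ∈ T} := hE.inter (measurable_fst hTm)
  have hEIn : k5_In {x : Λ × ℝ | x ∈ E ∧ x.1 ∈ T} (Ico (0 : ℝ) 1) := fun l t hlt => hIn l t hlt.1
  rw [k5_mass_eq_fib hEm hT hEIn]
  have hint : Integrable (fun l => volume.real (k5_fib {x : Λ × ℝ | x ∈ E ∧ x.1 ∈ T} l)) ν := by
    refine Integrable.of_bound (k5_measurable_fib hEm).aestronglyMeasurable (volume.real (Ico (0 : ℝ) 1)) ?_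
    refine Filter.Eventually.of_forall fun l => ?_
    rw [Real.norm_of_nonneg measureReal_nonneg]
    exact measureReal_mono (k5_fib_sub hEIn l) hT
  have h1 : ∫ l, T.indicator (fun _ => a) l ∂ν ≤ ∫ l, volume.real (k5_fib {x : Λ × ℝ | x ∈ E ∧ x.1 ∈ T} l) ∂ν := by
    refine integral_mono ((integrable_const a).indicator hTm) hint fun l => ?_
    by_cases hl : l ∈ T
    · simp only [indicator_of_mem hl]
      refine (h l hl).trans (le_of_eq ?_)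
      congr 1
      ext t
      simp [k5_fib, hl]
    · simp only [indicator_of_notMem hl]
      exact measureReal_nonneg
  rw [integral_indicator_const a hTm, smul_eq_mul, mul_comm] at h1
  exact h1

/-- helper: the `r`-cells of the vectors of norm `≤ K` -/
theorem k8b_pr_ybins (r K : ℝ) (hr : 0 < r) (hr1 : r ≤ 1) (hK : 1 ≤ K) :
    ∃ G : Finset (Fin 2 → ℤ), (G.card : ℝ) ≤ 16 * K ^ 2 / r ^ 2 ∧ ∀ y : Fin 2 → ℝ, ‖y‖ ≤ K → k5_vbin r y ∈ G := by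
  refine ⟨Fintype.piFinset fun _ => Finset.Icc ⌊-K / r⌋ ⌊K / r⌋, ?_, fun y hy => ?_⟩
  · rw [Fintype.card_piFinset_const, Int.card_Icc]
    have hKr : 1 ≤ K / r := by rw [le_div_iff₀ hr]; linarith
    have h0 : (0 : ℤ) ≤ ⌊K / r⌋ + 1 - ⌊-K / r⌋ := by
      have : ⌊-K / r⌋ ≤ ⌊K / r⌋ := Int.floor_le_floor (by
        have : -K / r = -(K / r) := by ring
        linarith)
      linarith
    have h1 : (((⌊K / r⌋ + 1 - ⌊-K / r⌋).toNat : ℤ) : ℝ) = ((⌊K / r⌋ + 1 - ⌊-K / r⌋ : ℤ) : ℝ) := by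
      rw [Int.toNat_of_nonneg h0]
    have h2 : (((⌊K / r⌋ + 1 - ⌊-K / r⌋).toNat : ℕ) : ℝ) = ((⌊K / r⌋ + 1 - ⌊-K / r⌋ : ℤ) : ℝ) := by
      rw [← h1]; norm_cast
    push_cast
    rw [h2]
    push_cast
    have h3 : (⌊K / r⌋ : ℝ) ≤ K / r := Int.floor_le _
    have h4 : -K / r - 1 < (⌊-K / r⌋ : ℝ) := Int.sub_one_lt_floor _
    have h5 : -K / r = -(K / r) := by ring
    have h6 : (⌊K / r⌋ : ℝ) + 1 - ⌊-K / r⌋ ≤ 4 * (K / r) := by linarith
    have h7 : (0 : ℝ) ≤ (⌊K / r⌋ : ℝ) + 1 - ⌊-K / r⌋ := by exact_mod_cast h0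
    calc ((⌊K / r⌋ : ℝ) + 1 - ⌊-K / r⌋) ^ 2 ≤ (4 * (K / r)) ^ 2 := pow_le_pow_left₀ h7 h6 2
      _ = 16 * K ^ 2 / r ^ 2 := by ring
  · rw [Fintype.mem_piFinset]
    intro a
    have ha : |y a| ≤ K := (norm_le_pi_norm y a).trans hy
    obtain ⟨h1, h2⟩ := abs_le.1 ha
    rw [Finset.mem_Icc]
    exact ⟨Int.floor_le_floor (div_le_div_of_nonneg_right h1 hr.le),
      Int.floor_le_floor (div_le_div_of_nonneg_right h2 hr.le)⟩

/-- helper of `k8b_heavy`: the numerology of the slack `1600 (K/δ)³` -/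
theorem k8b_hv_num (K δ : ℝ) (hK : 1 ≤ K) (hδ : 0 < δ) (hδ1 : δ ≤ 1) :
    1 ≤ K / δ ∧ K ≤ 1600 * (K / δ) ^ 3 ∧ 20 * K ^ 2 * (8 / δ) * K ≤ 1600 * (K / δ) ^ 3 ∧
      20 * K ^ 2 * (8 / δ) ≤ 1600 * (K / δ) ^ 3 ∧ 100 * K ^ 2 * K * (16 / δ) ≤ 1600 * (K / δ) ^ 3 ∧
      1 / (1600 * (K / δ) ^ 3) ≤ δ / (64 * K ^ 2) := by
  obtain ⟨X, hX⟩ : ∃ X : ℝ, X = K / δ := ⟨_, rfl⟩
  have hKX : K = X * δ := by rw [hX]; field_simp
  rw [← hX]
  have hX1 : 1 ≤ X := by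
    rw [hX, le_div_iff₀ hδ]; linarith
  have hX0 : 0 < X := by linarith
  have hX2 : X ≤ X ^ 2 := by nlinarith
  have hX3 : X ^ 2 ≤ X ^ 3 := by nlinarith [sq_nonneg X]
  have hδ2 : δ ^ 2 ≤ 1 := by nlinarith
  have hX30 : 0 < X ^ 3 := by positivity
  have hX20 : 0 < X ^ 2 := by positivity
  refine ⟨hX1, ?_, ?_, ?_, ?_, ?_⟩
  · have : K ≤ X := by rw [hKX]; nlinarith
    linarith
  · have e : 20 * K ^ 2 * (8 / δ) * K = 160 * (X ^ 3 * δ ^ 2) := by rw [hKX]; field_simp; ring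
    rw [e]
    have : X ^ 3 * δ ^ 2 ≤ X ^ 3 * 1 := mul_le_mul_of_nonneg_left hδ2 hX30.le
    linarith
  · have e : 20 * K ^ 2 * (8 / δ) = 160 * (X ^ 2 * δ) := by rw [hKX]; field_simp; ring
    rw [e]
    have : X ^ 2 * δ ≤ X ^ 2 * 1 := mul_le_mul_of_nonneg_left hδ1 hX20.le
    linarith
  · have e : 100 * K ^ 2 * K * (16 / δ) = 1600 * (X ^ 3 * δ ^ 2) := by rw [hKX]; field_simp; ring
    rw [e]
    have : X ^ 3 * δ ^ 2 ≤ X ^ 3 * 1 := mul_le_mul_of_nonneg_left hδ2 hX30.le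
    linarith
  · have hK0 : 0 < K := by linarith
    rw [div_le_div_iff₀ (by positivity) (by positivity), hKX]
    have h1 : X ^ 2 * δ ^ 2 ≤ X ^ 3 * δ := by
      have : X ^ 2 * δ ^ 2 ≤ X ^ 2 * δ := mul_le_mul_of_nonneg_left (by nlinarith) hX20.le
      have : X ^ 2 * δ ≤ X ^ 3 * δ := mul_le_mul_of_nonneg_right hX3 hδ.le
      linarith
    have h2 : 0 ≤ X ^ 3 * δ := by positivity
    nlinarith

/-- helper of `k8b_heavy`: one dense `y_r`-group of a pruned label set contains a heavy joint coefficient bin (`k5_cluster` for the auxiliary prior) -/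
theorem k8b_hv_core (d ε : ℝ) (hd0 : 0 ≤ d) (hd : d < 1) (hε : 0 < ε) :
    ∃ C₁ : ℝ, 1 ≤ C₁ ∧ ∀ (Λ : Type) [MeasurableSpace Λ] (ν : Measure Λ) (c : Λ → k5_Co 2) (E : Set (Λ × ℝ))
      (F : ℝ → Fin 2 → ℝ) (K ζ r δ : ℝ), K8bCh K ν c E F → 0 < ζ → ζ ≤ r → r ≤ 1 → k8bMix d K ζ ν c E →
      k8bSup d K r c E F → 0 < δ → δ ≤ 1 →
      (∀ l t, (l, t) ∈ E → r / (16 / δ) ≤ volume.real {t' | (l, t') ∈ E ∧ ⌊t' / r⌋ = ⌊t / r⌋}) →
      (∀ l t, (l, t) ∈ E → 1 / (8 / δ) ≤ volume.real (k5_fib E l)) → ∀ g : Fin 2 → ℤ,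
      δ * r ^ 2 / (64 * K ^ 2) ≤ k5_mass ν {x | x ∈ E ∧ k5_vbin r ((c x.1).2 0) = g} →
      ∃ x ∈ E, r ^ 2 * (r ^ (d + ε) / (C₁ * (1600 * (K / δ) ^ 3) ^ C₁)) * (1 / (2 * (1600 * (K / δ) ^ 3) ^ 2))
        ≤ k5_mass ν (k8bBinOf c E r x) := by
  obtain ⟨C₁, hC₁, hclu⟩ := k5_cluster d ε hd0 hd hε
  refine ⟨C₁, hC₁, ?_⟩
  intro Λ _ ν c E F K ζ r δ h hζ hr hr1 hmix hsup hδ hδ1 hdur hline g hg
  have := h.prob
  have hK := h.K1
  have hK0 : 0 < K := by linarith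
  have hr0 : 0 < r := lt_of_lt_of_le hζ hr
  have hT : volume (Ico (0 : ℝ) 1) ≠ ⊤ := by simp
  have hIn : k5_In E (Ico (0 : ℝ) 1) := fun l t hlt => h.tI l t hlt
  obtain ⟨hX1, n1, n2, n3, n4, n5⟩ := k8b_hv_num K δ hK hδ hδ1
  set Kc : ℝ := 1600 * (K / δ) ^ 3 with hKc
  have hKc1 : 1 ≤ Kc := hK.trans n1
  have hKc0 : 0 < Kc := by linarith
  have h8 : 1 ≤ 8 / δ := by rw [le_div_iff₀ hδ]; linarith
  have h16 : 1 ≤ 16 / δ := by rw [le_div_iff₀ hδ]; linarith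
  -- measurability
  have hvb : Measurable fun l => k5_vbin r ((c l).2 0) := by
    unfold k5_vbin
    refine measurable_pi_lambda _ fun a => ?_
    exact Int.measurable_floor.comp
      (((measurable_pi_apply a).comp ((measurable_pi_apply 0).comp (measurable_snd.comp h.mc))).div_const r)
  set 𝒢 : Set Λ := {l | k5_vbin r ((c l).2 0) = g ∧ 1 / (8 / δ) ≤ volume.real (k5_fib E l)} with h𝒢
  have h𝒢m : MeasurableSet 𝒢 :=
    (hvb (measurableSet_singleton g)).inter (measurableSet_le measurable_const (k5_measurable_fib h.mE))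
  set E3 : Set (Λ × ℝ) := {x | x ∈ E ∧ k5_vbin r ((c x.1).2 0) = g} with hE3
  have hE3m : MeasurableSet E3 := h.mE.inter ((hvb.comp measurable_fst) (measurableSet_singleton g))
  have hIn3 : k5_In E3 (Ico (0 : ℝ) 1) := fun l t hlt => h.tI l t hlt.1
  set s : ℝ := (r ^ 2)⁻¹ with hs
  have hs0 : 0 ≤ s := by positivity
  set μ : Measure Λ := ENNReal.ofReal s • ν.restrict 𝒢 with hμ
  have : IsFiniteMeasure μ := Measure.smul_finite _ ENNReal.ofReal_ne_top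
  have hma : Measurable fun l => (c l).1 := measurable_fst.comp h.mc
  have hnorm : ∀ l, ‖(c l).1‖ ≤ K := fun l => (norm_fst_le (c l)).trans (h.cb l)
  -- balls
  have hball : ∀ (w : ℝ) (b : Fin 3 → ℝ), r ≤ w → μ.real {l | ‖(c l).1 - b‖ ≤ w} ≤ 20 * K ^ 2 * (8 / δ) * w ^ d := by
    intro w b hw
    have hS : MeasurableSet {l | ‖(c l).1 - b‖ ≤ w} := measurableSet_le ((hma.sub_const b).norm) measurable_const
    rw [hμ, k5_real_smul_restrict hS s hs0]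
    have h1 := k8b_aux_ball h d ζ r (8 / δ) w hd0 hd.le hζ hmix hr hr1 h8 hw g b
    have e : {l | ‖(c l).1 - b‖ ≤ w} ∩ 𝒢
        = {l | k5_vbin r ((c l).2 0) = g ∧ 1 / (8 / δ) ≤ volume.real (k5_fib E l) ∧ ‖(c l).1 - b‖ ≤ w} := by
      ext l
      simp only [h𝒢, mem_inter_iff, mem_ofPred_eq]
      tauto
    rw [e]
    calc s * _ ≤ s * (20 * K ^ 2 * (8 / δ) * r ^ 2 * w ^ d) := mul_le_mul_of_nonneg_left h1 hs0
      _ = 20 * K ^ 2 * (8 / δ) * w ^ d := by rw [hs]; field_simp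
  have huniv : μ.real univ ≤ Kc := by
    have e : (univ : Set Λ) = {l | ‖(c l).1 - 0‖ ≤ K} := by
      ext l
      simp only [mem_univ, sub_zero, mem_ofPred_eq, true_iff]
      exact hnorm l
    rw [e]
    refine (hball K 0 (hr1.trans hK)).trans (le_trans ?_ n2)
    have : K ^ d ≤ K := by
      calc K ^ d ≤ K ^ (1 : ℝ) := Real.rpow_le_rpow_of_exponent_le hK hd.le
        _ = K := Real.rpow_one K
    exact mul_le_mul_of_nonneg_left this (by positivity)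
  have hmass : 1 / Kc ≤ k5_mass μ E3 := by
    rw [hμ, k5_mass_smul_restrict hE3m h𝒢m s hs0]
    have e : {x | x ∈ E3 ∧ x.1 ∈ 𝒢} = E3 := by
      ext x
      simp only [mem_ofPred_eq, and_iff_left_iff_imp]
      intro hx
      exact ⟨hx.2, hline x.1 x.2 hx.1⟩
    rw [e]
    refine n5.trans ?_
    calc δ / (64 * K ^ 2) = s * (δ * r ^ 2 / (64 * K ^ 2)) := by rw [hs]; field_simp
      _ ≤ s * k5_mass ν E3 := mul_le_mul_of_nonneg_left hg hs0
  obtain ⟨Z, hZc, hZ⟩ := k8b_st_count h d r K (16 / δ) hd0 hr0 hr1 hK h16 hsup hdur g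
  have hy : ∀ l t, k5_y (c l) t = (c l).2 0 := by
    intro l t
    funext a
    simp [k5_y, (h.flat l).2]
  obtain ⟨B, hB⟩ := hclu Λ μ (fun l => (c l).1) E3 Kc r hma hE3m hKc1 hr0 hr1 huniv (fun l => (hnorm l).trans n1)
    (fun l t hlt => h.tI l t hlt.1) hmass
    ⟨Z, hZc.trans (mul_le_mul_of_nonneg_right n4 (by positivity)), fun l t hlt => hZ l t hlt.1 (by rw [hy]; exact hlt.2)⟩
    (fun w b hw => (hball w b hw).trans (mul_le_mul_of_nonneg_right n3 (Real.rpow_nonneg (hr0.le.trans hw) d)))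
  set SB : Set Λ := {l | (∀ i, ⌊(c l).1 i / r⌋ = B i) ∧ 1 / (2 * Kc ^ 2) ≤ volume.real (k5_fib E3 l)} with hSB
  have hSBm : MeasurableSet SB := by
    have e : SB = (⋂ i, {l | ⌊(c l).1 i / r⌋ = B i}) ∩ {l | 1 / (2 * Kc ^ 2) ≤ volume.real (k5_fib E3 l)} := by
      ext l
      simp only [hSB, mem_inter_iff, mem_iInter, mem_ofPred_eq]
    rw [e]
    refine (MeasurableSet.iInter fun i => ?_).inter (measurableSet_le measurable_const (k5_measurable_fib hE3m))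
    exact (Int.measurable_floor.comp (((measurable_pi_apply i).comp hma).div_const r)) (measurableSet_singleton (B i))
  rw [hμ, k5_real_smul_restrict hSBm s hs0] at hB
  set T : Set Λ := SB ∩ 𝒢 with hTdef
  have hTm : MeasurableSet T := hSBm.inter h𝒢m
  set low : ℝ := r ^ (d + ε) / (C₁ * Kc ^ C₁) with hlow
  have hlow0 : 0 < low := by
    have : 0 < Kc ^ C₁ := Real.rpow_pos_of_pos hKc0 _
    have : 0 < r ^ (d + ε) := Real.rpow_pos_of_pos hr0 _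
    positivity
  have hTge : r ^ 2 * low ≤ ν.real T := by
    have := mul_le_mul_of_nonneg_left hB (sq_nonneg r)
    have e : r ^ 2 * (s * ν.real T) = ν.real T := by rw [hs]; field_simp
    rwa [e] at this
  have hTpos : 0 < ν.real T := lt_of_lt_of_le (by positivity) hTge
  obtain ⟨l₀, hl₀⟩ : T.Nonempty := by
    by_contra hne
    rw [Set.not_nonempty_iff_eq_empty] at hne
    rw [hne] at hTpos
    simp at hTpos
  have hpos : 0 < volume.real (k5_fib E3 l₀) := lt_of_lt_of_le (by positivity) hl₀.1.2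
  obtain ⟨t₀, ht₀⟩ : (k5_fib E3 l₀).Nonempty := by
    by_contra hne
    rw [Set.not_nonempty_iff_eq_empty] at hne
    rw [hne] at hpos
    simp at hpos
  have ht₀' : (l₀, t₀) ∈ E3 := ht₀
  refine ⟨(l₀, t₀), ht₀'.1, ?_⟩
  have hge := k8b_pr_mass_ge ν E3 hE3m hIn3 T hTm (1 / (2 * Kc ^ 2)) (fun l hl => hl.1.2)
  have hsub : {x | x ∈ E3 ∧ x.1 ∈ T} ⊆ k8bBinOf c E r (l₀, t₀) := by
    rintro x ⟨hx1, hx2⟩
    refine ⟨hx1.1, ?_⟩
    unfold k5_cbin
    refine Prod.ext (funext fun i => (hx2.1.1 i).trans (hl₀.1.1 i).symm) (funext fun i => funext fun a => ?_)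
    fin_cases i
    · exact (congrFun hx2.2.1 a).trans (congrFun hl₀.2.1 a).symm
    · simp [(h.flat x.1).2, (h.flat l₀).2]
  have hmono : k5_mass ν {x | x ∈ E3 ∧ x.1 ∈ T} ≤ k5_mass ν (k8bBinOf c E r (l₀, t₀)) :=
    k5_mass_mono hT (fun l t hlt => h.tI l t hlt.1) hsub
  refine le_trans ?_ (hge.trans hmono)
  have h9 : 0 ≤ 1 / (2 * Kc ^ 2) := by positivity
  calc r ^ 2 * low * (1 / (2 * Kc ^ 2)) ≤ ν.real T * (1 / (2 * Kc ^ 2)) := mul_le_mul_of_nonneg_right hTge h9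
    _ = 1 / (2 * Kc ^ 2) * ν.real T := mul_comm _ _

/-- helper of `k8b_heavy`: the final comparison of the constants -/
theorem k8b_hv_fin (C₁ X r e : ℝ) (hC₁ : 1 ≤ C₁) (hX : 1 ≤ X) (hr : 0 < r) :
    r ^ (2 + e) / ((2 * C₁ * 1600 ^ C₁ * 1600 ^ 2 + 3 * C₁ + 6) * X ^ (2 * C₁ * 1600 ^ C₁ * 1600 ^ 2 + 3 * C₁ + 6))
      ≤ r ^ 2 * (r ^ e / (C₁ * (1600 * X ^ 3) ^ C₁)) * (1 / (2 * (1600 * X ^ 3) ^ 2)) := by
  have hX0 : 0 < X := by linarith
  have hC0 : 0 < C₁ := by linarith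
  have hp : 0 < (1600 : ℝ) ^ C₁ := Real.rpow_pos_of_pos (by norm_num) _
  set A : ℝ := 2 * C₁ * 1600 ^ C₁ * 1600 ^ 2 with hA
  have hA0 : 0 < A := by positivity
  have e1 : (1600 * X ^ 3) ^ C₁ = 1600 ^ C₁ * X ^ (3 * C₁) := by
    rw [Real.mul_rpow (by norm_num) (by positivity), ← Real.rpow_natCast X 3, ← Real.rpow_mul hX0.le]
    norm_num
  have e2 : (1600 * X ^ 3) ^ 2 = 1600 ^ 2 * X ^ (6 : ℝ) := by
    have : X ^ (6 : ℝ) = X ^ 6 := by
      rw [← Real.rpow_natCast X 6]; norm_num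
    rw [this]; ring
  have e3 : r ^ (2 + e) = r ^ 2 * r ^ e := by
    rw [Real.rpow_add hr, Real.rpow_two]
  have e4 : r ^ 2 * (r ^ e / (C₁ * (1600 * X ^ 3) ^ C₁)) * (1 / (2 * (1600 * X ^ 3) ^ 2))
      = r ^ 2 * r ^ e / (A * X ^ (3 * C₁ + 6)) := by
    rw [e1, e2, Real.rpow_add hX0, hA]
    have h1 : 0 < X ^ (3 * C₁) := Real.rpow_pos_of_pos hX0 _
    have h2 : 0 < X ^ (6 : ℝ) := Real.rpow_pos_of_pos hX0 _
    field_simp
  rw [e3, e4]
  have h3 : 0 < X ^ (3 * C₁ + 6) := Real.rpow_pos_of_pos hX0 _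
  have h4 : 0 ≤ r ^ 2 * r ^ e := by
    have := Real.rpow_pos_of_pos hr e
    positivity
  refine div_le_div_of_nonneg_left h4 (by positivity) ?_
  refine mul_le_mul (by linarith) (Real.rpow_le_rpow_of_exponent_le hX (by linarith)) h3.le (by linarith)

/-- **L-252-S8b-D3** (~600 l.).   THE LIGHT COEFFICIENT BINS CARRY `≤ δ/2` (08 l.657-664; exhaustion by `k5_cluster`).
PROOF by contradiction.  `E_L` := the light part (measurable: countable union over bins), mass `> δ/2`.   (i) delete the (line, `r`-time bin) pairs of labelled duration `< r/Kd`, `Kd = 16/δ` (cost `≤ 2/Kd`); (ii) delete the lines of total remaining duration `< 1/KL`, `KL = 8/δ` (cost `≤ 1/KL`): `E''`, mass `> δ/4`.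
(iii) `≤ 9K²/r²` groups `g = k5_vbin r y`: one has mass `≥ δ r²/(36K²)`.   Auxiliary prior `μ := r⁻² • ν.restrict {l ∈ g, duration ≥ 1/KL}`: mass `≤ 20K²KL` and balls `≤ 20 K² KL w^d` (`k8b_aux_ball` for `E''`), labels `E'' ∩ g` of `μ`-density `≥ δ/(36K²)`, `≤ 100K³Kd r^(-1-d)` squares (`k8b_st_count`).
`k5_cluster d ε` (with `p = r`, `a = (c ·).1`, slack `Kc = C'(K/δ)^C'`) gives a coefficient bin `B` with `μ{l ∈ B, duration ≥ 1/(2Kc²)} ≥ r^(d+ε)/(C₁Kc^C₁)`: the joint bin `(B, g)` has `E''`-mass `≥ r^(2+d+ε)/(2C₁Kc^(C₁+2))`, and it consists of light incidences of `E`: contradiction. -/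
theorem k8b_heavy (d ε : ℝ) (hd0 : 0 ≤ d) (hd : d < 1) (hε : 0 < ε) :
    ∃ C : ℝ, 1 ≤ C ∧ ∀ (Λ : Type) [MeasurableSpace Λ] (ν : Measure Λ) (c : Λ → k5_Co 2) (E : Set (Λ × ℝ))
      (F : ℝ → Fin 2 → ℝ) (K ζ r δ : ℝ), K8bCh K ν c E F → 0 < ζ → ζ ≤ r → r ≤ 1 → k8bMix d K ζ ν c E →
      k8bSup d K r c E F → 0 < δ → δ ≤ 1 →
      k5_mass ν {x | x ∈ E ∧ k5_mass ν (k8bBinOf c E r x) < r ^ (2 + d + ε) / (C * (K / δ) ^ C)} ≤ δ / 2 := by
  obtain ⟨C₁, hC₁, hcore⟩ := k8b_hv_core d ε hd0 hd hε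
  have hp : 0 < (1600 : ℝ) ^ C₁ := Real.rpow_pos_of_pos (by norm_num) _
  refine ⟨2 * C₁ * 1600 ^ C₁ * 1600 ^ 2 + 3 * C₁ + 6, ?_, ?_⟩
  · have : 0 ≤ 2 * C₁ * 1600 ^ C₁ * 1600 ^ 2 := by positivity
    linarith
  intro Λ _ ν c E F K ζ r δ h hζ hr hr1 hmix hsup hδ hδ1
  by_contra hgt
  rw [not_le] at hgt
  have := h.prob
  have hK := h.K1
  have hK0 : 0 < K := by linarith
  have hr0 : 0 < r := lt_of_lt_of_le hζ hr
  have hT : volume (Ico (0 : ℝ) 1) ≠ ⊤ := by simp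
  have hX1 : 1 ≤ K / δ := (k8b_hv_num K δ hK hδ hδ1).1
  have hfin := k8b_hv_fin C₁ (K / δ) r (d + ε) hC₁ hX1 hr0
  rw [← add_assoc] at hfin
  set θ : ℝ := r ^ (2 + d + ε) / ((2 * C₁ * 1600 ^ C₁ * 1600 ^ 2 + 3 * C₁ + 6)
    * (K / δ) ^ (2 * C₁ * 1600 ^ C₁ * 1600 ^ 2 + 3 * C₁ + 6)) with hθ
  set L : Set (Λ × ℝ) := {x | x ∈ E ∧ k5_mass ν (k8bBinOf c E r x) < θ} with hL
  have hLm : MeasurableSet L := by
    set gg : (Fin 3 → ℤ) × (Fin 2 → Fin 2 → ℤ) → ℝ := fun B => k5_mass ν {x' | x' ∈ E ∧ k5_cbin r (c x'.1) = B} with hgg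
    have h1 : L = E ∩ (fun x : Λ × ℝ => k5_cbin r (c x.1)) ⁻¹' {B | gg B < θ} := by
      ext x; rfl
    rw [h1]
    exact h.mE.inter (((k8b_pr_cbin_meas h.mc r).comp measurable_fst) (Set.to_countable _).measurableSet)
  have hLIn : k5_In L (Ico (0 : ℝ) 1) := fun l t hlt => h.tI l t hlt.1
  obtain ⟨I, hIc, hI⟩ := k8b_pr_tbins r hr0 hr1
  obtain ⟨hE1m, hE1⟩ := k8b_pr_fib ν L hLm hLIn (fun t => ⌊t / r⌋)
    (Int.measurable_floor.comp (measurable_id.div_const r)) (r / (16 / δ)) (by positivity) I hI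
  set E1 : Set (Λ × ℝ) :=
    {x : Λ × ℝ | x ∈ L ∧ r / (16 / δ) ≤ volume.real {t' | (x.1, t') ∈ L ∧ ⌊t' / r⌋ = ⌊x.2 / r⌋}} with hE1def
  have hE1In : k5_In E1 (Ico (0 : ℝ) 1) := fun l t hlt => hLIn l t hlt.1
  obtain ⟨hE2m, hE2⟩ := k8b_pr_line ν E1 hE1m hE1In (1 / (8 / δ)) (by positivity)
  set E2 : Set (Λ × ℝ) := {x : Λ × ℝ | x ∈ E1 ∧ 1 / (8 / δ) ≤ volume.real (k5_fib E1 x.1)} with hE2def
  have hE2In : k5_In E2 (Ico (0 : ℝ) 1) := fun l t hlt => hE1In l t hlt.1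
  have hsub : E2 ⊆ E := fun x hx => hx.1.1.1
  have hmassE2 : δ / 4 < k5_mass ν E2 := by
    have hu : ν.real univ = 1 := by simp
    rw [hu] at hE1 hE2
    have h1 : (I.card : ℝ) * (r / (16 / δ)) ≤ 2 / r * (r / (16 / δ)) :=
      mul_le_mul_of_nonneg_right hIc (by positivity)
    have h2 : 2 / r * (r / (16 / δ)) = δ / 8 := by field_simp; norm_num
    have h3 : 1 / (8 / δ) = δ / 8 := by field_simp
    linarith
  have hdur : ∀ l t, (l, t) ∈ E2 → r / (16 / δ) ≤ volume.real {t' | (l, t') ∈ E2 ∧ ⌊t' / r⌋ = ⌊t / r⌋} := by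
    intro l t hx
    refine hx.1.2.trans (le_of_eq ?_)
    congr 1
    ext t'
    constructor
    · rintro ⟨h1, h2⟩
      refine ⟨⟨⟨h1, ?_⟩, hx.2⟩, h2⟩
      have h3 := hx.1.2
      simp only [h2]
      exact h3
    · rintro ⟨h1, h2⟩
      exact ⟨h1.1.1, h2⟩
  have hline : ∀ l t, (l, t) ∈ E2 → 1 / (8 / δ) ≤ volume.real (k5_fib E2 l) := by
    intro l t hx
    refine hx.2.trans (le_of_eq ?_)
    congr 1
    ext t'
    exact ⟨fun h1 => ⟨h1, hx.2⟩, fun h1 => h1.1⟩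
  have hch2 : K8bCh K ν c E2 F :=
    ⟨h.prob, h.mc, hE2m, h.mF, fun l t hlt => h.tI l t (hsub hlt), h.cb, h.flat, h.Fb, h.K1⟩
  have hmix2 : k8bMix d K ζ ν c E2 := by
    intro t r' w a e h1 h2 h3 h4
    refine le_trans (measureReal_mono ?_) (hmix t r' w a e h1 h2 h3 h4)
    exact fun l hl => ⟨hsub hl.1, hl.2⟩
  have hsup2 : k8bSup d K r c E2 F := by
    intro t
    obtain ⟨Z, hZ1, hZ2⟩ := hsup t
    exact ⟨Z, hZ1, fun l hl => hZ2 l (hsub hl)⟩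
  -- the pigeonhole over the groups
  obtain ⟨G, hGc, hG⟩ := k8b_pr_ybins r K hr0 hr1 hK
  have hvb : Measurable fun x : Λ × ℝ => k5_vbin r ((c x.1).2 0) := by
    unfold k5_vbin
    refine measurable_pi_lambda _ fun a => ?_
    exact Int.measurable_floor.comp (((measurable_pi_apply a).comp
      ((measurable_pi_apply 0).comp (measurable_snd.comp (h.mc.comp measurable_fst)))).div_const r)
  have hsum := k5_mass_sum (ν := ν) hT hE2In G (fun g => {x : Λ × ℝ | k5_vbin r ((c x.1).2 0) = g})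
    (fun g _ => hvb (measurableSet_singleton g))
    (fun g _ g' _ hgg => Set.disjoint_left.2 fun x hx hx' => hgg (hx.symm.trans hx'))
    (fun x _ => by
      simp only [mem_iUnion]
      exact ⟨_, hG _ ((norm_le_pi_norm (c x.1).2 0).trans ((norm_snd_le (c x.1)).trans (h.cb x.1))), rfl⟩)
  obtain ⟨g, hgG, hg⟩ : ∃ g ∈ G, δ * r ^ 2 / (64 * K ^ 2)
      ≤ k5_mass ν (E2 ∩ {x : Λ × ℝ | k5_vbin r ((c x.1).2 0) = g}) := by
    by_contra hno
    push Not at hno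
    have h1 : ∑ g ∈ G, k5_mass ν (E2 ∩ {x : Λ × ℝ | k5_vbin r ((c x.1).2 0) = g})
        ≤ G.card • (δ * r ^ 2 / (64 * K ^ 2)) := Finset.sum_le_card_nsmul _ _ _ fun g hg => (hno g hg).le
    rw [nsmul_eq_mul] at h1
    have h2 : (G.card : ℝ) * (δ * r ^ 2 / (64 * K ^ 2)) ≤ 16 * K ^ 2 / r ^ 2 * (δ * r ^ 2 / (64 * K ^ 2)) :=
      mul_le_mul_of_nonneg_right hGc (by positivity)
    have h3 : 16 * K ^ 2 / r ^ 2 * (δ * r ^ 2 / (64 * K ^ 2)) = δ / 4 := by field_simp; norm_num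
    linarith
  obtain ⟨x, hx, hlow⟩ := hcore Λ ν c E2 F K ζ r δ hch2 hζ hr hr1 hmix2 hsup2 hδ hδ1 hdur hline g hg
  have hlight : k5_mass ν (k8bBinOf c E r x) < θ := hx.1.1.2
  have hmono : k5_mass ν (k8bBinOf c E2 r x) ≤ k5_mass ν (k8bBinOf c E r x) :=
    k5_mass_mono hT (fun l t hlt => h.tI l t hlt.1) fun y hy => ⟨hsub hy.1, hy.2⟩
  linarith

/-- **L-252-S8b-D4** (~250 l.).   Pruning of the entries (bin, `r`-time interval) (08 l.666-668).   `≤ 1/θ` heavy bins, `≤ 2/r` time bins; delete the entries of mass `< r θ δ/2` (whole entries: no cascade): cost `≤ δ`. -/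
theorem k8b_entry_prune {Λ : Type} [MeasurableSpace Λ] {ν : Measure Λ} {c : Λ → k5_Co 2} {E : Set (Λ × ℝ)}
    {F : ℝ → Fin 2 → ℝ} {K : ℝ} (h : K8bCh K ν c E F) (r θ δ : ℝ) (hr : 0 < r) (hr1 : r ≤ 1) (hθ : 0 < θ) (hδ : 0 < δ)
    (hheavy : ∀ x ∈ E, θ ≤ k5_mass ν (k8bBinOf c E r x)) :
    ∃ E' : Set (Λ × ℝ), MeasurableSet E' ∧ E' ⊆ E ∧ k5_mass ν E - δ ≤ k5_mass ν E' ∧
      ∀ x ∈ E', r * θ * δ / 2 ≤ k5_mass ν (k8bEntOf c E' r x) := by
  have := h.prob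
  have hT : volume (Ico (0 : ℝ) 1) ≠ ⊤ := by simp
  have hIn : k5_In E (Ico (0 : ℝ) 1) := fun l t hlt => h.tI l t hlt
  have hEtop : (ν.prod volume) E ≠ ⊤ := k5_mass_ne_top hT hIn
  set a : ℝ := r * θ * δ / 2 with ha
  have ha0 : 0 ≤ a := by positivity
  have hκ1 : Measurable fun x : Λ × ℝ => k5_cbin r (c x.1) := (k8b_pr_cbin_meas h.mc r).comp measurable_fst
  have hκ2 : Measurable fun x : Λ × ℝ => ⌊x.2 / r⌋ := Int.measurable_floor.comp (measurable_snd.div_const r)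
  set E' : Set (Λ × ℝ) := {x | x ∈ E ∧ a ≤ k5_mass ν (k8bEntOf c E r x)} with hE'
  have hE'm : MeasurableSet E' := by
    set g : ((Fin 3 → ℤ) × (Fin 2 → Fin 2 → ℤ)) × ℤ → ℝ :=
      fun k => k5_mass ν {x' | x' ∈ E ∧ k5_cbin r (c x'.1) = k.1 ∧ ⌊x'.2 / r⌋ = k.2} with hg
    have h1 : E' = E ∩ (fun x : Λ × ℝ => (k5_cbin r (c x.1), ⌊x.2 / r⌋)) ⁻¹' {k | a ≤ g k} := by
      ext x; rfl
    rw [h1]
    exact h.mE.inter ((hκ1.prodMk hκ2) (Set.to_countable _).measurableSet)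
  have hent : ∀ x y : Λ × ℝ, k5_cbin r (c y.1) = k5_cbin r (c x.1) → ⌊y.2 / r⌋ = ⌊x.2 / r⌋ →
      k8bEntOf c E r y = k8bEntOf c E r x := by
    intro x y h1 h2
    unfold k8bEntOf
    rw [h1, h2]
  refine ⟨E', hE'm, fun x hx => hx.1, ?_, fun x hx => ?_⟩
  · -- the cost
    set D : Set (Λ × ℝ) := {x | x ∈ E ∧ k5_mass ν (k8bEntOf c E r x) < a} with hD
    have hsplit := k5_mass_split (ν := ν) h.mE hT hIn hE'm
    have e1 : E ∩ E' = E' := inter_eq_right.2 fun x hx => hx.1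
    have e2 : E \ E' = D := by
      ext x
      simp only [hE', hD, mem_sdiff, mem_ofPred_eq, not_and, not_le]
      exact ⟨fun hx => ⟨hx.1, hx.2 hx.1⟩, fun hx => ⟨hx.1, fun _ => hx.2⟩⟩
    rw [e1, e2] at hsplit
    obtain ⟨I, hIc, hI⟩ := k8b_pr_tbins r hr hr1
    have hcmp : (ν.prod volume).real D ≤ δ * (ν.prod volume).real E := by
      refine k8b_pr_cmp (ν.prod volume) _ hκ1 D E h.mE hEtop (fun x hx => hx.1) δ hδ.le fun B => ?_
      set EB : Set (Λ × ℝ) := {x | x ∈ E ∧ k5_cbin r (c x.1) = B} with hEB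
      have hEBtop : (ν.prod volume) EB ≠ ⊤ := ne_top_of_le_ne_top hEtop (measure_mono fun y hy => hy.1)
      have hq := k8b_pr_light (ν.prod volume) (fun x : Λ × ℝ => ⌊x.2 / r⌋) EB hEBtop a ha0 I
        (fun x hx => hI x.2 (h.tI x.1 x.2 hx.1).1 (h.tI x.1 x.2 hx.1).2)
      have e3 : {x | x ∈ D ∧ k5_cbin r (c x.1) = B}
          = {x | x ∈ EB ∧ (ν.prod volume).real {x' | x' ∈ EB ∧ ⌊x'.2 / r⌋ = ⌊x.2 / r⌋} < a} := by
        ext x
        constructor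
        · rintro ⟨⟨hx1, hx2⟩, hx3⟩
          refine ⟨⟨hx1, hx3⟩, ?_⟩
          have : {x' : Λ × ℝ | x' ∈ EB ∧ ⌊x'.2 / r⌋ = ⌊x.2 / r⌋} = k8bEntOf c E r x := by
            ext y
            simp only [hEB, k8bEntOf, mem_ofPred_eq, hx3, and_assoc]
          rw [this]
          exact hx2
        · rintro ⟨⟨hx1, hx3⟩, hx2⟩
          refine ⟨⟨hx1, ?_⟩, hx3⟩
          have : {x' : Λ × ℝ | x' ∈ EB ∧ ⌊x'.2 / r⌋ = ⌊x.2 / r⌋} = k8bEntOf c E r x := by
            ext y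
            simp only [hEB, k8bEntOf, mem_ofPred_eq, hx3, and_assoc]
          rw [this] at hx2
          exact hx2
      rw [e3]
      by_cases hne : ∃ x, x ∈ EB
      · obtain ⟨x, hx⟩ := hne
        have h1 := hheavy x hx.1
        have e4 : k8bBinOf c E r x = EB := by
          unfold k8bBinOf
          rw [hx.2]
        rw [e4] at h1
        have h1' : θ ≤ (ν.prod volume).real EB := h1
        refine hq.trans ?_
        have h2 : (I.card : ℝ) * a ≤ 2 / r * a := mul_le_mul_of_nonneg_right hIc ha0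
        have h3 : 2 / r * a = δ * θ := by
          rw [ha]; field_simp
        have h4 : δ * θ ≤ δ * (ν.prod volume).real EB := mul_le_mul_of_nonneg_left h1' hδ.le
        linarith
      · have : {x | x ∈ EB ∧ (ν.prod volume).real {x' | x' ∈ EB ∧ ⌊x'.2 / r⌋ = ⌊x.2 / r⌋} < a} = ∅ := by
          ext x
          simp only [mem_ofPred_eq, mem_empty_iff_false, iff_false]
          exact fun hx => hne ⟨x, hx.1⟩
        rw [this]
        simp only [measureReal_empty]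
        exact mul_nonneg hδ.le measureReal_nonneg
    have hE1 : k5_mass ν E ≤ 1 := by
      have := k5_mass_le (ν := ν) hT hIn
      simpa using this
    have hcmp' : k5_mass ν D ≤ δ * k5_mass ν E := hcmp
    have : δ * k5_mass ν E ≤ δ := by
      have := mul_le_mul_of_nonneg_left hE1 hδ.le
      linarith
    linarith
  · have e5 : k8bEntOf c E' r x = k8bEntOf c E r x := by
      ext y
      constructor
      · rintro ⟨hy1, hy2, hy3⟩
        exact ⟨hy1.1, hy2, hy3⟩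
      · rintro ⟨hy1, hy2, hy3⟩
        refine ⟨⟨hy1, ?_⟩, hy2, hy3⟩
        rw [hent x y hy2 hy3]
        exact hx.2
    rw [e5]
    exact hx.2

/-- a set all of whose finite subsets have at most `b` elements -/
theorem k8b_cc_fin {α : Type} (A : Set α) (b : ℝ) (h : ∀ S : Finset α, (S : Set α) ⊆ A → (S.card : ℝ) ≤ b) :
    ∃ Z : Finset α, (Z.card : ℝ) ≤ b ∧ ∀ a ∈ A, a ∈ Z := by
  have hfin : A.Finite := by
    by_contra hinf
    obtain ⟨S, hS, hc⟩ := Set.Infinite.exists_subset_card_eq hinf (⌊b⌋₊ + 1)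
    have h1 := h S hS
    rw [hc] at h1
    have h2 := Nat.lt_floor_add_one b
    push_cast at h1
    linarith
  exact ⟨hfin.toFinset, h _ (by simp), fun a ha => by simpa using ha⟩

theorem k8b_cc_fl {r u v : ℝ} (hr : 0 < r) (h : ⌊u / r⌋ = ⌊v / r⌋) : |u - v| < r := by
  have h1 := Int.abs_sub_lt_one_of_floor_eq_floor h
  rw [← sub_div, abs_div, abs_of_pos hr, div_lt_one hr] at h1
  exact h1

theorem k8b_cc_fl2 {r u : ℝ} {n : ℤ} (hr : 0 < r) (h : ⌊u / r⌋ = n) : (n : ℝ) * r ≤ u ∧ u < (n : ℝ) * r + r := by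
  have h1 := Int.floor_le (u / r)
  have h2 := Int.lt_floor_add_one (u / r)
  rw [h] at h1 h2
  rw [le_div_iff₀ hr] at h1
  rw [div_lt_iff₀ hr] at h2
  exact ⟨h1, by linarith⟩

theorem k8b_cc_meas {Λ : Type} [MeasurableSpace Λ] {c : Λ → k5_Co 2} (hc : Measurable c) (r : ℝ) :
    Measurable fun x : Λ × ℝ => k5_cbin r (c x.1) := by
  unfold k5_cbin
  refine Measurable.prodMk (measurable_pi_lambda _ fun i => ?_)
    (measurable_pi_lambda _ fun i => measurable_pi_lambda _ fun a => ?_)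
  · exact Int.measurable_floor.comp
      (((measurable_pi_apply i).comp (measurable_fst.comp (hc.comp measurable_fst))).div_const r)
  · exact Int.measurable_floor.comp (((measurable_pi_apply a).comp
      ((measurable_pi_apply i).comp (measurable_snd.comp (hc.comp measurable_fst)))).div_const r)

/-- an incidence of the entry of a point of the cube `(i, g, z)` lies in one of `≤ 6 + 2K` fixed boxes -/
theorem k8b_cc_geo {K r : ℝ} (hr : 0 < r) (c c' : k5_Co 2) (s t : ℝ) (hcK : ‖c‖ ≤ K)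
    (hf : c.1 2 = 0 ∧ c.2 1 = 0) (hf' : c'.1 2 = 0 ∧ c'.2 1 = 0) (hb : k5_cbin r c' = k5_cbin r c)
    (hts : ⌊t / r⌋ = ⌊s / r⌋) (ht0 : 0 ≤ t) (ht1 : t < 1) (g : Fin 2 → ℤ) (z : ℤ)
    (hg : k5_vbin r (k5_y c s) = g) (hz : ⌊k5_x c s / r⌋ = z) :
    ∃ k ∈ Finset.range (⌊5 + 2 * K⌋₊ + 1),
      k8bIn r r ((z : ℝ) * r - (2 + K) * r + (k : ℝ) * r) (fun b => (g b : ℝ) * r) c' t := by
  have hb1 : ∀ k, ⌊c'.1 k / r⌋ = ⌊c.1 k / r⌋ := fun k => congrFun (congrArg Prod.fst hb) k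
  have hb2 : ∀ k a, ⌊c'.2 k a / r⌋ = ⌊c.2 k a / r⌋ := fun k a => congrFun (congrFun (congrArg Prod.snd hb) k) a
  have hy : ∀ b, k5_y c s b = c.2 0 b := fun b => by
    unfold k5_y; rw [hf.2]; simp
  have hy' : ∀ b, k5_y c' t b = c'.2 0 b := fun b => by
    unfold k5_y; rw [hf'.2]; simp
  have hx : k5_x c s = c.1 0 + s * c.1 1 := by
    unfold k5_x; rw [hf.1]; ring
  have hx' : k5_x c' t = c'.1 0 + t * c'.1 1 := by
    unfold k5_x; rw [hf'.1]; ring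
  have hK1 : |c.1 1| ≤ K := ((norm_le_pi_norm c.1 1).trans (norm_fst_le c)).trans hcK
  have hK0 : 0 ≤ K := (abs_nonneg _).trans hK1
  have d0 := abs_lt.1 (k8b_cc_fl hr (hb1 0))
  have d1 := abs_lt.1 (k8b_cc_fl hr (hb1 1))
  have dt := abs_lt.1 (k8b_cc_fl hr hts)
  have hzz := k8b_cc_fl2 hr hz
  have hK1' := abs_le.1 hK1
  -- the difference of the two positions
  have e : k5_x c' t - k5_x c s = (c'.1 0 - c.1 0) + t * (c'.1 1 - c.1 1) + (t - s) * c.1 1 := by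
    rw [hx, hx']; ring
  have m1 : |t * (c'.1 1 - c.1 1)| ≤ r := by
    rw [abs_mul, abs_of_nonneg ht0]
    have : |c'.1 1 - c.1 1| ≤ r := (k8b_cc_fl hr (hb1 1)).le
    calc t * |c'.1 1 - c.1 1| ≤ 1 * r := mul_le_mul ht1.le this (abs_nonneg _) zero_le_one
      _ = r := one_mul r
  have m2 : |(t - s) * c.1 1| ≤ r * K := by
    rw [abs_mul]
    exact mul_le_mul (k8b_cc_fl hr hts).le hK1 (abs_nonneg _) hr.le
  have m1' := abs_le.1 m1
  have m2' := abs_le.1 m2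
  have lo : 0 ≤ k5_x c' t - ((z : ℝ) * r - (2 + K) * r) := by nlinarith
  have hi : k5_x c' t - ((z : ℝ) * r - (2 + K) * r) ≤ (5 + 2 * K) * r := by nlinarith
  refine ⟨⌊(k5_x c' t - ((z : ℝ) * r - (2 + K) * r)) / r⌋₊, ?_, ?_, ?_, ?_⟩
  · rw [Finset.mem_range, Nat.lt_succ_iff]
    refine Nat.floor_le_floor ?_
    rw [div_le_iff₀ hr]
    exact hi
  · intro b
    have h1 : ⌊k5_y c' t b / r⌋ = g b := by
      rw [hy', hb2 0 b, ← hy b]
      exact congrFun hg b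
    have h2 := k8b_cc_fl2 hr h1
    exact ⟨h2.1, h2.2.le⟩
  · have h1 := Nat.floor_le (div_nonneg lo hr.le)
    rw [le_div_iff₀ hr] at h1
    linarith
  · have h1 := Nat.lt_floor_add_one ((k5_x c' t - ((z : ℝ) * r - (2 + K) * r)) / r)
    rw [div_lt_iff₀ hr] at h1
    linarith

/-- **L-252-S8b-D5** (~300 l.).   `≤ 20K² r^(3+d)/τ` coefficient bins per spacetime cube (08 l.668-672).
PROOF.  If the entry of `x = (l,t)` meets the cube `Q = (i, g, z)`, all its incidences `(l',t')` have `t'` in the time bin `i`, `y` in the cell `g`, `|x̄_{l'}(t') - x̄_l(t)| ≤ 2r + Kr`: `x̄_{l'}(t')` lies in `≤ 8K` fixed intervals of length `r`.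
Integrate `k8bMix` (`r = w`) over the time bin: the union of these (disjoint) entries has mass `≤ 8K² r^(3+d)`; each has mass `≥ τ`. -/
theorem k8b_cube_count {Λ : Type} [MeasurableSpace Λ] {ν : Measure Λ} {c : Λ → k5_Co 2} {E : Set (Λ × ℝ)}
    {F : ℝ → Fin 2 → ℝ} {K : ℝ} (h : K8bCh K ν c E F) (d ζ r τ : ℝ) (hd0 : 0 ≤ d) (hζ : 0 < ζ)
    (hmix : k8bMix d K ζ ν c E) (hr : ζ ≤ r) (hr1 : r ≤ 1) (hτ : 0 < τ)
    (hent : ∀ x ∈ E, τ ≤ k5_mass ν (k8bEntOf c E r x)) (Q : ℤ × (Fin 2 → ℤ) × ℤ) :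
    ∃ Z : Finset ((Fin 3 → ℤ) × (Fin 2 → Fin 2 → ℤ)), (Z.card : ℝ) ≤ 20 * K ^ 2 * r ^ (3 + d) / τ ∧
      ∀ x ∈ E, k8bCube c r x = Q → k5_cbin r (c x.1) ∈ Z := by
  have := h.prob
  have hr0 : 0 < r := hζ.trans_le hr
  have hK1 := h.K1
  obtain ⟨i, g, z⟩ := Q
  suffices key : ∀ S : Finset ((Fin 3 → ℤ) × (Fin 2 → Fin 2 → ℤ)),
      (S : Set _) ⊆ {B | ∃ x ∈ E, k8bCube c r x = (i, g, z) ∧ k5_cbin r (c x.1) = B} →
      (S.card : ℝ) ≤ 20 * K ^ 2 * r ^ (3 + d) / τ by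
    obtain ⟨Z, hZ1, hZ2⟩ := k8b_cc_fin _ _ key
    exact ⟨Z, hZ1, fun x hx hQ => hZ2 _ ⟨x, hx, hQ, rfl⟩⟩
  intro S hS
  -- the union of the entries
  obtain ⟨U, hU⟩ : ∃ U : Set (Λ × ℝ), U = {x' | x' ∈ E ∧ k5_cbin r (c x'.1) ∈ S ∧ ⌊x'.2 / r⌋ = i} := ⟨_, rfl⟩
  have hfl : Measurable fun x : Λ × ℝ => ⌊x.2 / r⌋ := Int.measurable_floor.comp (measurable_snd.div_const r)
  have hUm : MeasurableSet U := by
    have e : U = E ∩ ((fun x : Λ × ℝ => k5_cbin r (c x.1)) ⁻¹' (S : Set ((Fin 3 → ℤ) × (Fin 2 → Fin 2 → ℤ)))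
        ∩ (fun x : Λ × ℝ => ⌊x.2 / r⌋) ⁻¹' {i}) := by
      rw [hU]; rfl
    rw [e]
    exact h.mE.inter (((k8b_cc_meas h.mc r) (Set.to_countable _).measurableSet).inter
      (hfl (measurableSet_singleton i)))
  have hIn : k5_In U (Ico ((i : ℝ) * r) ((i : ℝ) * r + r)) := by
    intro l t hlt
    rw [hU] at hlt
    exact k8b_cc_fl2 hr0 hlt.2.2
  have hTv : volume.real (Ico ((i : ℝ) * r) ((i : ℝ) * r + r)) = r := by
    rw [Real.volume_real_Ico_of_le (by linarith)]; ring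
  have hTf : volume (Ico ((i : ℝ) * r) ((i : ℝ) * r + r)) ≠ ⊤ := by
    rw [Real.volume_Ico]; exact ENNReal.ofReal_ne_top
  have hsec : ∀ t ∈ Ico ((i : ℝ) * r) ((i : ℝ) * r + r),
      ν.real (k5_sec U t) ≤ ((⌊5 + 2 * K⌋₊ + 1 : ℕ) : ℝ) * (K * r ^ 2 * r ^ d) := by
    intro t _
    have hsub : k5_sec U t ⊆ ⋃ k ∈ Finset.range (⌊5 + 2 * K⌋₊ + 1),
        {l | (l, t) ∈ E ∧ k8bIn r r ((z : ℝ) * r - (2 + K) * r + (k : ℝ) * r) (fun b => (g b : ℝ) * r) (c l) t} := by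
      intro l' hl'
      have hl2 : (l', t) ∈ U := hl'
      rw [hU] at hl2
      obtain ⟨hE', hB, hti⟩ := hl2
      obtain ⟨x, hxE, hxQ, hxB⟩ := hS hB
      have q1 : ⌊x.2 / r⌋ = i := congrArg Prod.fst hxQ
      have q2 : k5_vbin r (k5_y (c x.1) x.2) = g := congrArg (fun q => q.2.1) hxQ
      have q3 : ⌊k5_x (c x.1) x.2 / r⌋ = z := congrArg (fun q => q.2.2) hxQ
      obtain ⟨k, hk, hin⟩ := k8b_cc_geo hr0 (c x.1) (c l') x.2 t (h.cb x.1) (h.flat x.1) (h.flat l') hxB.symm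
        (hti.trans q1.symm) (h.tI l' t hE').1 (h.tI l' t hE').2 g z q2 q3
      exact mem_iUnion₂.2 ⟨k, hk, hE', hin⟩
    refine (measureReal_mono hsub (measure_ne_top ν _)).trans ((measureReal_biUnion_finset_le _ _).trans ?_)
    refine (Finset.sum_le_card_nsmul _ _ (K * r ^ 2 * r ^ d) fun k _ => hmix t r r _ _ hr hr1 hr hr1).trans ?_
    rw [Finset.card_range, nsmul_eq_mul]
  have hup := k5_mass_le_sec hUm measurableSet_Ico hTf hIn hsec
  rw [hTv] at hup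
  have hsum := k5_mass_sum (ν := ν) hTf hIn S (fun B => {x' : Λ × ℝ | k5_cbin r (c x'.1) = B})
    (fun B _ => (k8b_cc_meas h.mc r) (measurableSet_singleton B))
    (fun B _ B' _ hBB => Set.disjoint_left.2 fun x' (h1 : _ = B) (h2 : _ = B') => hBB (h1.symm.trans h2))
    (fun x' hx' => by
      rw [hU] at hx'
      exact mem_iUnion₂.2 ⟨_, hx'.2.1, rfl⟩)
  have hlow : ∀ B ∈ S, τ ≤ k5_mass ν (U ∩ {x' : Λ × ℝ | k5_cbin r (c x'.1) = B}) := by
    intro B hB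
    obtain ⟨x, hxE, hxQ, hxB⟩ := hS hB
    have q1 : ⌊x.2 / r⌋ = i := congrArg Prod.fst hxQ
    have e : U ∩ {x' : Λ × ℝ | k5_cbin r (c x'.1) = B} = k8bEntOf c E r x := by
      rw [hU]
      ext x'
      constructor
      · rintro ⟨⟨h1, -, h3⟩, h4⟩
        exact ⟨h1, (show _ = B from h4).trans hxB.symm, h3.trans q1.symm⟩
      · rintro ⟨h1, h2, h3⟩
        have h4 : k5_cbin r (c x'.1) = B := h2.trans hxB
        exact ⟨⟨h1, by rw [h4]; exact hB, h3.trans q1⟩, h4⟩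
    rw [e]
    exact hent x hxE
  have hcard : (S.card : ℝ) * τ ≤ k5_mass ν U := by
    rw [hsum]
    have := Finset.card_nsmul_le_sum S _ τ hlow
    rwa [nsmul_eq_mul] at this
  have hN : ((⌊5 + 2 * K⌋₊ + 1 : ℕ) : ℝ) ≤ 8 * K := by
    push_cast
    have := Nat.floor_le (by linarith : (0 : ℝ) ≤ 5 + 2 * K)
    linarith
  have hpow : r ^ (3 + d) = r ^ 2 * r ^ d * r := by
    rw [Real.rpow_add hr0, show (3 : ℝ) = ((3 : ℕ) : ℝ) by norm_num, Real.rpow_natCast]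
    ring
  have hrd : 0 < r ^ d := Real.rpow_pos_of_pos hr0 d
  rw [le_div_iff₀ hτ, hpow]
  have hX : 0 ≤ K * r ^ 2 * r ^ d * r := by positivity
  calc (S.card : ℝ) * τ ≤ ((⌊5 + 2 * K⌋₊ + 1 : ℕ) : ℝ) * (K * r ^ 2 * r ^ d) * r := hcard.trans hup
    _ = ((⌊5 + 2 * K⌋₊ + 1 : ℕ) : ℝ) * (K * r ^ 2 * r ^ d * r) := by ring
    _ ≤ 8 * K * (K * r ^ 2 * r ^ d * r) := mul_le_mul_of_nonneg_right hN hX
    _ ≤ 20 * K * (K * r ^ 2 * r ^ d * r) := by nlinarith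
    _ = 20 * K ^ 2 * (r ^ 2 * r ^ d * r) := by ring

theorem k8b_d6_cube_meas {Λ : Type} [MeasurableSpace Λ] {c : Λ → k5_Co 2} (hc : Measurable c) (r : ℝ) : Measurable (k8bCube c r) := by
  have h1 : ∀ i, Measurable fun x : Λ × ℝ => (c x.1).1 i := fun i =>
    (measurable_pi_apply i).comp (measurable_fst.comp (hc.comp measurable_fst))
  have h2 : ∀ i a, Measurable fun x : Λ × ℝ => (c x.1).2 i a := fun i a =>
    (measurable_pi_apply a).comp ((measurable_pi_apply i).comp (measurable_snd.comp (hc.comp measurable_fst)))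
  unfold k8bCube k5_vbin k5_y k5_x
  refine Measurable.prodMk ?_ (Measurable.prodMk (measurable_pi_lambda _ fun a => ?_) ?_)
  · exact (measurable_snd.div_const r).floor
  · exact (((h2 0 a).add (measurable_snd.mul (h2 1 a))).div_const r).floor
  · exact ((((h1 0).add (measurable_snd.mul (h1 1))).add ((measurable_snd.pow_const 2).mul (h1 2))).div_const r).floor

/-- comparison of two sets fibre by fibre of a countable label -/
theorem k8b_d6_fibre_sum {α ι : Type} [MeasurableSpace α] [Countable ι] (μ : Measure α) (q : α → ι)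
    (hq : ∀ i, MeasurableSet (q ⁻¹' {i})) (A A' : Set α) (hA : MeasurableSet A) (hA' : MeasurableSet A') (k : ENNReal)
    (h : ∀ i, μ (A ∩ q ⁻¹' {i}) ≤ k * μ (A' ∩ q ⁻¹' {i})) : μ A ≤ k * μ A' := by
  have e : ∀ B : Set α, MeasurableSet B → μ B = ∑' i, μ (B ∩ q ⁻¹' {i}) := by
    intro B hB
    rw [← measure_iUnion (fun i j hij => Set.disjoint_left.2 fun x hx hx' => hij (Eq.trans (Eq.symm hx.2) hx'.2))
      (fun i => hB.inter (hq i))]
    congr 1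
    ext x
    simp
  rw [e A hA, e A' hA', ← ENNReal.tsum_mul_left]
  exact ENNReal.tsum_le_tsum h

theorem k8b_d6_pigeon {α ι : Type} [MeasurableSpace α] (μ : Measure α) (A : Set α) (T : Finset ι) (B : ι → Set α)
    (hcov : A ⊆ ⋃ i ∈ T, B i) (i₀ : ι) : ∃ i, μ A ≤ (T.card : ENNReal) * μ (B i) := by
  rcases T.eq_empty_or_nonempty with rfl | hT
  · refine ⟨i₀, ?_⟩
    have h0 : A ⊆ ∅ := by simpa using hcov
    rw [Set.subset_empty_iff.1 h0]
    simp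
  · obtain ⟨i, -, hmax⟩ := Finset.exists_max_image T (fun i => μ (B i)) hT
    refine ⟨i, ?_⟩
    calc μ A ≤ μ (⋃ i ∈ T, B i) := measure_mono hcov
      _ ≤ ∑ j ∈ T, μ (B j) := measure_biUnion_finset_le _ _
      _ ≤ ∑ _j ∈ T, μ (B i) := Finset.sum_le_sum hmax
      _ = T.card * μ (B i) := by rw [Finset.sum_const, nsmul_eq_mul]

theorem k8b_d6_floor_eq {r a b : ℝ} (hr : 0 < r) (hab : |a - b| ≤ r) (hpar : ⌊a / r⌋ % 2 = ⌊b / r⌋ % 2) : ⌊a / r⌋ = ⌊b / r⌋ := by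
  have h1 : |a / r - b / r| ≤ 1 := by
    rw [← sub_div, abs_div, abs_of_pos hr, div_le_one hr]
    exact hab
  have a1 := Int.floor_le (a / r)
  have a2 := Int.lt_floor_add_one (a / r)
  have b1 := Int.floor_le (b / r)
  have b2 := Int.lt_floor_add_one (b / r)
  have h2 := abs_le.1 h1
  have c1 : ((⌊a / r⌋ : ℤ) : ℝ) < ((⌊b / r⌋ + 2 : ℤ) : ℝ) := by
    push_cast
    linarith
  have c2 : ((⌊b / r⌋ : ℤ) : ℝ) < ((⌊a / r⌋ + 2 : ℤ) : ℝ) := by
    push_cast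
    linarith
  have c1' := Int.cast_lt.1 c1
  have c2' := Int.cast_lt.1 c2
  omega

/-- the parity class of a cube -/
def k8bD6Par (Q : ℤ × (Fin 2 → ℤ) × ℤ) : ℤ × ℤ × ℤ × ℤ := (Q.1 % 2, Q.2.1 0 % 2, Q.2.1 1 % 2, Q.2.2 % 2)

theorem k8b_d6_par_mem (Q : ℤ × (Fin 2 → ℤ) × ℤ) :
    k8bD6Par Q ∈ (({0, 1} : Finset ℤ) ×ˢ (({0, 1} : Finset ℤ) ×ˢ (({0, 1} : Finset ℤ) ×ˢ ({0, 1} : Finset ℤ)))) := by
  have h : ∀ z : ℤ, z % 2 ∈ ({0, 1} : Finset ℤ) := fun z => by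
    rcases Int.emod_two_eq_zero_or_one z with h | h <;> simp [h]
  unfold k8bD6Par
  simp only [Finset.mem_product]
  exact ⟨h _, h _, h _, h _⟩

/-- close points in cubes of the same parity class lie in the same cube -/
theorem k8b_d6_same {Λ : Type} (c : Λ → k5_Co 2) {r : ℝ} (hr : 0 < r) (l l' : Λ) (t u : ℝ) (h1 : |t - u| ≤ r)
    (h2 : |k5_x (c l) t - k5_x (c l') u| ≤ r) (h3 : ‖k5_y (c l) t - k5_y (c l') u‖ ≤ r)
    (hp : k8bD6Par (k8bCube c r (l, t)) = k8bD6Par (k8bCube c r (l', u))) : k8bCube c r (l, t) = k8bCube c r (l', u) := by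
  unfold k8bD6Par at hp
  have p1 := congrArg Prod.fst hp
  have p2 := congrArg (fun z => z.2.1) hp
  have p3 := congrArg (fun z => z.2.2.1) hp
  have p4 := congrArg (fun z => z.2.2.2) hp
  have hy : ∀ a, |k5_y (c l) t a - k5_y (c l') u a| ≤ r := fun a => by
    have := norm_le_pi_norm (k5_y (c l) t - k5_y (c l') u) a
    rw [Real.norm_eq_abs, Pi.sub_apply] at this
    exact this.trans h3
  unfold k8bCube at p1 p2 p3 p4 ⊢
  refine Prod.ext (k8b_d6_floor_eq hr h1 p1) (Prod.ext ?_ (k8b_d6_floor_eq hr h2 p4))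
  funext a
  fin_cases a
  · exact k8b_d6_floor_eq hr (hy 0) p2
  · exact k8b_d6_floor_eq hr (hy 1) p3

/-- **L-252-S8b-D6** (~350 l.).   One coefficient bin per cube + a separated residue class of cubes (08 l.674-681).
PROOF.  In each cube keep the bin of largest mass (`≥ 1/Kq` of the cube); keep the best of the classes of cubes with all four indices fixed mod 2 (or 3): `≥ 1/81`.   Countable unions: measurable.
Two kept points within `r` in all coordinates have cube indices differing by `≤ 1` and congruent, hence the same cube, the same bin, slopes within `r`. -/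
theorem k8b_cube_select {Λ : Type} [MeasurableSpace Λ] {ν : Measure Λ} {c : Λ → k5_Co 2} {E : Set (Λ × ℝ)}
    {F : ℝ → Fin 2 → ℝ} {K : ℝ} (h : K8bCh K ν c E F) (r Kq : ℝ) (hr : 0 < r) (hKq : 1 ≤ Kq)
    (hcount : ∀ Q : ℤ × (Fin 2 → ℤ) × ℤ, ∃ Z : Finset ((Fin 3 → ℤ) × (Fin 2 → Fin 2 → ℤ)), (Z.card : ℝ) ≤ Kq ∧
      ∀ x ∈ E, k8bCube c r x = Q → k5_cbin r (c x.1) ∈ Z) :
    ∃ E' : Set (Λ × ℝ), MeasurableSet E' ∧ E' ⊆ E ∧ k5_mass ν E / (81 * Kq) ≤ k5_mass ν E' ∧ k8bSlopeAt c E' r := by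
  have := h.prob
  obtain ⟨μ, hμ⟩ : ∃ μ : Measure (Λ × ℝ), μ = ν.prod volume := ⟨_, rfl⟩
  have hq := k8b_d6_cube_meas h.mc r
  have hβ : Measurable fun x : Λ × ℝ => k5_cbin r (c x.1) := (k5_quot_cbin_meas r).comp (h.mc.comp measurable_fst)
  have hqs : ∀ Q, MeasurableSet (k8bCube c r ⁻¹' {Q}) := fun Q => hq (measurableSet_singleton Q)
  -- one bin per cube
  have hsel : ∀ Q : ℤ × (Fin 2 → ℤ) × ℤ, ∃ B : (Fin 3 → ℤ) × (Fin 2 → Fin 2 → ℤ),
      μ (E ∩ k8bCube c r ⁻¹' {Q}) ≤ ENNReal.ofReal Kq * μ (E ∩ k8bCube c r ⁻¹' {Q} ∩ (fun x : Λ × ℝ => k5_cbin r (c x.1)) ⁻¹' {B}) := by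
    intro Q
    obtain ⟨Z, hZ1, hZ2⟩ := hcount Q
    obtain ⟨B, hB⟩ := k8b_d6_pigeon μ (E ∩ k8bCube c r ⁻¹' {Q}) Z
      (fun B => E ∩ k8bCube c r ⁻¹' {Q} ∩ (fun x : Λ × ℝ => k5_cbin r (c x.1)) ⁻¹' {B})
      (fun x hx => Set.mem_biUnion (hZ2 x hx.1 hx.2) ⟨hx, rfl⟩) (0, 0)
    refine ⟨B, hB.trans (mul_le_mul' ?_ le_rfl)⟩
    rw [← ENNReal.ofReal_natCast]
    exact ENNReal.ofReal_le_ofReal hZ1
  choose Bq hBq using hsel
  have hΦ : Measurable fun x : Λ × ℝ => (k8bCube c r x, k5_cbin r (c x.1)) := hq.prodMk hβ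
  obtain ⟨E₁, hE₁⟩ : ∃ E₁ : Set (Λ × ℝ), E₁ = E ∩ (fun x : Λ × ℝ => (k8bCube c r x, k5_cbin r (c x.1))) ⁻¹' {p | p.2 = Bq p.1} := ⟨_, rfl⟩
  have hE₁m : MeasurableSet E₁ := by
    rw [hE₁]
    exact h.mE.inter (hΦ (Set.to_countable _).measurableSet)
  have hm1 : μ E ≤ ENNReal.ofReal Kq * μ E₁ := by
    refine k8b_d6_fibre_sum μ (k8bCube c r) hqs E E₁ h.mE hE₁m _ fun Q => ?_
    refine (hBq Q).trans (mul_le_mul' le_rfl (measure_mono ?_))
    rintro x ⟨⟨hx1, hx2⟩, hx3⟩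
    have hx2' : k8bCube c r x = Q := hx2
    have hx3' : k5_cbin r (c x.1) = Bq Q := hx3
    rw [hE₁]
    refine ⟨⟨hx1, ?_⟩, hx2⟩
    show k5_cbin r (c x.1) = Bq (k8bCube c r x)
    rw [hx2', hx3']
  -- one parity class
  obtain ⟨κ, hκ⟩ := k8b_d6_pigeon μ E₁ (({0, 1} : Finset ℤ) ×ˢ (({0, 1} : Finset ℤ) ×ˢ (({0, 1} : Finset ℤ) ×ˢ ({0, 1} : Finset ℤ))))
    (fun κ => E₁ ∩ (fun x : Λ × ℝ => k8bD6Par (k8bCube c r x)) ⁻¹' {κ})
    (fun x hx => Set.mem_biUnion (k8b_d6_par_mem (k8bCube c r x)) ⟨hx, rfl⟩) (0, 0, 0, 0)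
  have hcard : ((({0, 1} : Finset ℤ) ×ˢ (({0, 1} : Finset ℤ) ×ˢ (({0, 1} : Finset ℤ) ×ˢ ({0, 1} : Finset ℤ)))).card : ENNReal) = 16 := by
    have : (({0, 1} : Finset ℤ) ×ˢ (({0, 1} : Finset ℤ) ×ˢ (({0, 1} : Finset ℤ) ×ˢ ({0, 1} : Finset ℤ)))).card = 16 := by
      simp [Finset.card_product]
    rw [this]
    norm_num
  rw [hcard] at hκ
  have hsub1 : E₁ ⊆ E := by
    rw [hE₁]
    exact Set.inter_subset_left
  have hI : k5_In E (Ico (0 : ℝ) 1) := fun l t hlt => h.tI l t hlt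
  have hfin : μ E ≠ ⊤ := by
    rw [hμ]
    exact k5_mass_ne_top (by simp) hI
  refine ⟨E₁ ∩ (fun x : Λ × ℝ => k8bD6Par (k8bCube c r x)) ⁻¹' {κ}, ?_, Set.inter_subset_left.trans hsub1, ?_, ?_⟩
  · have hpar : Measurable fun x : Λ × ℝ => k8bD6Par (k8bCube c r x) := (measurable_of_countable k8bD6Par).comp hq
    exact hE₁m.inter (hpar (measurableSet_singleton κ))
  · obtain ⟨E', hE'⟩ : ∃ E' : Set (Λ × ℝ), E' = E₁ ∩ (fun x : Λ × ℝ => k8bD6Par (k8bCube c r x)) ⁻¹' {κ} := ⟨_, rfl⟩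
    rw [← hE'] at hκ ⊢
    have hfin' : μ E' ≠ ⊤ := ne_top_of_le_ne_top hfin (measure_mono (by rw [hE']; exact Set.inter_subset_left.trans hsub1))
    have h5 : μ E ≤ ENNReal.ofReal Kq * (16 * μ E') := hm1.trans (mul_le_mul' le_rfl hκ)
    have h6 : (μ E).toReal ≤ Kq * (16 * (μ E').toReal) := by
      have := ENNReal.toReal_mono (ENNReal.mul_ne_top ENNReal.ofReal_ne_top (ENNReal.mul_ne_top (by norm_num) hfin')) h5
      rw [ENNReal.toReal_mul, ENNReal.toReal_mul, ENNReal.toReal_ofReal (by linarith)] at this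
      simpa using this
    unfold k5_mass
    rw [measureReal_def, measureReal_def, ← hμ, div_le_iff₀ (by positivity)]
    have h7 : 0 ≤ (μ E').toReal := ENNReal.toReal_nonneg
    nlinarith
  · intro l t l' u hl hl' h1 h2 h3
    obtain ⟨a1, a2⟩ := hl
    obtain ⟨b1, b2⟩ := hl'
    have a2' : k8bD6Par (k8bCube c r (l, t)) = κ := a2
    have b2' : k8bD6Par (k8bCube c r (l', u)) = κ := b2
    have hQ := k8b_d6_same c hr l l' t u h1 h2 h3 (a2'.trans b2'.symm)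
    rw [hE₁] at a1 b1
    have a3 : k5_cbin r (c l) = Bq (k8bCube c r (l, t)) := a1.2
    have b3 : k5_cbin r (c l') = Bq (k8bCube c r (l', u)) := b1.2
    have hB : k5_cbin r (c l) = k5_cbin r (c l') := by rw [a3, b3, hQ]
    have hf : ⌊(c l).1 1 / r⌋ = ⌊(c l').1 1 / r⌋ := congrFun (congrArg Prod.fst hB) 1
    have h4 := Int.abs_sub_lt_one_of_floor_eq_floor hf
    rw [← sub_div, abs_div, abs_of_pos hr, div_lt_one hr] at h4
    exact h4.le

theorem k8b_ch_sub {Λ : Type} [MeasurableSpace Λ] {ν : Measure Λ} {c : Λ → k5_Co 2} {E E' : Set (Λ × ℝ)}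
    {F : ℝ → Fin 2 → ℝ} {K : ℝ} (h : K8bCh K ν c E F) (hE' : MeasurableSet E') (hsub : E' ⊆ E) : K8bCh K ν c E' F :=
  ⟨h.prob, h.mc, hE', h.mF, fun l t hlt => h.tI l t (hsub hlt), h.cb, h.flat, h.Fb, h.K1⟩

theorem k8b_mix_sub {Λ : Type} [MeasurableSpace Λ] {ν : Measure Λ} [IsFiniteMeasure ν] {c : Λ → k5_Co 2}
    {E E' : Set (Λ × ℝ)} {d K ζ : ℝ} (h : k8bMix d K ζ ν c E) (hsub : E' ⊆ E) : k8bMix d K ζ ν c E' := by
  intro t r w a e h1 h2 h3 h4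
  refine le_trans (measureReal_mono ?_) (h t r w a e h1 h2 h3 h4)
  exact fun l hl => ⟨hsub hl.1, hl.2⟩

theorem k8b_cbin_meas {Λ : Type} [MeasurableSpace Λ] {c : Λ → k5_Co 2} (hc : Measurable c) (r : ℝ) :
    Measurable fun l => k5_cbin r (c l) := by
  unfold k5_cbin
  refine Measurable.prodMk (measurable_pi_lambda _ fun i => ?_)
    (measurable_pi_lambda _ fun i => measurable_pi_lambda _ fun a => ?_)
  · exact Int.measurable_floor.comp (((measurable_pi_apply i).comp (measurable_fst.comp hc)).div_const r)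
  · exact Int.measurable_floor.comp
      (((measurable_pi_apply a).comp ((measurable_pi_apply i).comp (measurable_snd.comp hc))).div_const r)

theorem k8b_binOf_le {Λ : Type} [MeasurableSpace Λ] {ν : Measure Λ} {c : Λ → k5_Co 2} {E : Set (Λ × ℝ)}
    {F : ℝ → Fin 2 → ℝ} {K : ℝ} (h : K8bCh K ν c E F) (r : ℝ) (x : Λ × ℝ) :
    k5_mass ν (k8bBinOf c E r x) ≤ ν.real {l' | k5_cbin r (c l') = k5_cbin r (c x.1)} := by
  have := h.prob
  have hsub : k8bBinOf c E r x ⊆ {l' | k5_cbin r (c l') = k5_cbin r (c x.1)} ×ˢ Ico (0 : ℝ) 1 :=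
    fun y hy => ⟨hy.2, h.tI y.1 y.2 hy.1⟩
  unfold k5_mass
  have h1 : (ν.prod volume) ({l' | k5_cbin r (c l') = k5_cbin r (c x.1)} ×ˢ Ico (0 : ℝ) 1)
      = ν {l' | k5_cbin r (c l') = k5_cbin r (c x.1)} := by
    rw [Measure.prod_prod]; simp
  have h2 : (ν.prod volume).real (k8bBinOf c E r x)
      ≤ (ν.prod volume).real ({l' | k5_cbin r (c l') = k5_cbin r (c x.1)} ×ˢ Ico (0 : ℝ) 1) :=
    measureReal_mono hsub (by rw [h1]; exact measure_ne_top _ _)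
  refine h2.trans (le_of_eq ?_)
  simp only [measureReal_def, h1]

theorem k8b_heavy_meas {Λ : Type} [MeasurableSpace Λ] {ν : Measure Λ} {c : Λ → k5_Co 2} {E : Set (Λ × ℝ)}
    (hc : Measurable c) (hE : MeasurableSet E) (r θ : ℝ) :
    MeasurableSet {x | x ∈ E ∧ θ ≤ k5_mass ν (k8bBinOf c E r x)} := by
  set g : (Fin 3 → ℤ) × (Fin 2 → Fin 2 → ℤ) → ℝ := fun B => k5_mass ν {x' | x' ∈ E ∧ k5_cbin r (c x'.1) = B} with hg
  have h1 : {x : Λ × ℝ | x ∈ E ∧ θ ≤ k5_mass ν (k8bBinOf c E r x)}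
      = E ∩ (fun x : Λ × ℝ => k5_cbin r (c x.1)) ⁻¹' {B | θ ≤ g B} := by
    ext x; rfl
  rw [h1]
  exact hE.inter (((k8b_cbin_meas hc r).comp measurable_fst) (Set.to_countable _).measurableSet)

/-- **L-252-S8b-D7** (glue, ~250 l.).   `E₁ := E \ light` (`k8b_heavy`; whole bins are kept, so `k8bBinOf c E₁ r x = k8bBinOf c E r x`), mass `≥ δ/2`; `k8b_entry_prune` (cost `δ/4`); `k8b_cube_count`; `k8b_cube_select`.
Prior floor: `ν{bin} ≥ k5_mass ν (k8bBinOf ..)` since the labels live in `[0,1)`. -/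
theorem k8b_slope_scale (d ε : ℝ) (hd0 : 0 ≤ d) (hd : d < 1) (hε : 0 < ε) :
    ∃ C : ℝ, 1 ≤ C ∧ ∀ (Λ : Type) [MeasurableSpace Λ] (ν : Measure Λ) (c : Λ → k5_Co 2) (E : Set (Λ × ℝ))
      (F : ℝ → Fin 2 → ℝ) (K ζ r δ : ℝ), K8bCh K ν c E F → 0 < ζ → ζ ≤ r → r ≤ 1 → k8bMix d K ζ ν c E →
      k8bSup d K r c E F → 0 < δ → δ ≤ k5_mass ν E →
      ∃ E' : Set (Λ × ℝ), MeasurableSet E' ∧ E' ⊆ E ∧ r ^ ε / (C * (K / δ) ^ C) ≤ k5_mass ν E' ∧ k8bSlopeAt c E' r ∧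
        k8bBinFl ν c E' r (r ^ (2 + d + ε) / (C * (K / δ) ^ C)) := by
  obtain ⟨C1, hC1, hheavy⟩ := k8b_heavy d ε hd0 hd hε
  refine ⟨max (51840 * C1) (C1 + 3), le_max_of_le_left (by linarith), ?_⟩
  intro Λ _ ν c E F K ζ r δ h hζ hζr hr1 hmix hsup hδ hm
  have := h.prob
  set C : ℝ := max (51840 * C1) (C1 + 3) with hC
  have hr : 0 < r := lt_of_lt_of_le hζ hζr
  have hδ1 : δ ≤ 1 := hm.trans (k8b_mass_le_one h)
  have hK1 : 1 ≤ K := h.K1
  have hK0 : 0 < K := by linarith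
  set X : ℝ := K / δ with hX
  have hXK : K ≤ X := by
    rw [hX, le_div_iff₀ hδ]
    nlinarith
  have hX1 : 1 ≤ X := hK1.trans hXK
  have hX0 : 0 < X := by linarith
  have hXC1 : 0 < X ^ C1 := Real.rpow_pos_of_pos hX0 _
  set θ : ℝ := r ^ (2 + d + ε) / (C1 * X ^ C1) with hθ
  have hθ0 : 0 < θ := by
    rw [hθ]
    have := Real.rpow_pos_of_pos hr (2 + d + ε)
    positivity
  have hT : volume (Ico (0 : ℝ) 1) ≠ ⊤ := by simp
  have hIn : k5_In E (Ico (0 : ℝ) 1) := fun l t hlt => h.tI l t hlt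
  -- step 1: the heavy bins
  set E1 : Set (Λ × ℝ) := {x | x ∈ E ∧ θ ≤ k5_mass ν (k8bBinOf c E r x)} with hE1
  have hE1m : MeasurableSet E1 := k8b_heavy_meas h.mc h.mE r θ
  have hE1sub : E1 ⊆ E := fun x hx => hx.1
  have hlight := hheavy Λ ν c E F K ζ r δ h hζ hζr hr1 hmix hsup hδ hδ1
  have hE1mass : δ / 2 ≤ k5_mass ν E1 := by
    have h1 := k5_mass_split (ν := ν) h.mE hT hIn hE1m
    have h2 : E ∩ E1 = E1 := inter_eq_right.2 hE1sub
    have h3 : E \ E1 = {x | x ∈ E ∧ k5_mass ν (k8bBinOf c E r x) < r ^ (2 + d + ε) / (C1 * (K / δ) ^ C1)} := by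
      ext x
      simp only [hE1, mem_sdiff, mem_ofPred_eq, not_and, not_le]
      constructor
      · rintro ⟨hx, hx2⟩; exact ⟨hx, hx2 hx⟩
      · rintro ⟨hx, hx2⟩; exact ⟨hx, fun _ => hx2⟩
    rw [h2, h3] at h1
    linarith
  have h1ch : K8bCh K ν c E1 F := k8b_ch_sub h hE1m hE1sub
  have hbinEq : ∀ x ∈ E1, k8bBinOf c E1 r x = k8bBinOf c E r x := by
    intro x hx
    ext y
    constructor
    · rintro ⟨hy, hy2⟩; exact ⟨hy.1, hy2⟩
    · rintro ⟨hy, hy2⟩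
      refine ⟨⟨hy, ?_⟩, hy2⟩
      have : k8bBinOf c E r y = k8bBinOf c E r x := by
        unfold k8bBinOf; rw [hy2]
      rw [this]; exact hx.2
  -- step 2: the entries
  obtain ⟨E2, hE2m, hE2sub, hE2mass, hE2ent⟩ := k8b_entry_prune h1ch r θ (δ / 4) hr hr1 hθ0 (by positivity)
    (fun x hx => by rw [hbinEq x hx]; exact hx.2)
  have hE2mass' : δ / 4 ≤ k5_mass ν E2 := by linarith
  have h2ch : K8bCh K ν c E2 F := k8b_ch_sub h1ch hE2m hE2sub
  have h2mix : k8bMix d K ζ ν c E2 := k8b_mix_sub hmix (hE2sub.trans hE1sub)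
  set τ : ℝ := r * θ * (δ / 4) / 2 with hτ
  have hτ0 : 0 < τ := by rw [hτ]; positivity
  -- step 3: bins per cube
  have hcount := k8b_cube_count h2ch d ζ r τ hd0 hζ h2mix hζr hr1 hτ0 hE2ent
  set Q1 : ℝ := 160 * C1 * X ^ (C1 + 2) * r ^ (-ε) with hQ1
  have hrε : 1 ≤ r ^ (-ε) := Real.one_le_rpow_of_pos_of_le_one_of_nonpos hr hr1 (by linarith)
  have hXC2 : 1 ≤ X ^ (C1 + 2) := Real.one_le_rpow hX1 (by linarith)
  have hQ11 : 1 ≤ Q1 := by
    rw [hQ1]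
    have h1 : (1 : ℝ) ≤ 160 * C1 := by linarith
    have h2 : (1 : ℝ) ≤ 160 * C1 * X ^ (C1 + 2) := by nlinarith
    nlinarith
  have hKq : 20 * K ^ 2 * r ^ (3 + d) / τ ≤ Q1 := by
    have e1 : r ^ (3 + d) = r * r ^ (2 + d + ε) * r ^ (-ε) := by
      have h1 : r * r ^ (2 + d + ε) * r ^ (-ε) = r ^ (1 : ℝ) * r ^ (2 + d + ε) * r ^ (-ε) := by rw [Real.rpow_one]
      rw [h1, ← Real.rpow_add hr, ← Real.rpow_add hr]
      congr 1; ring
    have e2 : X ^ (C1 + 2) = X ^ C1 * X ^ 2 := by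
      rw [Real.rpow_add hX0]; norm_num
    have hrp : 0 < r ^ (2 + d + ε) := Real.rpow_pos_of_pos hr _
    have e3 : 20 * K ^ 2 * r ^ (3 + d) / τ = 160 * C1 * X ^ C1 * (K ^ 2 / δ) * r ^ (-ε) := by
      rw [hτ, hθ, e1]
      field_simp
      ring
    have e4 : K ^ 2 / δ ≤ X ^ 2 := by
      have : X ^ 2 = K ^ 2 / δ / δ := by rw [hX]; field_simp
      rw [this, le_div_iff₀ hδ]
      have : 0 ≤ K ^ 2 / δ := by positivity
      nlinarith
    rw [e3, hQ1, e2]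
    have h5 : 0 ≤ 160 * C1 * X ^ C1 := by positivity
    have h6 : 160 * C1 * X ^ C1 * (K ^ 2 / δ) ≤ 160 * C1 * X ^ C1 * X ^ 2 := mul_le_mul_of_nonneg_left e4 h5
    calc 160 * C1 * X ^ C1 * (K ^ 2 / δ) * r ^ (-ε) ≤ 160 * C1 * X ^ C1 * X ^ 2 * r ^ (-ε) :=
          mul_le_mul_of_nonneg_right h6 (by linarith)
      _ = 160 * C1 * (X ^ C1 * X ^ 2) * r ^ (-ε) := by ring
  obtain ⟨E3, hE3m, hE3sub, hE3mass, hE3slope⟩ := k8b_cube_select h2ch r Q1 hr hQ11 (fun Q => by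
    obtain ⟨Z, hZc, hZ⟩ := hcount Q
    exact ⟨Z, hZc.trans hKq, hZ⟩)
  have hXC : X ^ (C1 + 3) ≤ X ^ C := Real.rpow_le_rpow_of_exponent_le hX1 (le_max_right _ _)
  have hXCpos : 0 < X ^ C := Real.rpow_pos_of_pos hX0 _
  have hC0 : 0 < C := lt_of_lt_of_le (by linarith) (le_max_left (51840 * C1) (C1 + 3))
  refine ⟨E3, hE3m, hE3sub.trans (hE2sub.trans hE1sub), ?_, hE3slope, ?_⟩
  · refine le_trans ?_ hE3mass
    refine le_trans ?_ (div_le_div_of_nonneg_right hE2mass' (by positivity))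
    have e1 : r ^ (-ε) = (r ^ ε)⁻¹ := Real.rpow_neg hr.le ε
    have hrε0 : 0 < r ^ ε := Real.rpow_pos_of_pos hr _
    have e2 : δ / 4 / (81 * Q1) = r ^ ε * δ / (51840 * C1 * X ^ (C1 + 2)) := by
      rw [hQ1, e1]
      field_simp
      ring
    have e3 : X ^ (C1 + 3) = X ^ (C1 + 2) * X := by
      rw [show C1 + 3 = C1 + 2 + 1 by ring, Real.rpow_add hX0, Real.rpow_one]
    have e4 : 1 ≤ δ * X := by
      rw [hX]
      have : δ * (K / δ) = K := by field_simp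
      rw [this]; exact hK1
    rw [e2, div_le_div_iff₀ (by positivity) (by positivity)]
    have h5 : 51840 * C1 * X ^ (C1 + 2) ≤ δ * (C * X ^ C) := by
      have h6 : 51840 * C1 * X ^ (C1 + 3) ≤ C * X ^ C :=
        mul_le_mul (le_max_left _ _) hXC (by positivity) hC0.le
      have h7 : 0 < X ^ (C1 + 2) := by linarith
      calc 51840 * C1 * X ^ (C1 + 2) ≤ 51840 * C1 * X ^ (C1 + 2) * (δ * X) := by
            have : 0 ≤ 51840 * C1 * X ^ (C1 + 2) := by positivity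
            nlinarith
        _ = δ * (51840 * C1 * X ^ (C1 + 3)) := by rw [e3]; ring
        _ ≤ δ * (C * X ^ C) := mul_le_mul_of_nonneg_left h6 hδ.le
    calc r ^ ε * (51840 * C1 * X ^ (C1 + 2)) ≤ r ^ ε * (δ * (C * X ^ C)) := mul_le_mul_of_nonneg_left h5 hrε0.le
      _ = r ^ ε * δ * (C * X ^ C) := by ring
  · intro l t hlt
    have hx1 : (l, t) ∈ E1 := hE2sub (hE3sub hlt)
    have h1 := k8b_binOf_le h r (l, t)
    have h2 : r ^ (2 + d + ε) / (C * X ^ C) ≤ θ := by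
      rw [hθ]
      refine div_le_div_of_nonneg_left (Real.rpow_pos_of_pos hr _).le (by positivity) ?_
      have h3 : X ^ C1 ≤ X ^ C :=
        Real.rpow_le_rpow_of_exponent_le hX1 (le_trans (by linarith) (le_max_right (51840 * C1) (C1 + 3)))
      exact mul_le_mul (le_trans (by linarith) (le_max_left (51840 * C1) (C1 + 3))) h3 hXC1.le hC0.le
    exact h2.trans (hx1.2.trans h1)

/-! ## E. All tested scales, interpolation -/

/-- all scale-wise properties at the tested scales `(1/2)^k`, `k ∈ ks`; all fields persist under restriction of `E` -/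
structure K8bReg {Λ : Type} [MeasurableSpace Λ] (d K ζ : ℝ) (ks : Finset ℕ) (ν : Measure Λ) (c : Λ → k5_Co 2)
    (E : Set (Λ × ℝ)) (F : ℝ → Fin 2 → ℝ) : Prop where
  ch : K8bCh K ν c E F
  mix : k8bMix d K ζ ν c E
  cnt : ∀ k ∈ ks, k8bCnt d K ((1 / 2 : ℝ) ^ k) c E F
  row : ∀ k ∈ ks, ∀ l t l' u, (l, t) ∈ E → (l', u) ∈ E → |t - u| ≤ (1 / 2 : ℝ) ^ k → ‖F t - F u‖ ≤ K * (1 / 2 : ℝ) ^ k
  slope : ∀ k ∈ ks, k8bSlopeAt c E ((1 / 2 : ℝ) ^ k)
  bin : ∀ k ∈ ks, k8bBinFl ν c E ((1 / 2 : ℝ) ^ k) (((1 / 2 : ℝ) ^ k) ^ (2 + d) / K)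

theorem k8b_ch_mono {Λ : Type} [MeasurableSpace Λ] {ν : Measure Λ} {c : Λ → k5_Co 2} {E : Set (Λ × ℝ)}
    {F : ℝ → Fin 2 → ℝ} {K K' : ℝ} (h : K8bCh K ν c E F) (hK : K ≤ K') : K8bCh K' ν c E F :=
  ⟨h.prob, h.mc, h.mE, h.mF, h.tI, fun l => (h.cb l).trans hK, h.flat, fun t => (h.Fb t).trans hK, h.K1.trans hK⟩

theorem k8b_mix_mono {Λ : Type} [MeasurableSpace Λ] {ν : Measure Λ} {c : Λ → k5_Co 2} {E : Set (Λ × ℝ)}
    {d K K' ζ : ℝ} (h : k8bMix d K ζ ν c E) (hζ : 0 < ζ) (hK : K ≤ K') : k8bMix d K' ζ ν c E := by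
  intro t r w a e h1 h2 h3 h4
  refine (h t r w a e h1 h2 h3 h4).trans ?_
  have h5 : 0 ≤ w ^ d := Real.rpow_nonneg (by linarith) d
  have h6 : 0 ≤ r ^ 2 * w ^ d := by positivity
  nlinarith

theorem k8b_cnt_sub {Λ : Type} {c : Λ → k5_Co 2} {E E' : Set (Λ × ℝ)} {F : ℝ → Fin 2 → ℝ} {d K K' w : ℝ}
    (h : k8bCnt d K w c E F) (hw : 0 < w) (hsub : E' ⊆ E) (hK : K ≤ K') : k8bCnt d K' w c E' F := by
  intro t a R h1 h2
  obtain ⟨Z, hZ, hZ2⟩ := h t a R h1 h2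
  refine ⟨Z, hZ.trans ?_, fun l hl => hZ2 l (hsub hl)⟩
  have hR : 0 ≤ R / w := div_nonneg (by linarith) hw.le
  exact mul_le_mul_of_nonneg_right hK (Real.rpow_nonneg hR d)

theorem k8b_sup_sub {Λ : Type} {c : Λ → k5_Co 2} {E E' : Set (Λ × ℝ)} {F : ℝ → Fin 2 → ℝ} {d K K' w : ℝ}
    (h : k8bSup d K w c E F) (hw : 0 < w) (hsub : E' ⊆ E) (hK : K ≤ K') : k8bSup d K' w c E' F := by
  intro t
  obtain ⟨Z, hZ, hZ2⟩ := h t
  exact ⟨Z, hZ.trans (mul_le_mul_of_nonneg_right hK (Real.rpow_nonneg hw.le _)), fun l hl => hZ2 l (hsub hl)⟩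

theorem k8b_reg_sub {Λ : Type} [MeasurableSpace Λ] {ν : Measure Λ} {c : Λ → k5_Co 2} {E E' : Set (Λ × ℝ)}
    {F : ℝ → Fin 2 → ℝ} {d K K' ζ : ℝ} {ks : Finset ℕ} (h : K8bReg d K ζ ks ν c E F) (hζ : 0 < ζ)
    (hE' : MeasurableSet E') (hsub : E' ⊆ E) (hK : K ≤ K') : K8bReg d K' ζ ks ν c E' F where
  ch := k8b_ch_mono (k8b_ch_sub h.ch hE' hsub) hK
  mix := by
    have := h.ch.prob
    exact k8b_mix_mono (k8b_mix_sub h.mix hsub) hζ hK
  cnt := fun k hk => k8b_cnt_sub (h.cnt k hk) (by positivity) hsub hK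
  row := fun k hk l t l' u h1 h2 h3 =>
    (h.row k hk l t l' u (hsub h1) (hsub h2) h3).trans (mul_le_mul_of_nonneg_right hK (by positivity))
  slope := fun k hk l t l' u h1 h2 => h.slope k hk l t l' u (hsub h1) (hsub h2)
  bin := fun k hk l t hlt => by
    have hK0 : 0 < K := lt_of_lt_of_le one_pos h.ch.K1
    refine le_trans ?_ (h.bin k hk l t (hsub hlt))
    exact div_le_div_of_nonneg_left (Real.rpow_nonneg (by positivity) _) hK0 hK

theorem k8b_mon_le {K ζ A a b A' a' b' : ℝ} (hK : 1 ≤ K) (hζ0 : 0 < ζ) (hζ1 : ζ ≤ 1) (hA0 : 0 ≤ A) (hA : A ≤ A')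
    (ha : a ≤ a') (hb : b ≤ b') : A * K ^ a * ζ ^ (-b) ≤ A' * K ^ a' * ζ ^ (-b') := by
  have h1 : K ^ a ≤ K ^ a' := Real.rpow_le_rpow_of_exponent_le hK ha
  have h2 : ζ ^ (-b) ≤ ζ ^ (-b') := Real.rpow_le_rpow_of_exponent_ge hζ0 hζ1 (by linarith)
  have h3 : 0 < K ^ a := Real.rpow_pos_of_pos (by linarith) _
  have h4 : 0 < ζ ^ (-b) := Real.rpow_pos_of_pos hζ0 _
  have h5 : 0 < K ^ a' := Real.rpow_pos_of_pos (by linarith) _
  exact mul_le_mul (mul_le_mul hA h1 h3.le (hA0.trans hA)) h2 h4.le (mul_nonneg (hA0.trans hA) h5.le)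

theorem k8b_mon_pow {K ζ A a b s : ℝ} (hK : 0 < K) (hζ0 : 0 < ζ) (hA0 : 0 ≤ A) :
    (A * K ^ a * ζ ^ (-b)) ^ s = A ^ s * K ^ (a * s) * ζ ^ (-(b * s)) := by
  have h3 : 0 < K ^ a := Real.rpow_pos_of_pos hK _
  have h4 : 0 < ζ ^ (-b) := Real.rpow_pos_of_pos hζ0 _
  rw [Real.mul_rpow (by positivity) h4.le, Real.mul_rpow hA0 h3.le, ← Real.rpow_mul hK.le, ← Real.rpow_mul hζ0.le]
  congr 2
  ring

/-- the real-number part of one round -/
theorem k8b_iter_num (K ζ r Cn Cr Cs ε : ℝ) (hK : 1 ≤ K) (hζ0 : 0 < ζ) (hζ1 : ζ ≤ 1) (hζr : ζ ≤ r) (hr1 : r ≤ 1)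
    (hCn : 1 ≤ Cn) (hCr : 1 ≤ Cr) (hCs : 1 ≤ Cs) (hε : 0 < ε) (C e δ1 δ2 : ℝ)
    (hC : C = Cn + Cr * Cn ^ Cr + (Cn + 1) * Cr + Cs * (8 * Cn ^ 2) ^ Cs + (2 * Cn + 1) * Cs)
    (he : e = ε / (4 * Cs + Cr)) (hδ1 : δ1 = ζ ^ e / (Cn * K ^ Cn)) (hδ2 : δ2 = δ1 ^ 2 / 8) :
    0 < δ1 ∧ Cn * K ^ Cn * ζ ^ (-e) ≤ C * K ^ C * ζ ^ (-ε) ∧ Cr * (K / δ1) ^ Cr ≤ C * K ^ C * ζ ^ (-ε) ∧
      Cs * (K / δ2) ^ Cs * r ^ (-(ε / 2)) ≤ C * K ^ C * ζ ^ (-ε) ∧ K ≤ C * K ^ C * ζ ^ (-ε) ∧ 1 ≤ C := by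
  have hK0 : 0 < K := by linarith
  have hr0 : 0 < r := lt_of_lt_of_le hζ0 hζr
  have hden : 0 < 4 * Cs + Cr := by linarith
  have he0 : 0 < e := by rw [he]; positivity
  have t1 : 0 ≤ Cr * Cn ^ Cr := by positivity
  have t2 : 0 ≤ (Cn + 1) * Cr := by positivity
  have t3 : 0 ≤ Cs * (8 * Cn ^ 2) ^ Cs := by positivity
  have t4 : 0 ≤ (2 * Cn + 1) * Cs := by positivity
  have hze : 0 < ζ ^ e := Real.rpow_pos_of_pos hζ0 _
  have hKn : 0 < K ^ Cn := Real.rpow_pos_of_pos hK0 _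
  have hδ10 : 0 < δ1 := by rw [hδ1]; positivity
  have hee : e ≤ ε := by
    rw [he, div_le_iff₀ hden]
    nlinarith
  have heCr : e * Cr ≤ ε := by
    rw [he, div_mul_eq_mul_div, div_le_iff₀ hden]
    nlinarith
  have heCs : 2 * e * Cs + ε / 2 ≤ ε := by
    have : 2 * e * Cs ≤ ε / 2 := by
      rw [he]
      have : 2 * (ε / (4 * Cs + Cr)) * Cs = (2 * ε * Cs) / (4 * Cs + Cr) := by ring
      rw [this, div_le_iff₀ hden]
      nlinarith
    linarith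
  have e1 : K / δ1 = Cn * K ^ (Cn + 1) * ζ ^ (-e) := by
    rw [hδ1, Real.rpow_add hK0, Real.rpow_one, Real.rpow_neg hζ0.le]
    field_simp
  have e2 : K / δ2 = (8 * Cn ^ 2) * K ^ (2 * Cn + 1) * ζ ^ (-(2 * e)) := by
    have h1 : K ^ (2 * Cn + 1) = K ^ Cn * K ^ Cn * K := by
      rw [show 2 * Cn + 1 = Cn + Cn + 1 by ring, Real.rpow_add hK0, Real.rpow_add hK0, Real.rpow_one]
    have h2 : ζ ^ (-(2 * e)) = (ζ ^ e)⁻¹ * (ζ ^ e)⁻¹ := by
      rw [show -(2 * e) = -e + -e by ring, Real.rpow_add hζ0, Real.rpow_neg hζ0.le]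
    rw [hδ2, hδ1, h1, h2]
    field_simp
  refine ⟨hδ10, ?_, ?_, ?_, ?_, ?_⟩
  · exact k8b_mon_le hK hζ0 hζ1 (by linarith) (by rw [hC]; linarith) (by rw [hC]; linarith) hee
  · rw [e1, k8b_mon_pow hK0 hζ0 (by linarith)]
    have := k8b_mon_le (K := K) (ζ := ζ) (A := Cr * Cn ^ Cr) (a := (Cn + 1) * Cr) (b := e * Cr) (A' := C) (a' := C)
      (b' := ε) hK hζ0 hζ1 t1 (by rw [hC]; linarith) (by rw [hC]; linarith) heCr
    calc Cr * (Cn ^ Cr * K ^ ((Cn + 1) * Cr) * ζ ^ (-(e * Cr)))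
        = Cr * Cn ^ Cr * K ^ ((Cn + 1) * Cr) * ζ ^ (-(e * Cr)) := by ring
      _ ≤ _ := this
  · rw [e2, k8b_mon_pow hK0 hζ0 (by positivity)]
    have hrz : r ^ (-(ε / 2)) ≤ ζ ^ (-(ε / 2)) :=
      Real.rpow_le_rpow_of_nonpos hζ0 hζr (by linarith)
    have := k8b_mon_le (K := K) (ζ := ζ) (A := Cs * (8 * Cn ^ 2) ^ Cs) (a := (2 * Cn + 1) * Cs)
      (b := 2 * e * Cs + ε / 2) (A' := C) (a' := C) (b' := ε) hK hζ0 hζ1 t3 (by rw [hC]; linarith)
      (by rw [hC]; linarith) heCs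
    have h3 : ζ ^ (-(2 * e * Cs + ε / 2)) = ζ ^ (-(2 * e * Cs)) * ζ ^ (-(ε / 2)) := by
      rw [← Real.rpow_add hζ0]; congr 1; ring
    have h4 : 0 ≤ Cs * ((8 * Cn ^ 2) ^ Cs * K ^ ((2 * Cn + 1) * Cs) * ζ ^ (-(2 * e * Cs))) := by positivity
    calc Cs * ((8 * Cn ^ 2) ^ Cs * K ^ ((2 * Cn + 1) * Cs) * ζ ^ (-(2 * e * Cs))) * r ^ (-(ε / 2))
        ≤ Cs * ((8 * Cn ^ 2) ^ Cs * K ^ ((2 * Cn + 1) * Cs) * ζ ^ (-(2 * e * Cs))) * ζ ^ (-(ε / 2)) :=
          mul_le_mul_of_nonneg_left hrz h4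
      _ = Cs * (8 * Cn ^ 2) ^ Cs * K ^ ((2 * Cn + 1) * Cs) * ζ ^ (-(2 * e * Cs + ε / 2)) := by rw [h3]; ring
      _ ≤ _ := this
  · have := k8b_mon_le (K := K) (ζ := ζ) (A := 1) (a := 1) (b := 0) (A' := C) (a' := C) (b' := ε) hK hζ0 hζ1
      zero_le_one (by rw [hC]; linarith) (by rw [hC]; linarith) hε.le
    simpa using this
  · rw [hC]; linarith

theorem k8b_iter_aux (d : ℝ) (hd0 : 0 ≤ d) (hd : d < 1) (n : ℕ) : ∀ ε : ℝ, 0 < ε →
    ∃ C : ℝ, 1 ≤ C ∧ ∀ (Λ : Type) [MeasurableSpace Λ] (ν : Measure Λ) (c : Λ → k5_Co 2) (E : Set (Λ × ℝ))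
      (F : ℝ → Fin 2 → ℝ) (K ζ : ℝ) (ks : Finset ℕ), K8bCh K ν c E F → 0 < ζ → ζ ≤ 1 → k8bMix d K ζ ν c E →
      ks.card ≤ n → (∀ k ∈ ks, ζ ≤ (1 / 2 : ℝ) ^ k) → (∀ k ∈ ks, k8bSup d K ((1 / 2 : ℝ) ^ k) c E F) →
      (∀ k ∈ ks, k8bCnt d K ((1 / 2 : ℝ) ^ k) c E F) → 1 / K ≤ k5_mass ν E →
      ∃ E' : Set (Λ × ℝ), MeasurableSet E' ∧ E' ⊆ E ∧ ζ ^ ε / (C * K ^ C) ≤ k5_mass ν E' ∧
        K8bReg d (C * K ^ C * ζ ^ (-ε)) ζ ks ν c E' F := by
  -- the trivial case of no scale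
  have htriv : ∀ (C ε : ℝ), 1 ≤ C → 0 < ε → ∀ (Λ : Type) [MeasurableSpace Λ] (ν : Measure Λ) (c : Λ → k5_Co 2)
      (E : Set (Λ × ℝ)) (F : ℝ → Fin 2 → ℝ) (K ζ : ℝ), K8bCh K ν c E F → 0 < ζ → ζ ≤ 1 → k8bMix d K ζ ν c E →
      1 / K ≤ k5_mass ν E →
      ∃ E' : Set (Λ × ℝ), MeasurableSet E' ∧ E' ⊆ E ∧ ζ ^ ε / (C * K ^ C) ≤ k5_mass ν E' ∧
        K8bReg d (C * K ^ C * ζ ^ (-ε)) ζ ∅ ν c E' F := by
    intro C ε hC hε Λ _ ν c E F K ζ h hζ0 hζ1 hmix hmass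
    have hK1 := h.K1
    have hK0 : 0 < K := by linarith
    have hle : K ≤ C * K ^ C * ζ ^ (-ε) := by
      have := k8b_mon_le (K := K) (ζ := ζ) (A := 1) (a := 1) (b := 0) (A' := C) (a' := C) (b' := ε) hK1 hζ0 hζ1
        zero_le_one hC hC hε.le
      simpa using this
    refine ⟨E, h.mE, Subset.rfl, le_trans ?_ hmass, ?_⟩
    · have h1 : ζ ^ ε ≤ 1 := Real.rpow_le_one hζ0.le hζ1 hε.le
      have h2 : K ≤ C * K ^ C := by
        have h3 : K ^ (1 : ℝ) ≤ K ^ C := Real.rpow_le_rpow_of_exponent_le hK1 hC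
        rw [Real.rpow_one] at h3
        nlinarith
      exact div_le_div₀ zero_le_one h1 hK0 h2
    · exact ⟨k8b_ch_mono h hle, k8b_mix_mono hmix hζ0 hle, by simp, by simp, by simp, by simp⟩
  induction n with
  | zero =>
    intro ε hε
    refine ⟨1, le_rfl, ?_⟩
    intro Λ _ ν c E F K ζ ks h hζ0 hζ1 hmix hcard _ _ _ hmass
    have hks : ks = ∅ := Finset.card_eq_zero.1 (Nat.le_zero.1 hcard)
    subst hks
    exact htriv 1 ε le_rfl hε Λ ν c E F K ζ h hζ0 hζ1 hmix hmass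
  | succ n ih =>
    intro ε hε
    obtain ⟨Cr, hCr, hrow⟩ := k8b_row_scale d hd0 hd
    obtain ⟨Cs, hCs, hslope⟩ := k8b_slope_scale d (ε / 2) hd0 hd (by positivity)
    have hden : 0 < 4 * Cs + Cr := by linarith
    obtain ⟨Cn, hCn, hih⟩ := ih (ε / (4 * Cs + Cr)) (by positivity)
    set e : ℝ := ε / (4 * Cs + Cr) with he
    set C : ℝ := Cn + Cr * Cn ^ Cr + (Cn + 1) * Cr + Cs * (8 * Cn ^ 2) ^ Cs + (2 * Cn + 1) * Cs with hC
    have hC1 : 1 ≤ C := by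
      have t1 : 0 ≤ Cr * Cn ^ Cr := by positivity
      have t2 : 0 ≤ (Cn + 1) * Cr := by positivity
      have t3 : 0 ≤ Cs * (8 * Cn ^ 2) ^ Cs := by positivity
      have t4 : 0 ≤ (2 * Cn + 1) * Cs := by positivity
      rw [hC]; linarith
    refine ⟨C, hC1, ?_⟩
    intro Λ _ ν c E F K ζ ks h hζ0 hζ1 hmix hcard hscale hsup hcnt hmass
    have := h.prob
    rcases ks.eq_empty_or_nonempty with hks | ⟨k0, hk0⟩
    · subst hks
      exact htriv C ε hC1 hε Λ ν c E F K ζ h hζ0 hζ1 hmix hmass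
    have hK1 := h.K1
    have hK0 : 0 < K := by linarith
    set r : ℝ := (1 / 2 : ℝ) ^ k0 with hr
    have hr0 : 0 < r := by rw [hr]; positivity
    have hr1 : r ≤ 1 := by rw [hr]; exact pow_le_one₀ (by norm_num) (by norm_num)
    have hζr : ζ ≤ r := hscale k0 hk0
    set ks' : Finset ℕ := ks.erase k0 with hks'
    have hsub' : ∀ k ∈ ks', k ∈ ks := fun k hk => Finset.mem_of_mem_erase hk
    have hcard' : ks'.card ≤ n := by
      rw [hks', Finset.card_erase_of_mem hk0]; omega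
    obtain ⟨E1, hE1m, hE1sub, hE1mass, hE1reg⟩ := hih Λ ν c E F K ζ ks' h hζ0 hζ1 hmix hcard'
      (fun k hk => hscale k (hsub' k hk)) (fun k hk => hsup k (hsub' k hk)) (fun k hk => hcnt k (hsub' k hk)) hmass
    set δ1 : ℝ := ζ ^ e / (Cn * K ^ Cn) with hδ1
    set δ2 : ℝ := δ1 ^ 2 / 8 with hδ2
    obtain ⟨hδ10, hN1, hN2, hN3, hN4, -⟩ :=
      k8b_iter_num K ζ r Cn Cr Cs ε hK1 hζ0 hζ1 hζr hr1 hCn hCr hCs hε C e δ1 δ2 hC he hδ1 hδ2
    set K' : ℝ := C * K ^ C * ζ ^ (-ε) with hK'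
    have h1ch : K8bCh K ν c E1 F := k8b_ch_sub h hE1m hE1sub
    obtain ⟨W, hWm, hWmass, hWrow⟩ := hrow Λ ν c E1 F K ζ r δ1 h1ch hζ0 hζr hr1 (k8b_mix_sub hmix hE1sub)
      (k8b_cnt_sub (hcnt k0 hk0) hr0 hE1sub le_rfl) hδ10 hE1mass
    set E2 : Set (Λ × ℝ) := k5_rt E1 W with hE2
    have hE2m : MeasurableSet E2 := k5_meas_rt hE1m hWm
    have hE2sub : E2 ⊆ E1 := fun x hx => hx.1
    have h2ch : K8bCh K ν c E2 F := k8b_ch_sub h1ch hE2m hE2sub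
    have hδ20 : 0 < δ2 := by rw [hδ2]; positivity
    obtain ⟨E3, hE3m, hE3sub, hE3mass, hE3slope, hE3bin⟩ := hslope Λ ν c E2 F K ζ r δ2 h2ch hζ0 hζr hr1
      (k8b_mix_sub hmix (hE2sub.trans hE1sub)) (k8b_sup_sub (hsup k0 hk0) hr0 (hE2sub.trans hE1sub) le_rfl) hδ20 hWmass
    set U : ℝ := Cs * (K / δ2) ^ Cs with hU
    have hU0 : 0 < U := by
      have : 0 < (K / δ2) ^ Cs := Real.rpow_pos_of_pos (by positivity) _
      rw [hU]; positivity
    have hrε : 0 < r ^ (-(ε / 2)) := Real.rpow_pos_of_pos hr0 _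
    have hK'0 : 0 < K' := lt_of_lt_of_le hK0 hN4
    have hE3E : E3 ⊆ E := hE3sub.trans (hE2sub.trans hE1sub)
    have hregOld : K8bReg d K' ζ ks' ν c E3 F := k8b_reg_sub hE1reg hζ0 hE3m (hE3sub.trans hE2sub) hN1
    refine ⟨E3, hE3m, hE3E, le_trans ?_ hE3mass, ?_⟩
    · -- the density
      have e1 : ζ ^ ε / (C * K ^ C) = 1 / K' := by
        rw [hK', Real.rpow_neg hζ0.le]
        have : 0 < ζ ^ ε := Real.rpow_pos_of_pos hζ0 _
        have h2 : 0 < K ^ C := Real.rpow_pos_of_pos hK0 _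
        field_simp
      have e2 : r ^ (ε / 2) / U = 1 / (U * r ^ (-(ε / 2))) := by
        rw [Real.rpow_neg hr0.le]
        have : 0 < r ^ (ε / 2) := Real.rpow_pos_of_pos hr0 _
        field_simp
      rw [e1, e2]
      exact one_div_le_one_div_of_le (by positivity) hN3
    · refine ⟨k8b_ch_mono (k8b_ch_sub h hE3m hE3E) hN4, k8b_mix_mono (k8b_mix_sub hmix hE3E) hζ0 hN4, ?_, ?_, ?_, ?_⟩
      · intro k hk
        exact k8b_cnt_sub (hcnt k hk) (by positivity) hE3E hN4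
      · intro k hk l t l' u h1 h2 h3
        by_cases hkk : k = k0
        · subst hkk
          have ht : t ∈ W := (hE3sub h1).2
          have hu : u ∈ W := (hE3sub h2).2
          exact (hWrow t ht u hu h3).trans (mul_le_mul_of_nonneg_right hN2 hr0.le)
        · exact hregOld.row k (Finset.mem_erase.2 ⟨hkk, hk⟩) l t l' u h1 h2 h3
      · intro k hk
        by_cases hkk : k = k0
        · subst hkk; exact hE3slope
        · exact hregOld.slope k (Finset.mem_erase.2 ⟨hkk, hk⟩)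
      · intro k hk
        by_cases hkk : k = k0
        · subst hkk
          intro l t hlt
          refine le_trans ?_ (hE3bin l t hlt)
          have e3 : r ^ (2 + d + ε / 2) / U = r ^ (2 + d) / (U * r ^ (-(ε / 2))) := by
            rw [Real.rpow_add hr0 (2 + d), Real.rpow_neg hr0.le]
            have : 0 < r ^ (ε / 2) := Real.rpow_pos_of_pos hr0 _
            field_simp
          rw [e3]
          exact div_le_div_of_nonneg_left (Real.rpow_nonneg hr0.le _) (by positivity) hN3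
        · exact hregOld.bin k (Finset.mem_erase.2 ⟨hkk, hk⟩)

/-- **L-252-S8b-E1** (~500 l.).   ALL TESTED SCALES.   First `k8b_scalar_floor` + `k8b_local_count` (all `k ∈ ks` at once), then induction over the `≤ n` scales: `k8b_row_scale` (restrict the times), `k8b_slope_scale` with `ε/n`.
All hypotheses and all properties already obtained are upper bounds / pointwise / prior floors: they persist.   The density goes `δ ↦ δ²/8 ↦ r^(ε/n)/(C(K/δ)^C)`: after `n` rounds `≥ ζ^ε/(C' K^C')`, `C' = C'(d, n, ε)`. -/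
theorem k8b_iter (d : ℝ) (hd0 : 0 ≤ d) (hd : d < 1) (n : ℕ) (ε : ℝ) (hε : 0 < ε) :
    ∃ C : ℝ, 1 ≤ C ∧ ∀ (Λ : Type) [MeasurableSpace Λ] (ν : Measure Λ) (c : Λ → k5_Co 2) (E : Set (Λ × ℝ))
      (F : ℝ → Fin 2 → ℝ) (K ζ : ℝ) (ks : Finset ℕ), K8bCh K ν c E F → 0 < ζ → ζ ≤ 1 → k8bMix d K ζ ν c E →
      ks.card ≤ n → (∀ k ∈ ks, ζ ≤ (1 / 2 : ℝ) ^ k) → (∀ k ∈ ks, k8bSup d K ((1 / 2 : ℝ) ^ k) c E F) →
      1 / K ≤ k5_mass ν E →
      ∃ E' : Set (Λ × ℝ), MeasurableSet E' ∧ E' ⊆ E ∧ ζ ^ ε / (C * K ^ C) ≤ k5_mass ν E' ∧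
        K8bReg d (C * K ^ C * ζ ^ (-ε)) ζ ks ν c E' F := by
  obtain ⟨C1, hC1, haux⟩ := k8b_iter_aux d hd0 hd n ε hε
  set A : ℝ := 600 * ((n : ℝ) + 1) with hA
  have hA1 : 1 ≤ A := by
    have : (0 : ℝ) ≤ n := Nat.cast_nonneg n
    rw [hA]; linarith
  have hA0 : 0 < A := by linarith
  have hAC : 1 ≤ A ^ C1 := Real.one_le_rpow hA1 (by linarith)
  set C : ℝ := C1 * A ^ C1 + 6 * C1 with hC
  have hCa : C1 * A ^ C1 ≤ C := by rw [hC]; linarith
  have hCb : 6 * C1 ≤ C := by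
    have : 0 ≤ C1 * A ^ C1 := by positivity
    rw [hC]; linarith
  have hCone : 1 ≤ C := by linarith
  refine ⟨C, hCone, ?_⟩
  intro Λ _ ν c E F K ζ ks h hζ0 hζ1 hmix hcard hscale hsup hmass
  have := h.prob
  have hK1 := h.K1
  have hK0 : 0 < K := by linarith
  set Kt : ℝ := A * K ^ 6 with hKt
  have hK6 : K ≤ K ^ 6 := by
    have : K ^ 1 ≤ K ^ 6 := pow_le_pow_right₀ hK1 (by norm_num)
    simpa using this
  have hKKt : K ≤ Kt := by rw [hKt]; nlinarith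
  have hKt0 : 0 < Kt := by linarith
  -- conversion of the constants
  have hconv : C1 * Kt ^ C1 ≤ C * K ^ C := by
    have e1 : Kt ^ C1 = A ^ C1 * K ^ (6 * C1) := by
      rw [hKt, Real.mul_rpow hA0.le (by positivity), ← Real.rpow_natCast K 6, ← Real.rpow_mul hK0.le]
      norm_num
    rw [e1]
    have h1 : K ^ (6 * C1) ≤ K ^ C := Real.rpow_le_rpow_of_exponent_le hK1 hCb
    calc C1 * (A ^ C1 * K ^ (6 * C1)) = C1 * A ^ C1 * K ^ (6 * C1) := by ring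
      _ ≤ C * K ^ C := mul_le_mul hCa h1 (Real.rpow_pos_of_pos hK0 _).le (by linarith)
  have hfin : ∀ E0 : Set (Λ × ℝ), MeasurableSet E0 → E0 ⊆ E → 1 / Kt ≤ k5_mass ν E0 →
      (∀ k ∈ ks, k8bCnt d Kt ((1 / 2 : ℝ) ^ k) c E0 F) →
      ∃ E' : Set (Λ × ℝ), MeasurableSet E' ∧ E' ⊆ E ∧ ζ ^ ε / (C * K ^ C) ≤ k5_mass ν E' ∧
        K8bReg d (C * K ^ C * ζ ^ (-ε)) ζ ks ν c E' F := by
    intro E0 hE0m hE0sub hE0mass hE0cnt
    obtain ⟨E', hE'm, hE'sub, hE'mass, hE'reg⟩ := haux Λ ν c E0 F Kt ζ ks (k8b_ch_mono (k8b_ch_sub h hE0m hE0sub) hKKt)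
      hζ0 hζ1 (k8b_mix_mono (k8b_mix_sub hmix hE0sub) hζ0 hKKt) hcard hscale
      (fun k hk => k8b_sup_sub (hsup k hk) (by positivity) hE0sub hKKt) hE0cnt hE0mass
    have hzp : 0 < ζ ^ ε := Real.rpow_pos_of_pos hζ0 _
    have hzn : 0 < ζ ^ (-ε) := Real.rpow_pos_of_pos hζ0 _
    have hpos : 0 < C1 * Kt ^ C1 := by
      have := Real.rpow_pos_of_pos hKt0 C1
      positivity
    refine ⟨E', hE'm, hE'sub.trans hE0sub, le_trans ?_ hE'mass, ?_⟩
    · exact div_le_div_of_nonneg_left hzp.le hpos hconv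
    · exact k8b_reg_sub hE'reg hζ0 hE'm Subset.rfl (mul_le_mul_of_nonneg_right hconv hzn.le)
  rcases ks.eq_empty_or_nonempty with hks | hne
  · subst hks
    refine hfin E h.mE Subset.rfl ?_ (by simp)
    exact le_trans (one_div_le_one_div_of_le hK0 hKKt) hmass
  · have hδ : (0 : ℝ) < 1 / K := by positivity
    obtain ⟨E0, hE0m, hE0sub, hE0mass, hE0fl⟩ := k8b_scalar_floor h d (1 / K) ks hne hsup hδ hmass
    have h0ch : K8bCh K ν c E0 F := k8b_ch_sub h hE0m hE0sub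
    have hcardpos : (0 : ℝ) < ks.card := by exact_mod_cast Finset.card_pos.2 hne
    have hcardn : (ks.card : ℝ) ≤ n := by exact_mod_cast hcard
    refine hfin E0 hE0m hE0sub ?_ ?_
    · refine le_trans ?_ hE0mass
      rw [div_div, one_div_le_one_div hKt0 (by positivity)]
      rw [hKt]
      have : (0 : ℝ) ≤ n := Nat.cast_nonneg n
      nlinarith
    · intro k hk
      set w : ℝ := (1 / 2 : ℝ) ^ k with hw
      have hw0 : 0 < w := by rw [hw]; positivity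
      have hw1 : w ≤ 1 := by rw [hw]; exact pow_le_one₀ (by norm_num) (by norm_num)
      have hwd : 0 < w ^ d := Real.rpow_pos_of_pos hw0 _
      set θ : ℝ := w ^ d * (1 / K) / (2 * K * ks.card) with hθ
      have hθ0 : 0 < θ := by rw [hθ]; positivity
      have hc := k8b_local_count h0ch d ζ hd0 hζ0 (k8b_mix_sub hmix hE0sub) w θ (hscale k hk) hw1 hθ0 (hE0fl k hk)
      refine k8b_cnt_sub hc hw0 Subset.rfl ?_
      have e1 : 300 * K ^ 4 * w ^ d / θ = 600 * K ^ 6 * ks.card := by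
        rw [hθ]; field_simp; ring
      rw [e1, hKt, hA]
      have hK6' : 0 < K ^ 6 := by positivity
      nlinarith

theorem k8b_ip_step {ks : Finset ℕ} {kζ g : ℕ} (hG : k8bGrid ks kζ g) (P : ℕ → Prop) (h0 : P 0) :
    ∃ k ∈ ks, P k ∧ (k = kζ ∨ ∃ k' ∈ ks, k < k' ∧ k' ≤ k + g ∧ ¬ P k') := by
  classical
  have hne : (ks.filter P).Nonempty := ⟨0, Finset.mem_filter.2 ⟨hG.zero, h0⟩⟩
  obtain ⟨hk1, hk2⟩ := Finset.mem_filter.1 ((ks.filter P).max'_mem hne)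
  refine ⟨(ks.filter P).max' hne, hk1, hk2, ?_⟩
  by_cases hkz : (ks.filter P).max' hne = kζ
  · exact Or.inl hkz
  · obtain ⟨k', hk', h1, h2⟩ := hG.gap _ hk1 hkz
    refine Or.inr ⟨k', hk', h1, h2, fun hP => ?_⟩
    exact absurd ((ks.filter P).le_max' k' (Finset.mem_filter.2 ⟨hk', hP⟩)) (not_le.2 h1)

theorem k8b_ip_pow {k k' g : ℕ} (h1 : k < k') (h2 : k' ≤ k + g) : (1 / 2 : ℝ) ^ k ≤ 2 ^ g * (1 / 2 : ℝ) ^ k' := by
  obtain ⟨m, rfl⟩ := Nat.exists_eq_add_of_le h1.le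
  have hm : m ≤ g := by omega
  have h3 : (1 : ℝ) ≤ 2 ^ g * (1 / 2 : ℝ) ^ m := by
    calc (1 : ℝ) = (2 * (1 / 2 : ℝ)) ^ m := by norm_num
      _ = 2 ^ m * (1 / 2 : ℝ) ^ m := mul_pow _ _ _
      _ ≤ 2 ^ g * (1 / 2 : ℝ) ^ m := by
          refine mul_le_mul_of_nonneg_right (pow_le_pow_right₀ (by norm_num) hm) (by positivity)
  calc (1 / 2 : ℝ) ^ k = (1 / 2 : ℝ) ^ k * 1 := (mul_one _).symm
    _ ≤ (1 / 2 : ℝ) ^ k * (2 ^ g * (1 / 2 : ℝ) ^ m) := mul_le_mul_of_nonneg_left h3 (by positivity)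
    _ = 2 ^ g * (1 / 2 : ℝ) ^ (k + m) := by rw [pow_add]; ring

/-- the largest tested scale below `q` -/
theorem k8b_ip_below {ks : Finset ℕ} {kζ g : ℕ} (hG : k8bGrid ks kζ g) (q : ℝ) (hq : (1 / 2 : ℝ) ^ kζ ≤ q) (hq1 : q ≤ 1) :
    ∃ k ∈ ks, (1 / 2 : ℝ) ^ k ≤ q ∧ q ≤ 2 ^ g * (1 / 2 : ℝ) ^ k := by
  by_cases h0 : q < (1 / 2 : ℝ) ^ 0
  · obtain ⟨k, hk, hP, hor⟩ := k8b_ip_step hG (fun k => q < (1 / 2 : ℝ) ^ k) h0
    rcases hor with rfl | ⟨k', hk', h1, h2, hn⟩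
    · exact absurd hP (not_lt.2 hq)
    · exact ⟨k', hk', not_lt.1 hn, hP.le.trans (k8b_ip_pow h1 h2)⟩
  · refine ⟨0, hG.zero, not_lt.1 h0, ?_⟩
    rw [pow_zero, mul_one]
    exact hq1.trans (one_le_pow₀ (by norm_num))

/-- the smallest tested scale above `ρ` -/
theorem k8b_ip_above {ks : Finset ℕ} {kζ g : ℕ} (hG : k8bGrid ks kζ g) (ρ : ℝ) (h0 : 0 ≤ ρ) (h1 : ρ ≤ 1) :
    ∃ k ∈ ks, ρ ≤ (1 / 2 : ℝ) ^ k ∧ (1 / 2 : ℝ) ^ k ≤ 2 ^ g * (ρ + (1 / 2 : ℝ) ^ kζ) := by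
  have hL : (1 : ℝ) ≤ 2 ^ g := one_le_pow₀ (by norm_num)
  have hz : (0 : ℝ) < (1 / 2 : ℝ) ^ kζ := by positivity
  obtain ⟨k, hk, hP, hor⟩ := k8b_ip_step hG (fun k => ρ ≤ (1 / 2 : ℝ) ^ k) (by simpa using h1)
  refine ⟨k, hk, hP, ?_⟩
  rcases hor with rfl | ⟨k', hk', h2, h3, hn⟩
  · nlinarith
  · have h4 : (1 / 2 : ℝ) ^ k' < ρ := not_le.1 hn
    calc (1 / 2 : ℝ) ^ k ≤ 2 ^ g * (1 / 2 : ℝ) ^ k' := k8b_ip_pow h2 h3
      _ ≤ 2 ^ g * (ρ + (1 / 2 : ℝ) ^ kζ) := mul_le_mul_of_nonneg_left (by linarith) (by positivity)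

theorem k8b_ip_floor {i k : ℕ} (hik : i ≤ k) (x y : ℝ) (h : ⌊x / (1 / 2 : ℝ) ^ k⌋ = ⌊y / (1 / 2 : ℝ) ^ k⌋) :
    ⌊x / (1 / 2 : ℝ) ^ i⌋ = ⌊y / (1 / 2 : ℝ) ^ i⌋ := by
  obtain ⟨m, rfl⟩ := Nat.exists_eq_add_of_le hik
  have e : ∀ z : ℝ, z / (1 / 2 : ℝ) ^ i = z / (1 / 2 : ℝ) ^ (i + m) / ((2 ^ m : ℕ) : ℝ) := by
    intro z
    rw [pow_add]
    push_cast
    have h1 : (1 / 2 : ℝ) ^ m * 2 ^ m = 1 := by rw [← mul_pow]; norm_num
    have h2 : (0 : ℝ) < (1 / 2 : ℝ) ^ i := by positivity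
    rw [div_div, mul_assoc, h1, mul_one]
  rw [e x, e y, Int.floor_div_natCast, Int.floor_div_natCast, h]

theorem k8b_ip_cbin {i k : ℕ} (hik : i ≤ k) (c c' : k5_Co 2) (h : k5_cbin ((1 / 2 : ℝ) ^ k) c = k5_cbin ((1 / 2 : ℝ) ^ k) c') :
    k5_cbin ((1 / 2 : ℝ) ^ i) c = k5_cbin ((1 / 2 : ℝ) ^ i) c' := by
  unfold k5_cbin at h ⊢
  obtain ⟨h1, h2⟩ := Prod.ext_iff.1 h
  refine Prod.ext ?_ ?_
  · funext a
    exact k8b_ip_floor hik _ _ (congrFun h1 a)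
  · funext a b
    exact k8b_ip_floor hik _ _ (congrFun (congrFun h2 a) b)

/-- a `w`-bin meets at most two `q`-bins, `w ≤ q` -/
theorem k8b_ip_two (w q s : ℝ) (hw : 0 < w) (hwq : w ≤ q) :
    k5_bin q s = ⌊(k5_bin w s : ℝ) * w / q⌋ ∨ k5_bin q s = ⌊(k5_bin w s : ℝ) * w / q⌋ + 1 := by
  have hq : 0 < q := hw.trans_le hwq
  unfold k5_bin
  have h1 : (⌊s / w⌋ : ℝ) * w ≤ s := by
    have := Int.floor_le (s / w)
    rwa [le_div_iff₀ hw] at this
  have h2 : s < ((⌊s / w⌋ : ℝ) + 1) * w := by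
    have := Int.lt_floor_add_one (s / w)
    rwa [div_lt_iff₀ hw] at this
  have h3 : ⌊(⌊s / w⌋ : ℝ) * w / q⌋ ≤ ⌊s / q⌋ := Int.floor_le_floor (div_le_div_of_nonneg_right h1 hq.le)
  have h4 : ⌊s / q⌋ < ⌊(⌊s / w⌋ : ℝ) * w / q⌋ + 2 := by
    rw [Int.floor_lt]
    have h5 := Int.lt_floor_add_one ((⌊s / w⌋ : ℝ) * w / q)
    have h6 : s / q < (⌊s / w⌋ : ℝ) * w / q + 1 := by
      rw [div_lt_iff₀ hq, add_mul, div_mul_cancel₀ _ hq.ne']
      nlinarith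
    push_cast
    linarith
  omega

theorem k8b_ip_supp {Λ : Type} {c : Λ → k5_Co 2} {E : Set (Λ × ℝ)} {F : ℝ → Fin 2 → ℝ} {d K : ℝ} {ks : Finset ℕ} {kζ g : ℕ}
    (hd1 : d ≤ 1) (hK : 1 ≤ K) (hG : k8bGrid ks kζ g) (hcnt : ∀ k ∈ ks, k8bCnt d K ((1 / 2 : ℝ) ^ k) c E F) (t q r a : ℝ)
    (hq : (1 / 2 : ℝ) ^ kζ ≤ q) (hqr : q ≤ r) (hr1 : r ≤ 1) :
    ∃ Z : Finset ℤ, (Z.card : ℝ) ≤ 2 * K * 2 ^ g * (r / q) ^ d ∧
      ∀ l ∈ k5_sec E t, a ≤ k5_S (F t) (c l) t → k5_S (F t) (c l) t ≤ a + r → k5_bin q (k5_S (F t) (c l) t) ∈ Z := by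
  classical
  obtain ⟨k, hk, hw, hqw⟩ := k8b_ip_below hG q hq (hqr.trans hr1)
  obtain ⟨w, hwdef⟩ : ∃ w : ℝ, w = (1 / 2 : ℝ) ^ k := ⟨_, rfl⟩
  rw [← hwdef] at hw hqw
  have hw0 : 0 < w := by rw [hwdef]; positivity
  have hq0 : 0 < q := hw0.trans_le hw
  have hr0 : 0 < r := hq0.trans_le hqr
  have hc := hcnt k hk
  rw [← hwdef] at hc
  obtain ⟨Z, hZ, hZ2⟩ := hc t a r (hw.trans hqr) hr1
  refine ⟨Z.image (fun z : ℤ => ⌊(z : ℝ) * w / q⌋) ∪ Z.image (fun z : ℤ => ⌊(z : ℝ) * w / q⌋ + 1), ?_, ?_⟩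
  · have h1 : (((Z.image (fun z : ℤ => ⌊(z : ℝ) * w / q⌋) ∪ Z.image (fun z : ℤ => ⌊(z : ℝ) * w / q⌋ + 1)).card : ℕ) : ℝ) ≤ 2 * (Z.card : ℝ) := by
      have h0 := (Finset.card_union_le (Z.image (fun z : ℤ => ⌊(z : ℝ) * w / q⌋)) (Z.image (fun z : ℤ => ⌊(z : ℝ) * w / q⌋ + 1))).trans
        (add_le_add Finset.card_image_le Finset.card_image_le)
      have h0' : (Z.image (fun z : ℤ => ⌊(z : ℝ) * w / q⌋) ∪ Z.image (fun z : ℤ => ⌊(z : ℝ) * w / q⌋ + 1)).card ≤ 2 * Z.card := by omega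
      exact_mod_cast h0'
    have h2 : (r / w) ^ d ≤ 2 ^ g * (r / q) ^ d := by
      have e : r / w = (q / w) * (r / q) := by field_simp
      rw [e, Real.mul_rpow (by positivity) (by positivity)]
      refine mul_le_mul_of_nonneg_right ?_ (by positivity)
      have h3 : q / w ≤ 2 ^ g := by rw [div_le_iff₀ hw0]; exact hqw
      have h4 : 1 ≤ q / w := by rw [one_le_div hw0]; exact hw
      calc (q / w) ^ d ≤ (q / w) ^ (1 : ℝ) := Real.rpow_le_rpow_of_exponent_le h4 hd1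
        _ = q / w := Real.rpow_one _
        _ ≤ 2 ^ g := h3
    calc _ ≤ 2 * (Z.card : ℝ) := h1
      _ ≤ 2 * (K * (r / w) ^ d) := by linarith
      _ ≤ 2 * (K * (2 ^ g * (r / q) ^ d)) := by
          have : 0 ≤ K := by linarith
          gcongr
      _ = _ := by ring
  · intro l hl h1 h2
    have hz := hZ2 l hl h1 h2
    rcases k8b_ip_two w q (k5_S (F t) (c l) t) hw0 hw with h | h
    · rw [h]
      exact Finset.mem_union_left _ (Finset.mem_image_of_mem (fun z : ℤ => ⌊(z : ℝ) * w / q⌋) hz)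
    · rw [h]
      exact Finset.mem_union_right _ (Finset.mem_image_of_mem (fun z : ℤ => ⌊(z : ℝ) * w / q⌋ + 1) hz)

theorem k8b_ip_cap {Λ : Type} [MeasurableSpace Λ] {ν : Measure Λ} {c : Λ → k5_Co 2} {E : Set (Λ × ℝ)} {d K ζ : ℝ} (hmix : k8bMix d K ζ ν c E)
    (hζ : 0 < ζ) (t q a : ℝ) (e : Fin 2 → ℝ) (hq : ζ ≤ q) (hq1 : q ≤ 1) :
    ν.real {l | l ∈ k5_sec E t ∧ k5_InQ q a e (c l) t} ≤ K * q ^ (2 + d) := by
  have h := hmix t q q a e hq hq1 hq hq1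
  have hq0 : 0 < q := hζ.trans_le hq
  have e1 : {l | l ∈ k5_sec E t ∧ k5_InQ q a e (c l) t} = {l | (l, t) ∈ E ∧ k8bIn q q a e (c l) t} := by
    ext l
    unfold k5_sec k5_InQ k8bIn
    simp only [Set.mem_ofPred_eq]
    tauto
  rw [e1, Real.rpow_add hq0, Real.rpow_ofNat, ← mul_assoc]
  exact h

theorem k8b_ip_bcap {Λ : Type} [MeasurableSpace Λ] {ν : Measure Λ} {c : Λ → k5_Co 2} {E : Set (Λ × ℝ)} {F : ℝ → Fin 2 → ℝ} {d K : ℝ}
    {ks : Finset ℕ} {kζ g : ℕ} (hd0 : 0 ≤ d) (hd1 : d ≤ 1) (hG : k8bGrid ks kζ g) (hreg : K8bReg d K ((1 / 2 : ℝ) ^ kζ) ks ν c E F)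
    (t r : ℝ) (hr : r ∈ k5_Dy ((1 / 2 : ℝ) ^ kζ)) (q a : ℝ) (e : Fin 2 → ℝ) (B : (Fin 3 → ℤ) × (Fin 2 → Fin 2 → ℤ))
    (hq : (1 / 2 : ℝ) ^ kζ ≤ q) (hqr : q ≤ r) :
    ν.real {l | l ∈ k5_sec E t ∧ k5_cbin r (c l) = B ∧ k5_InQ q a e (c l) t}
      ≤ K ^ 2 * (2 ^ g) ^ 3 * (q / r) ^ (2 + d) * ν.real {l | k5_cbin r (c l) = B} := by
  have hprob := hreg.ch.prob
  have hK : 1 ≤ K := hreg.ch.K1
  have hK0 : 0 < K := by linarith
  have hL : (1 : ℝ) ≤ 2 ^ g := one_le_pow₀ (by norm_num)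
  have hζ : (0 : ℝ) < (1 / 2 : ℝ) ^ kζ := by positivity
  have hq0 : 0 < q := hζ.trans_le hq
  have hr0 : 0 < r := hq0.trans_le hqr
  by_cases hemp : {l | l ∈ k5_sec E t ∧ k5_cbin r (c l) = B ∧ k5_InQ q a e (c l) t} = ∅
  · rw [hemp, measureReal_empty]
    have : 0 ≤ (q / r) ^ (2 + d) := by positivity
    positivity
  · obtain ⟨l₀, hl₀E, hl₀B, -⟩ := Set.nonempty_iff_ne_empty.2 hemp
    obtain ⟨hζr, i, hri⟩ := hr
    have hr1 : r ≤ 1 := by rw [hri]; exact pow_le_one₀ (by norm_num) (by norm_num)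
    obtain ⟨k, hk, hw, hrw⟩ := k8b_ip_below hG r hζr hr1
    have hik : i ≤ k := by
      by_contra hcon
      have : (1 / 2 : ℝ) ^ i < (1 / 2 : ℝ) ^ k := pow_lt_pow_right_of_lt_one₀ (by norm_num) (by norm_num) (not_le.1 hcon)
      rw [hri] at hw
      linarith
    have hbin := hreg.bin k hk l₀ t hl₀E
    have hsub : {l' | k5_cbin ((1 / 2 : ℝ) ^ k) (c l') = k5_cbin ((1 / 2 : ℝ) ^ k) (c l₀)} ⊆ {l | k5_cbin r (c l) = B} := by
      intro l' hl'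
      show k5_cbin r (c l') = B
      rw [← hl₀B, hri]
      exact k8b_ip_cbin hik _ _ hl'
    have hνB : ((1 / 2 : ℝ) ^ k) ^ (2 + d) / K ≤ ν.real {l | k5_cbin r (c l) = B} := hbin.trans (measureReal_mono hsub)
    have hcap := k8b_ip_cap hreg.mix hζ t q a e hq (hqr.trans hr1)
    have hle : ν.real {l | l ∈ k5_sec E t ∧ k5_cbin r (c l) = B ∧ k5_InQ q a e (c l) t} ≤ ν.real {l | l ∈ k5_sec E t ∧ k5_InQ q a e (c l) t} :=
      measureReal_mono fun l hl => ⟨hl.1, hl.2.2⟩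
    obtain ⟨w, hwdef⟩ : ∃ w : ℝ, w = (1 / 2 : ℝ) ^ k := ⟨_, rfl⟩
    rw [← hwdef] at hw hrw hνB
    have hw0 : 0 < w := by rw [hwdef]; positivity
    have hp0 : 0 ≤ 2 + d := by linarith
    have h1 : q ^ (2 + d) = (q / r) ^ (2 + d) * r ^ (2 + d) := by
      rw [← Real.mul_rpow (by positivity) hr0.le, div_mul_cancel₀ _ hr0.ne']
    have h2 : r ^ (2 + d) ≤ (2 ^ g) ^ 3 * w ^ (2 + d) := by
      calc r ^ (2 + d) ≤ (2 ^ g * w) ^ (2 + d) := Real.rpow_le_rpow hr0.le hrw hp0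
        _ = ((2 : ℝ) ^ g) ^ (2 + d) * w ^ (2 + d) := Real.mul_rpow (by positivity) hw0.le
        _ ≤ ((2 : ℝ) ^ g) ^ (3 : ℝ) * w ^ (2 + d) :=
            mul_le_mul_of_nonneg_right (Real.rpow_le_rpow_of_exponent_le hL (by linarith)) (by positivity)
        _ = (2 ^ g) ^ 3 * w ^ (2 + d) := by rw [Real.rpow_ofNat]
    have h3 : w ^ (2 + d) ≤ K * ν.real {l | k5_cbin r (c l) = B} := by
      rw [div_le_iff₀ hK0] at hνB
      linarith
    have h4 : 0 ≤ (q / r) ^ (2 + d) := by positivity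
    calc _ ≤ K * q ^ (2 + d) := hle.trans hcap
      _ = K * ((q / r) ^ (2 + d) * r ^ (2 + d)) := by rw [h1]
      _ ≤ K * ((q / r) ^ (2 + d) * ((2 ^ g) ^ 3 * (K * ν.real {l | k5_cbin r (c l) = B}))) := by
          have h5 : r ^ (2 + d) ≤ (2 ^ g) ^ 3 * (K * ν.real {l | k5_cbin r (c l) = B}) :=
            h2.trans (mul_le_mul_of_nonneg_left h3 (by positivity))
          exact mul_le_mul_of_nonneg_left (mul_le_mul_of_nonneg_left h5 h4) hK0.le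
      _ = _ := by ring

theorem k8b_ip_rowc {Λ : Type} [MeasurableSpace Λ] {ν : Measure Λ} {c : Λ → k5_Co 2} {E : Set (Λ × ℝ)} {F : ℝ → Fin 2 → ℝ} {d K : ℝ}
    {ks : Finset ℕ} {kζ g : ℕ} (hG : k8bGrid ks kζ g) (hreg : K8bReg d K ((1 / 2 : ℝ) ^ kζ) ks ν c E F)
    (l : Λ) (t : ℝ) (l' : Λ) (u : ℝ) (h1 : (l, t) ∈ E) (h2 : (l', u) ∈ E) :
    ‖F t - F u‖ ≤ K * 2 ^ g * (|t - u| + (1 / 2 : ℝ) ^ kζ) := by
  have hK : 1 ≤ K := hreg.ch.K1
  have ht := hreg.ch.tI l t h1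
  have hu := hreg.ch.tI l' u h2
  have hρ : |t - u| ≤ 1 := by rw [abs_le]; constructor <;> linarith [ht.1, ht.2, hu.1, hu.2]
  obtain ⟨k, hk, h3, h4⟩ := k8b_ip_above hG |t - u| (abs_nonneg _) hρ
  calc ‖F t - F u‖ ≤ K * (1 / 2 : ℝ) ^ k := hreg.row k hk l t l' u h1 h2 h3
    _ ≤ K * (2 ^ g * (|t - u| + (1 / 2 : ℝ) ^ kζ)) := mul_le_mul_of_nonneg_left h4 (by linarith)
    _ = _ := by ring

theorem k8b_ip_R {Λ : Type} {c : Λ → k5_Co 2} (hfl : k8bFlat c) (f : Fin 2 → ℝ) (l : Λ) (t : ℝ) :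
    k5_R f (c l) t = (c l).1 1 := by
  obtain ⟨h1, h2⟩ := hfl l
  unfold k5_R k5_yd k5_xD
  rw [h1, h2]
  simp

theorem k8b_ip_resc {Λ : Type} [MeasurableSpace Λ] {ν : Measure Λ} {c : Λ → k5_Co 2} {E : Set (Λ × ℝ)} {F : ℝ → Fin 2 → ℝ} {d K : ℝ}
    {ks : Finset ℕ} {kζ g : ℕ} (hG : k8bGrid ks kζ g) (hreg : K8bReg d K ((1 / 2 : ℝ) ^ kζ) ks ν c E F)
    (l : Λ) (t : ℝ) (l' : Λ) (u : ℝ) (h1 : (l, t) ∈ E) (h2 : (l', u) ∈ E) :
    |k5_R (F t) (c l) t - k5_R (F u) (c l') u|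
      ≤ 2 * K * 2 ^ g * (|t - u| + |k5_x (c l) t - k5_x (c l') u| + ‖k5_y (c l) t - k5_y (c l') u‖ + (1 / 2 : ℝ) ^ kζ) := by
  have hK : 1 ≤ K := hreg.ch.K1
  have hL : (1 : ℝ) ≤ 2 ^ g := one_le_pow₀ (by norm_num)
  have hz : (0 : ℝ) < (1 / 2 : ℝ) ^ kζ := by positivity
  rw [k8b_ip_R hreg.ch.flat, k8b_ip_R hreg.ch.flat]
  obtain ⟨A, hA⟩ : ∃ A : ℝ, A = |t - u| := ⟨_, rfl⟩
  obtain ⟨B, hB⟩ : ∃ B : ℝ, B = |k5_x (c l) t - k5_x (c l') u| := ⟨_, rfl⟩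
  obtain ⟨D, hD⟩ : ∃ D : ℝ, D = ‖k5_y (c l) t - k5_y (c l') u‖ := ⟨_, rfl⟩
  have hA0 : 0 ≤ A := by rw [hA]; exact abs_nonneg _
  have hB0 : 0 ≤ B := by rw [hB]; exact abs_nonneg _
  have hD0 : 0 ≤ D := by rw [hD]; exact norm_nonneg _
  rw [← hA, ← hB, ← hD]
  have hKL : 1 ≤ K * 2 ^ g := by nlinarith
  by_cases hρ : A + B + D ≤ 1
  · obtain ⟨k, hk, h3, h4⟩ := k8b_ip_above hG (A + B + D) (by positivity) hρ
    have h5 := hreg.slope k hk l t l' u h1 h2 (by rw [← hA]; linarith) (by rw [← hB]; linarith) (by rw [← hD]; linarith)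
    calc |(c l).1 1 - (c l').1 1| ≤ (1 / 2 : ℝ) ^ k := h5
      _ ≤ 2 ^ g * (A + B + D + (1 / 2 : ℝ) ^ kζ) := h4
      _ ≤ 2 * K * 2 ^ g * (A + B + D + (1 / 2 : ℝ) ^ kζ) := by
          refine mul_le_mul_of_nonneg_right ?_ (by positivity)
          nlinarith
  · have hb : ∀ m : Λ, |(c m).1 1| ≤ K := by
      intro m
      calc |(c m).1 1| = ‖(c m).1 1‖ := (Real.norm_eq_abs _).symm
        _ ≤ ‖(c m).1‖ := norm_le_pi_norm _ _
        _ ≤ ‖c m‖ := norm_fst_le _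
        _ ≤ K := hreg.ch.cb m
    have h3 : |(c l).1 1 - (c l').1 1| ≤ 2 * K := by
      calc |(c l).1 1 - (c l').1 1| ≤ |(c l).1 1| + |(c l').1 1| := abs_sub _ _
        _ ≤ 2 * K := by linarith [hb l, hb l']
    have h4 : 1 ≤ A + B + D + (1 / 2 : ℝ) ^ kζ := by linarith [not_le.1 hρ]
    calc |(c l).1 1 - (c l').1 1| ≤ 2 * K := h3
      _ ≤ 2 * K * 2 ^ g * (A + B + D + (1 / 2 : ℝ) ^ kζ) := by
          have : 2 * K ≤ 2 * K * 2 ^ g := by nlinarith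
          nlinarith

/-- **L-252-S8b-E2** (~500 l.).   INTERPOLATION (08 l.621-623, 693-696): the tested scales give Definition 5.2 with ONE factor `(2^g)^C₀`.   `ζ = (1/2)^kζ`, `Lam = 2^g`.
`supp` at `(q, r)`: the largest tested `w ≤ q` has `q/w < Lam`; a `w`-bin meets `≤ 2` `q`-bins: `card ≤ 2 K (r/w)^d`.   `cap`: `k8bMix` with `r = w = q`.
`bcap` at a dyadic `r`: if the left set is non-empty take `l` in it and the largest tested `w ≤ r`: the `w`-bin of `c l` lies in `B` (dyadic nesting), so `ν(B) ≥ (r/Lam)^(2+d)/K`; left side `≤ K q^(2+d)`.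
`rowc`, `resc` (`k5_R = (c l).1 1` by flatness): distance `ρ ≤ 1`: the smallest tested `r ≥ ρ` is `≤ Lam (ρ + ζ)`; `ρ > 1`: trivial bound `2K`. -/
theorem k8b_interp :
    ∃ C₀ : ℝ, 1 ≤ C₀ ∧ ∀ (Λ : Type) [MeasurableSpace Λ] (ν : Measure Λ) (c : Λ → k5_Co 2) (E : Set (Λ × ℝ))
      (F : ℝ → Fin 2 → ℝ) (d K : ℝ) (ks : Finset ℕ) (kζ g : ℕ), 0 ≤ d → d ≤ 1 → k8bGrid ks kζ g →
      K8bReg d K ((1 / 2 : ℝ) ^ kζ) ks ν c E F →
      k5_Snd 2 d (C₀ * K ^ C₀ * ((2 : ℝ) ^ g) ^ C₀) ((1 / 2 : ℝ) ^ kζ) ν c E F := by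
  refine ⟨3, by norm_num, ?_⟩
  intro Λ _ ν c E F d K ks kζ g hd0 hd1 hG hreg
  have hK : 1 ≤ K := hreg.ch.K1
  have hK0 : 0 < K := by linarith
  have hL : (1 : ℝ) ≤ 2 ^ g := one_le_pow₀ (by norm_num)
  have hz : (0 : ℝ) < (1 / 2 : ℝ) ^ kζ := by positivity
  rw [Real.rpow_ofNat, Real.rpow_ofNat]
  obtain ⟨L, hLdef⟩ : ∃ L : ℝ, L = 2 ^ g := ⟨_, rfl⟩
  have hK2 : K ≤ K ^ 2 := by nlinarith
  have hK3 : K ^ 2 ≤ K ^ 3 := by nlinarith [sq_nonneg K]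
  have hL3 : (2 : ℝ) ^ g ≤ ((2 : ℝ) ^ g) ^ 3 := by
    rw [← hLdef] at hL ⊢
    nlinarith [sq_nonneg L, mul_nonneg (sub_nonneg.2 hL) (sub_nonneg.2 hL)]
  have hL31 : (1 : ℝ) ≤ ((2 : ℝ) ^ g) ^ 3 := hL.trans hL3
  have hK31 : K ≤ K ^ 3 := hK2.trans hK3
  have hKL : K * 2 ^ g ≤ K ^ 3 * ((2 : ℝ) ^ g) ^ 3 := mul_le_mul hK31 hL3 (by positivity) (by positivity)
  have hb1 : K ≤ 3 * K ^ 3 * ((2 : ℝ) ^ g) ^ 3 := by
    have : K * 1 ≤ K ^ 3 * ((2 : ℝ) ^ g) ^ 3 := mul_le_mul hK31 hL31 (by positivity) (by positivity)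
    have h0 : 0 ≤ K ^ 3 * ((2 : ℝ) ^ g) ^ 3 := by positivity
    linarith
  have hb2 : 2 * K * 2 ^ g ≤ 3 * K ^ 3 * ((2 : ℝ) ^ g) ^ 3 := by
    have h0 : 0 ≤ K ^ 3 * ((2 : ℝ) ^ g) ^ 3 := by positivity
    linarith
  have hb2' : K * 2 ^ g ≤ 3 * K ^ 3 * ((2 : ℝ) ^ g) ^ 3 := by
    have h0 : 0 ≤ K ^ 3 * ((2 : ℝ) ^ g) ^ 3 := by positivity
    linarith
  have hb3 : K ^ 2 * ((2 : ℝ) ^ g) ^ 3 ≤ 3 * K ^ 3 * ((2 : ℝ) ^ g) ^ 3 := by
    have : K ^ 2 * ((2 : ℝ) ^ g) ^ 3 ≤ K ^ 3 * ((2 : ℝ) ^ g) ^ 3 := mul_le_mul_of_nonneg_right hK3 (by positivity)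
    have h0 : 0 ≤ K ^ 3 * ((2 : ℝ) ^ g) ^ 3 := by positivity
    linarith
  refine ⟨hreg.ch.prob, hreg.ch.mc, hreg.ch.mE, hreg.ch.mF, hreg.ch.tI, fun l => (hreg.ch.cb l).trans hb1, ?_, ?_, ?_⟩
  · intro t ht0 ht1
    refine ⟨hz, ht0, ht1.le, (hreg.ch.Fb t).trans hb1, ?_, ?_, ?_⟩
    · intro q r a hq hqr hr1
      obtain ⟨Z, hZ1, hZ2⟩ := k8b_ip_supp hd1 hK hG hreg.cnt t q r a hq hqr hr1
      refine ⟨Z, hZ1.trans ?_, hZ2⟩
      have hq0 : 0 < q := hz.trans_le hq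
      have hr0 : 0 < r := hq0.trans_le hqr
      exact mul_le_mul_of_nonneg_right hb2 (by positivity)
    · intro q a e hq hq1
      have hq0 : 0 < q := hz.trans_le hq
      rw [Nat.cast_ofNat]
      exact (k8b_ip_cap hreg.mix hz t q a e hq hq1).trans (mul_le_mul_of_nonneg_right hb1 (by positivity))
    · intro r hr q a e B hq hqr
      have hq0 : 0 < q := hz.trans_le hq
      have hr0 : 0 < r := hq0.trans_le hqr
      rw [Nat.cast_ofNat]
      refine (k8b_ip_bcap hd0 hd1 hG hreg t r hr q a e B hq hqr).trans ?_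
      refine mul_le_mul_of_nonneg_right (mul_le_mul_of_nonneg_right hb3 (by positivity)) measureReal_nonneg
  · intro l t l' u h1 h2
    refine (k8b_ip_rowc hG hreg l t l' u h1 h2).trans (mul_le_mul_of_nonneg_right hb2' (by positivity))
  · intro l t l' u h1 h2
    refine (k8b_ip_resc hG hreg l t l' u h1 h2).trans (mul_le_mul_of_nonneg_right hb2 (by positivity))

/-- **EXIT of the regularisation** (L-252-S8b-E3, glue ~100 l.: `k8b_iter` with `ε/C₀`, then `k8b_interp`). -/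
theorem k8b_snd (d : ℝ) (hd0 : 0 ≤ d) (hd : d < 1) :
    ∃ C₀ : ℝ, 1 ≤ C₀ ∧ ∀ (n : ℕ) (ε : ℝ), 0 < ε → ∃ C : ℝ, 1 ≤ C ∧
      ∀ (Λ : Type) [MeasurableSpace Λ] (ν : Measure Λ) (c : Λ → k5_Co 2) (E : Set (Λ × ℝ)) (F : ℝ → Fin 2 → ℝ) (K : ℝ)
        (ks : Finset ℕ) (kζ g : ℕ), k8bGrid ks kζ g → ks.card ≤ n → K8bCh K ν c E F →
        k8bMix d K ((1 / 2 : ℝ) ^ kζ) ν c E → (∀ k ∈ ks, k8bSup d K ((1 / 2 : ℝ) ^ k) c E F) → 1 / K ≤ k5_mass ν E →
        ∃ E' : Set (Λ × ℝ), MeasurableSet E' ∧ E' ⊆ E ∧ ((1 / 2 : ℝ) ^ kζ) ^ ε / (C * K ^ C) ≤ k5_mass ν E' ∧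
          k5_Snd 2 d (C * K ^ C * ((1 / 2 : ℝ) ^ kζ) ^ (-ε) * ((2 : ℝ) ^ g) ^ C₀) ((1 / 2 : ℝ) ^ kζ) ν c E' F := by
  obtain ⟨C₀, hC₀, hint⟩ := k8b_interp
  refine ⟨C₀, hC₀, ?_⟩
  intro n ε hε
  have hC₀0 : 0 < C₀ := by linarith
  obtain ⟨C2, hC2, hit⟩ := k8b_iter d hd0 hd n (ε / C₀) (by positivity)
  have hC20 : 0 < C2 := by linarith
  have hC2p : 1 ≤ C2 ^ C₀ := Real.one_le_rpow hC2 hC₀0.le
  set C : ℝ := max (C₀ * C2 ^ C₀) (C2 * C₀) with hC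
  have hCa : C₀ * C2 ^ C₀ ≤ C := le_max_left _ _
  have hCb : C2 * C₀ ≤ C := le_max_right _ _
  have hC2C : C2 ≤ C := le_trans (by nlinarith) hCb
  have hC1 : 1 ≤ C := hC2.trans hC2C
  refine ⟨C, hC1, ?_⟩
  intro Λ _ ν c E F K ks kζ g hgrid hcard h hmix hsup hmass
  set ζ : ℝ := (1 / 2 : ℝ) ^ kζ with hζ
  have hζ0 : 0 < ζ := by rw [hζ]; positivity
  have hζ1 : ζ ≤ 1 := by rw [hζ]; exact pow_le_one₀ (by norm_num) (by norm_num)
  have hK1 : 1 ≤ K := h.K1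
  have hK0 : 0 < K := by linarith
  obtain ⟨E', hE'm, hE'sub, hE'mass, hreg⟩ := hit Λ ν c E F K ζ ks h hζ0 hζ1 hmix hcard
    (fun k hk => by
      rw [hζ]
      exact pow_le_pow_of_le_one (by norm_num) (by norm_num) (hgrid.le k hk)) hsup hmass
  have hKC : K ^ C2 ≤ K ^ C := Real.rpow_le_rpow_of_exponent_le hK1 hC2C
  have hKC2pos : 0 < K ^ C2 := Real.rpow_pos_of_pos hK0 _
  have hKCpos : 0 < K ^ C := Real.rpow_pos_of_pos hK0 _
  refine ⟨E', hE'm, hE'sub, ?_, ?_⟩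
  · refine le_trans ?_ hE'mass
    have h1 : ζ ^ ε ≤ ζ ^ (ε / C₀) := by
      refine Real.rpow_le_rpow_of_exponent_ge hζ0 hζ1 ?_
      rw [div_le_iff₀ hC₀0]
      nlinarith
    have h2 : C2 * K ^ C2 ≤ C * K ^ C := mul_le_mul hC2C hKC hKC2pos.le (by linarith)
    have h3 : 0 < ζ ^ ε := Real.rpow_pos_of_pos hζ0 _
    calc ζ ^ ε / (C * K ^ C) ≤ ζ ^ ε / (C2 * K ^ C2) :=
          div_le_div_of_nonneg_left h3.le (by positivity) h2
      _ ≤ ζ ^ (ε / C₀) / (C2 * K ^ C2) := div_le_div_of_nonneg_right h1 (by positivity)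
  · have hsnd := hint Λ ν c E' F d (C2 * K ^ C2 * ζ ^ (-(ε / C₀))) ks kζ g hd0 hd.le hgrid hreg
    have hζp : 0 < ζ ^ (-(ε / C₀)) := Real.rpow_pos_of_pos hζ0 _
    have h2g : 0 < ((2 : ℝ) ^ g) ^ C₀ := Real.rpow_pos_of_pos (by positivity) _
    refine k5_snd_mono_K hsnd (by positivity) ?_
    have e1 : (C2 * K ^ C2 * ζ ^ (-(ε / C₀))) ^ C₀ = C2 ^ C₀ * K ^ (C2 * C₀) * ζ ^ (-ε) := by
      rw [Real.mul_rpow (by positivity) hζp.le, Real.mul_rpow hC20.le hKC2pos.le, ← Real.rpow_mul hK0.le,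
        ← Real.rpow_mul hζ0.le]
      congr 2
      field_simp
    rw [e1]
    have h4 : K ^ (C2 * C₀) ≤ K ^ C := Real.rpow_le_rpow_of_exponent_le hK1 hCb
    have h5 : C₀ * C2 ^ C₀ * K ^ (C2 * C₀) ≤ C * K ^ C :=
      mul_le_mul hCa h4 (Real.rpow_pos_of_pos hK0 _).le (by linarith)
    have h6 : 0 < ζ ^ (-ε) := Real.rpow_pos_of_pos hζ0 _
    calc C₀ * (C2 ^ C₀ * K ^ (C2 * C₀) * ζ ^ (-ε)) * ((2 : ℝ) ^ g) ^ C₀
        = (C₀ * C2 ^ C₀ * K ^ (C2 * C₀)) * ζ ^ (-ε) * ((2 : ℝ) ^ g) ^ C₀ := by ring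
      _ ≤ C * K ^ C * ζ ^ (-ε) * ((2 : ℝ) ^ g) ^ C₀ := by gcongr

end Claimed.Agent.R252
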