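import Claimed.Agent.R252.S8.Floor
import Claimed.Agent.R252.S8b.RegContract
import Claimed.Agent.R252.S7b.P5Band
import Claimed.Agent.R252.S7b.P5Box

/-!
# Row 252, Sec. 8, 08 l.452-714: ONE BOOTSTRAP STEP, part 1: THE CHARTS OF A FULL-TIME LABELLING.   CONTRACT      (sub-architect helper98; prefix `k8b` / `K8b`)

Everything is ONE-SCALE and PAPER-FREE: horizontal record `H : K7bHor`, `c : K7bPar` (`S7b/HorDefs`, `HorGrp`), labellings `F : K8Lab H` (`S8/Defs`), chart model of `S8b/Defs` (= measure model of `S5/Defs`, `j = 2`).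
A CHART = one label `x = (group g, predictor h)` of `F`.   `a = c.a s` (thickness `a₀`), `D` = parameter width, `P_c = (g.2.1 D, g.2.2 D)`, `v_c = g.1 χ`.
* `F.ch χ D x`            the trajectories of the chart      (`F.asg χ D l₀ = F.ch χ D (F.lb χ D l₀)` by `rfl`)
* `k8bCo H D a x l`       normalised coefficients `y = (P - P_c)/D` (static), `x̄ = (x - h(t,P))/a` (affine);   `k8bCC` = the same, `0` outside the chart
* `k8bRow D a h L t`      the row `F(t) = ∇_y (𝓛 - h)/a`, `𝓛(t,P) = L(t, p + t v_c, q - t p)`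
* `k8bNu`, `k8bLa`        `ν_H = ν( · | chart)`, `λ_H = lam|(E ∩ chart) / ν(chart)`
* `K8bSel`                ONE true label and ONE entry of depth `s` per (label of `F`, time block)      (08 l.475)
* `k8bNew`                the new predictor `h + a (z w + f·y + (t - t_*) (z' w + A·y))`      (08 l.705)
* `K8bRel c X s D ζ`      mesh relations with room `X`
Leaves `L-252-S8b-S*`: complete proofs in the docstrings; a leaf may cite everything above it (also sorried statements).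
-/

set_option autoImplicit false

namespace Claimed.Agent.R252

open MeasureTheory Set
open scoped ENNReal BigOperators

noncomputable section

/-! ## 0. Definitions -/

/-- the label of a trajectory -/
def K8Lab.lb {H : K7bHor} (F : K8Lab H) (χ D : ℝ) (l : H.Lam) : (ℤ × ℤ × ℤ) × K8Pr := (H.grp χ D l, F.pr l)

/-- the trajectories of the chart `x` -/
def K8Lab.ch {H : K7bHor} (F : K8Lab H) (χ D : ℝ) (x : (ℤ × ℤ × ℤ) × K8Pr) : Set H.Lam :=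
  {l | l ∈ F.dom ∧ H.grp χ D l = x.1 ∧ F.pr l = x.2}

/-- the incidences of the chart `x` -/
def K8Lab.chI {H : K7bHor} (F : K8Lab H) (χ D : ℝ) (x : (ℤ × ℤ × ℤ) × K8Pr) : Set (H.Lam × ℝ) := {z | z.1 ∈ F.ch χ D x}

/-- normalised coefficients in the chart `x` -/
def k8bCo (H : K7bHor) (D a : ℝ) (x : (ℤ × ℤ × ℤ) × K8Pr) (l : H.Lam) : k5_Co 2 :=
  (![(H.x0 l - (x.2.c0 + x.2.p0 * H.p l + x.2.q0 * H.q0 l)) / a, (H.x1 l - (x.2.c1 + x.2.p1 * H.p l + x.2.q1 * H.q0 l)) / a, 0],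
   ![![(H.p l - x.1.2.1 * D) / D, (H.q0 l - x.1.2.2 * D) / D], 0])

open Classical in
/-- the same, `0` outside the chart -/
def k8bCC {H : K7bHor} (F : K8Lab H) (χ D a : ℝ) (x : (ℤ × ℤ × ℤ) × K8Pr) (l : H.Lam) : k5_Co 2 :=
  if l ∈ F.ch χ D x then k8bCo H D a x l else 0

/-- the row of the affine entry `L` against the predictor `h` -/
def k8bRow (D a : ℝ) (h : K8Pr) (L : ℝ × ℝ × ℝ × ℝ) (t : ℝ) : Fin 2 → ℝ :=
  ![D / a * (L.2.2.1 - t * L.2.2.2 - (h.p0 + h.p1 * t)), D / a * (L.2.2.2 - (h.q0 + h.q1 * t))]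

/-- the conditional prior of a chart -/
def k8bNu {H : K7bHor} (F : K8Lab H) (χ D : ℝ) (x : (ℤ × ℤ × ℤ) × K8Pr) : Measure H.Lam :=
  (H.ν (F.ch χ D x))⁻¹ • H.ν.restrict (F.ch χ D x)

/-- the normalised incidence law of a chart in the selection `E` -/
def k8bLa {H : K7bHor} (F : K8Lab H) (χ D : ℝ) (x : (ℤ × ℤ × ℤ) × K8Pr) (E : Set (H.Lam × ℝ)) : Measure (H.Lam × ℝ) :=
  (H.ν (F.ch χ D x))⁻¹ • H.lam.restrict (E ∩ F.chI χ D x)

/-- ONE true label and ONE entry of depth `s` per (label, time block) -/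
def K8bSel {H : K7bHor} (F : K8Lab H) (c : K7bPar) (s D : ℝ) (E : Set (H.Lam × ℝ)) : Prop :=
  ∀ z ∈ E, ∀ z' ∈ E, F.lb c.χ D z'.1 = F.lb c.χ D z.1 → H.blk (H.lab s z') = H.blk (H.lab s z) →
    H.lab s z' = H.lab s z ∧ H.entOf s z' = H.entOf s z

/-- the new predictor -/
def k8bNew (D a w ts : ℝ) (x : (ℤ × ℤ × ℤ) × K8Pr) (f A : Fin 2 → ℝ) (z z' : ℤ) : K8Pr where
  c0 := x.2.c0 + a * (z * w - f 0 * x.1.2.1 - f 1 * x.1.2.2 - ts * (z' * w - A 0 * x.1.2.1 - A 1 * x.1.2.2))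
  c1 := x.2.c1 + a * (z' * w - A 0 * x.1.2.1 - A 1 * x.1.2.2)
  p0 := x.2.p0 + a / D * (f 0 - ts * A 0)
  p1 := x.2.p1 + a / D * A 0
  q0 := x.2.q0 + a / D * (f 1 - ts * A 1)
  q1 := x.2.q1 + a / D * A 1

/-- mesh relations with room `X` -/
structure K8bRel (c : K7bPar) (X s D ζ : ℝ) : Prop where
  wf : c.WF
  X1 : 1 ≤ X
  sG : s ∈ c.G
  khalf : 2 * c.k ≤ 1
  D0 : 0 < D
  D1 : D ≤ 1
  ζ0 : 0 < ζ
  ζ1 : ζ ≤ 1
  aX : X * c.a s ≤ 1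
  ξm : X * c.ξ ≤ D * c.a s * ζ
  χm : X * c.χ ≤ D * c.a s * ζ
  ϱm : X * c.ϱ ≤ D * c.a s * ζ
  em : X * c.N ^ (-c.e0) ≤ D * c.a s * ζ

theorem k8b_step_eqns_cite : True := by
  have := @K8Lab.lb.eq_1
  have := @K8Lab.ch.eq_1
  have := @K8Lab.chI.eq_1
  have := @k8bCo.eq_1
  have := @k8bCC.eq_1
  have := @k8bRow.eq_1
  have := @k8bNu.eq_1
  have := @k8bLa.eq_1
  have := @K8bSel.eq_1
  have := @k8bNew.eq_1
  trivial

/-! ## 1. Selection of the entries and renewal of the floors (08 l.475-483) -/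

theorem k8b_pick_one {Ω A B : Type} [MeasurableSpace Ω] [Nonempty B] (μ : Measure Ω) (E : Set Ω) (α : Ω → A) (β : Ω → B) (n : ℝ)
    (hn : ∀ a, ∃ L : Finset B, (L.card : ℝ) ≤ n ∧ ∀ z ∈ E, α z = a → β z ∈ L) (a : A) :
    ∃ b : B, μ (E ∩ α ⁻¹' {a}) ≤ ENNReal.ofReal n * μ (E ∩ α ⁻¹' {a} ∩ β ⁻¹' {b}) := by
  classical
  obtain ⟨L, hL, hmem⟩ := hn a
  rcases L.eq_empty_or_nonempty with h0 | hne
  · refine ⟨Classical.arbitrary B, ?_⟩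
    have : E ∩ α ⁻¹' {a} = ∅ := by
      ext z
      simp only [mem_inter_iff, mem_preimage, mem_singleton_iff, mem_empty_iff_false, iff_false, not_and]
      intro hz hza
      have := hmem z hz hza
      rw [h0] at this
      exact absurd this (Finset.notMem_empty _)
    rw [this, measure_empty]
    exact zero_le
  · obtain ⟨b, hbL, hb⟩ := Finset.exists_max_image L (fun b => μ (E ∩ α ⁻¹' {a} ∩ β ⁻¹' {b})) hne
    refine ⟨b, ?_⟩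
    have hsub : E ∩ α ⁻¹' {a} ⊆ ⋃ b' ∈ L, E ∩ α ⁻¹' {a} ∩ β ⁻¹' {b'} := by
      intro z hz
      simp only [mem_iUnion]
      exact ⟨β z, hmem z hz.1 hz.2, hz, rfl⟩
    calc μ (E ∩ α ⁻¹' {a}) ≤ μ (⋃ b' ∈ L, E ∩ α ⁻¹' {a} ∩ β ⁻¹' {b'}) := measure_mono hsub
      _ ≤ ∑ b' ∈ L, μ (E ∩ α ⁻¹' {a} ∩ β ⁻¹' {b'}) := measure_biUnion_finset_le _ _
      _ ≤ ∑ _b' ∈ L, μ (E ∩ α ⁻¹' {a} ∩ β ⁻¹' {b}) := Finset.sum_le_sum hb
      _ = (L.card : ℝ≥0∞) * μ (E ∩ α ⁻¹' {a} ∩ β ⁻¹' {b}) := by rw [Finset.sum_const, nsmul_eq_mul]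
      _ ≤ ENNReal.ofReal n * μ (E ∩ α ⁻¹' {a} ∩ β ⁻¹' {b}) := by
          gcongr
          rw [← ENNReal.ofReal_natCast]
          exact ENNReal.ofReal_le_ofReal hL

/-- **L-252-S8b-S0** (~150 l.; Mathlib only).   THE HEAVIEST OPTION.   `α`, `β` take finitely many values on `E`, fibres measurable; given `α` at most `n` values of `β` occur in `E`.
PROOF.  For `a ∈ A` let `sel a` maximise `μ (E ∩ {α = a} ∩ {β = b})` over `b ∈ B` (`Finset.exists_max_image`; `B = ∅` forces `E = ∅`).   `E ∩ {α = a} = ⋃_{b ∈ L a} (E ∩ {α = a, β = b})`, so `μ (E ∩ {α = a}) ≤ n μ (E ∩ {α = a, β = sel a})`.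
Sum over `a ∈ A` (disjoint measurable pieces: `measure_biUnion_finset`). -/
theorem k8b_pick {Ω A B : Type} [MeasurableSpace Ω] [Nonempty B] (μ : Measure Ω) (E : Set Ω) (hE : MeasurableSet E) (α : Ω → A) (β : Ω → B)
    (hα : ∀ a, MeasurableSet (α ⁻¹' {a})) (hβ : ∀ b, MeasurableSet (β ⁻¹' {b})) (As : Finset A) (Bs : Finset B)
    (hA : ∀ z ∈ E, α z ∈ As) (hB : ∀ z ∈ E, β z ∈ Bs) (n : ℝ)
    (hn : ∀ a, ∃ L : Finset B, (L.card : ℝ) ≤ n ∧ ∀ z ∈ E, α z = a → β z ∈ L) :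
    ∃ sel : A → B, MeasurableSet (E ∩ {z | β z = sel (α z)}) ∧ μ E ≤ ENNReal.ofReal n * μ (E ∩ {z | β z = sel (α z)}) := by
  classical
  choose sel hsel using k8b_pick_one μ E α β n hn
  have heq : E ∩ {z | β z = sel (α z)} = ⋃ a ∈ As, E ∩ α ⁻¹' {a} ∩ β ⁻¹' {sel a} := by
    ext z
    simp only [mem_inter_iff, mem_ofPred_eq, mem_iUnion, mem_preimage, mem_singleton_iff, exists_prop]
    constructor
    · rintro ⟨hz, hb⟩
      exact ⟨α z, hA z hz, ⟨hz, rfl⟩, hb⟩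
    · rintro ⟨a, -, ⟨hz, rfl⟩, hb⟩
      exact ⟨hz, hb⟩
  have hm : ∀ a, MeasurableSet (E ∩ α ⁻¹' {a} ∩ β ⁻¹' {sel a}) := fun a => (hE.inter (hα a)).inter (hβ _)
  refine ⟨sel, ?_, ?_⟩
  · rw [heq]
    exact Finset.measurableSet_biUnion _ fun a _ => hm a
  · rw [heq, measure_biUnion_finset ?_ (fun a _ => hm a), Finset.mul_sum]
    · have hsub : E ⊆ ⋃ a ∈ As, E ∩ α ⁻¹' {a} := by
        intro z hz
        simp only [mem_iUnion]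
        exact ⟨α z, hA z hz, hz, rfl⟩
      calc μ E ≤ μ (⋃ a ∈ As, E ∩ α ⁻¹' {a}) := measure_mono hsub
        _ ≤ ∑ a ∈ As, μ (E ∩ α ⁻¹' {a}) := measure_biUnion_finset_le _ _
        _ ≤ _ := Finset.sum_le_sum fun a _ => hsel a
    · intro a _ a' _ haa'
      refine Set.disjoint_left.2 fun z hz hz' => haa' ?_
      have h1 : α z = a := hz.1.2
      have h2 : α z = a' := hz'.1.2
      rw [← h1, h2]

theorem k8b_sel_lb_meas {H : K7bHor} {c : K7bPar} {K : ℝ} (hok : H.Ok c K) (F : K8Lab H) (hmp : ∀ h, MeasurableSet (F.pr ⁻¹' {h}))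
    (χ D : ℝ) (x : (ℤ × ℤ × ℤ) × K8Pr) : MeasurableSet {z : H.Lam × ℝ | F.lb χ D z.1 = x} := by
  have h1 : MeasurableSet {l : H.Lam | F.lb χ D l = x} := by
    have e : {l : H.Lam | F.lb χ D l = x} = (H.grp χ D) ⁻¹' {x.1} ∩ F.pr ⁻¹' {x.2} := by
      ext l
      simp only [K8Lab.lb, mem_ofPred_eq, mem_inter_iff, mem_preimage, mem_singleton_iff, Prod.ext_iff]
    rw [e]
    exact ((k8f_grp_meas hok χ D) (measurableSet_singleton x.1)).inter (hmp x.2)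
  exact measurable_fst h1

theorem k8b_sel_blk_meas {H : K7bHor} {c : K7bPar} {K s : ℝ} (hok : H.Ok c K) (hs : s ∈ c.G) (I : Set ℝ) :
    MeasurableSet {z : H.Lam × ℝ | H.blk (H.lab s z) = I} := by
  have e : {z : H.Lam × ℝ | H.blk (H.lab s z) = I} = ⋃ q ∈ {q : H.Q | H.blk q = I}, (H.lab s) ⁻¹' {q} := by
    ext z
    simp only [mem_ofPred_eq, mem_iUnion, mem_preimage, mem_singleton_iff, exists_prop, exists_eq_right']
  rw [e]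
  exact MeasurableSet.biUnion (Set.to_countable _) fun q _ => hok.mlab s hs q

theorem k8b_sel_inv {K : ℝ} (hK : 1 ≤ K) {x y : ℝ≥0∞} (h1 : ENNReal.ofReal (1 / K) ≤ x) (h2 : x ≤ ENNReal.ofReal K * y) :
    ENNReal.ofReal (1 / K ^ 2) ≤ y := by
  have hK0 : 0 < K := by linarith
  calc ENNReal.ofReal (1 / K ^ 2) = ENNReal.ofReal (1 / K) * ENNReal.ofReal (1 / K) := by
        rw [← ENNReal.ofReal_mul (by positivity)]
        congr 1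
        field_simp
    _ ≤ ENNReal.ofReal (1 / K) * (ENNReal.ofReal K * y) := by gcongr; exact h1.trans h2
    _ = y := by
        rw [← mul_assoc, ← ENNReal.ofReal_mul (by positivity), one_div, inv_mul_cancel₀ hK0.ne', ENNReal.ofReal_one, one_mul]

/-- **L-252-S8b-S1** (~350 l.).   Selection + renewal of the floors.
PROOF.  (1) `k8b_pick` with `μ = H.lam`, `α z = (F.lb c.χ D z.1, H.blk (H.lab s z))`, `β z = (H.lab s z, H.entOf s z)`, `n = K` (`hC.list` with `l₀ := z.1`; `F.asg = F.ch ∘ F.lb` by `rfl`).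
(`Nonempty (H.Q × _)`: `E` is not empty because `lam E > 0`.)   Finite ranges: `k8f_lab_finite`, `H.Q` is a `Fintype`, `entOf s z ∈ H.ent (lab s z)` (`entmem`).   Fibres: `k8f_asg_meas` on `F.dom` (intersect with `E`, all points of `E` are covered), `mlab`, `ment`; `{blk (lab s z) = I} = ⋃_{q, blk q = I} {lab s z = q}`.
`E₁ := E ∩ {β = sel ∘ α}` : `lam E₁ ≥ lam E / K ≥ 1/K²`, and `K8bSel` holds on `E₁`.
(2) `k8f_refloor` with `ι = Unit`, `w = ofReal (a_s^d)`, `B = ofReal (K²)` (`k8f_num_sum` for `E ⊇ E₁`), `κ = ofReal (1/(2 K² (K² + 1)))`: `E₂ ⊆ E₁`, `lam (E₁ \ E₂) ≤ 1/(2K²)`, floors `κ (gW a^d + ν(asg)) ≤ lam (E₂ ∩ inc)`.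
The fields `mdom mpr fin cover fit norm` do not depend on the selection (`cover` is hereditary). -/
theorem k8b_sel (H : K7bHor) (c : K7bPar) (hc : c.WF) {K s D : ℝ} {E : Set (H.Lam × ℝ)} (F : K8Lab H) (hK : 1 ≤ K)
    (hs : s ∈ c.G) (hD : 0 < D) (hok : H.Ok c K) (hE : H.Res E (1 / K)) (hF : F.Ok c K s D E) (hC : F.Cmp c K s D E) :
    ∃ E' ⊆ E, H.Res E' (1 / (2 * K ^ 2)) ∧ F.Ok c (4 * K ^ 4) s D E' ∧ K8bSel F c s D E' := by
  classical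
  have hK0 : 0 < K := by linarith
  -- `E` is not empty
  have hEpos : 0 < H.lam E := lt_of_lt_of_le (ENNReal.ofReal_pos.2 (by positivity)) hE.mass
  obtain ⟨z₀, hz₀⟩ := nonempty_of_measure_ne_zero hEpos.ne'
  haveI : Nonempty (H.Q × (ℝ × ℝ × ℝ × ℝ)) := ⟨(H.lab s z₀, H.entOf s z₀)⟩
  -- (1) the heaviest option
  have hfinA := k8f_lab_finite hok hc.χ0 hD F hF.fin hE.sub hF.cover
  obtain ⟨sel, hm₁, hmass₁⟩ := k8b_pick H.lam E hE.meas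
    (fun z => (F.lb c.χ D z.1, H.blk (H.lab s z))) (fun z => (H.lab s z, H.entOf s z))
    (fun a => by
      have e : (fun z : H.Lam × ℝ => (F.lb c.χ D z.1, H.blk (H.lab s z))) ⁻¹' {a}
          = {z | F.lb c.χ D z.1 = a.1} ∩ {z | H.blk (H.lab s z) = a.2} := by
        ext z
        simp only [mem_preimage, mem_singleton_iff, mem_inter_iff, mem_ofPred_eq, Prod.ext_iff]
      rw [e]
      exact (k8b_sel_lb_meas hok F hF.mpr c.χ D a.1).inter (k8b_sel_blk_meas hok hs a.2))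
    (fun b => by
      have e : (fun z : H.Lam × ℝ => (H.lab s z, H.entOf s z)) ⁻¹' {b} = (H.lab s) ⁻¹' {b.1} ∩ (H.entOf s) ⁻¹' {b.2} := by
        ext z
        simp only [mem_preimage, mem_singleton_iff, mem_inter_iff, Prod.ext_iff]
      rw [e]
      exact (hok.mlab s hs b.1).inter (hok.ment s hs b.2))
    (hfinA.toFinset ×ˢ Finset.univ.image H.blk) (Finset.univ.biUnion fun q => (H.ent q).image fun L => (q, L))
    (fun z hz => by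
      rw [Finset.mem_product]
      exact ⟨hfinA.mem_toFinset.2 ⟨z, hz, rfl⟩, Finset.mem_image.2 ⟨_, Finset.mem_univ _, rfl⟩⟩)
    (fun z hz => by
      rw [Finset.mem_biUnion]
      exact ⟨H.lab s z, Finset.mem_univ _, Finset.mem_image.2 ⟨_, hok.entmem s hs z (hE.sub hz), rfl⟩⟩)
    K
    (fun a => by
      by_cases hex : ∃ z ∈ E, (F.lb c.χ D z.1, H.blk (H.lab s z)) = a
      · obtain ⟨z₁, hz₁, rfl⟩ := hex
        obtain ⟨L, hL, hmem⟩ := hC.list z₁.1 (H.blk (H.lab s z₁))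
        refine ⟨L, hL, fun z hz hza => hmem z hz ?_ (congrArg Prod.snd hza)⟩
        have h1 : F.lb c.χ D z.1 = F.lb c.χ D z₁.1 := congrArg Prod.fst hza
        exact ⟨hF.cover z hz, congrArg Prod.fst h1, congrArg Prod.snd h1⟩
      · exact ⟨∅, by simpa using hK0.le, fun z hz hza => absurd ⟨z, hz, hza⟩ hex⟩)
  obtain ⟨E₁, hE₁def⟩ : ∃ E₁, E₁ = E ∩ {z | (H.lab s z, H.entOf s z) = sel (F.lb c.χ D z.1, H.blk (H.lab s z))} := ⟨_, rfl⟩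
  rw [← hE₁def] at hm₁ hmass₁
  have hE₁E : E₁ ⊆ E := by rw [hE₁def]; exact inter_subset_left
  have hsel₁ : K8bSel F c s D E₁ := by
    intro z hz z' hz' hlb hblk
    rw [hE₁def] at hz hz'
    have h1 : (H.lab s z, H.entOf s z) = sel (F.lb c.χ D z.1, H.blk (H.lab s z)) := hz.2
    have h2 : (H.lab s z', H.entOf s z') = sel (F.lb c.χ D z'.1, H.blk (H.lab s z')) := hz'.2
    rw [hlb, hblk, ← h1] at h2
    exact ⟨congrArg Prod.fst h2, congrArg Prod.snd h2⟩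
  have hmass₁' : ENNReal.ofReal (1 / K ^ 2) ≤ H.lam E₁ := k8b_sel_inv hK hE.mass hmass₁
  -- (2) renewal of the floors
  have hK1 : 0 < 2 * K ^ 2 * (K ^ 2 + 1) := by positivity
  obtain ⟨E₂, hE₂E₁, hm₂, hloss, hfl⟩ := k8f_refloor H c hc hok (ι := Unit) (fun _ => F) (fun _ => D)
    (fun _ => ENNReal.ofReal (c.a s ^ c.d)) (fun _ => ENNReal.ofReal (K ^ 2)) (ENNReal.ofReal (2 * K ^ 2 * (K ^ 2 + 1)))⁻¹
    (hE₁E.trans hE.sub) hm₁ (fun _ => hD) (fun _ => hF.mdom) (fun _ => hF.mpr) (fun _ => hF.fin)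
    (fun _ z hz => hF.cover z (hE₁E hz))
    (fun _ S hS => k8f_num_sum hK0.le hok F hF.pre S fun x hx => by
      obtain ⟨z, hz, hzx⟩ := hS x hx
      exact ⟨z, hE₁E hz, hzx⟩)
  have hloss' : H.lam (E₁ \ E₂) ≤ ENNReal.ofReal (1 / (2 * K ^ 2)) := by
    refine hloss.trans (le_of_eq ?_)
    rw [Finset.univ_unique, Finset.sum_singleton, ← ENNReal.ofReal_one, ← ENNReal.ofReal_add (by positivity) zero_le_one,
      ← ENNReal.ofReal_inv_of_pos hK1, ← ENNReal.ofReal_mul (by positivity)]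
    congr 1
    field_simp
  have hmass₂ : ENNReal.ofReal (1 / (2 * K ^ 2)) ≤ H.lam E₂ := k8f_mass_half H.lam (by positivity) hmass₁' hloss'
  have hKK : 2 * K ^ 2 * (K ^ 2 + 1) ≤ 4 * K ^ 4 := by nlinarith [sq_nonneg (K ^ 2 - 1), one_le_pow₀ hK (n := 2)]
  have hK4 : K ≤ 4 * K ^ 4 := by
    have : 1 ≤ K ^ 3 := one_le_pow₀ hK
    nlinarith
  have ha0 : 0 ≤ c.a s := (Real.rpow_pos_of_pos (lt_of_lt_of_le one_pos hc.N1) _).le
  refine ⟨E₂, hE₂E₁.trans hE₁E, ⟨(hE₂E₁.trans hE₁E).trans hE.sub, hm₂, hmass₂⟩, ?_, ?_⟩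
  · refine ⟨hF.mdom, hF.mpr, hF.fin, fun z hz => hF.cover z (hE₁E (hE₂E₁ hz)),
      fun l hl t ht => (hF.fit l hl t ht).trans (mul_le_mul_of_nonneg_right hK4 ha0),
      fun l hl t ht p q hp hq => (hF.norm l hl t ht p q hp hq).trans hK4, fun z hz => ?_, fun z hz => ?_⟩
    · exact (k8f_read hK1 (hfl () z hz)).1.trans (mul_le_mul' (ENNReal.ofReal_le_ofReal hKK) le_rfl)
    · exact (k8f_read hK1 (hfl () z hz)).2.trans (mul_le_mul' (ENNReal.ofReal_le_ofReal hKK) le_rfl)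
  · intro z hz z' hz'
    exact hsel₁ z (hE₂E₁ hz) z' (hE₂E₁ hz')

/-! ## 2. The chart as a measure model (08 l.484-512) -/

/-- **L-252-S8b-S2a** (~60 l.): the signals of `k8bCo`.   `simp [k5_x, k5_y, k8bCo, K8Pr.ev, K7bHor.Xt]`, `field_simp`, `ring`. -/
theorem k8b_co_x (H : K7bHor) {D a : ℝ} (ha : a ≠ 0) (x : (ℤ × ℤ × ℤ) × K8Pr) (l : H.Lam) (t : ℝ) :
    k5_x (k8bCo H D a x l) t = (H.Xt l t - x.2.ev t (H.p l) (H.q0 l)) / a ∧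
      k5_y (k8bCo H D a x l) t = ![(H.p l - x.1.2.1 * D) / D, (H.q0 l - x.1.2.2 * D) / D] ∧
      (k8bCo H D a x l).1 2 = 0 ∧ (k8bCo H D a x l).2 1 = 0 := by
  refine ⟨?_, ?_, ?_, ?_⟩
  · simp only [k5_x, k8bCo, K8Pr.ev, K7bHor.Xt]
    simp
    field_simp
    ring
  · funext b
    fin_cases b <;> simp [k5_y, k8bCo]
  · simp [k8bCo]
  · simp [k8bCo]

theorem k8b_co_meas (H : K7bHor) (c : K7bPar) {K : ℝ} (hok : H.Ok c K) (D a : ℝ) (x : (ℤ × ℤ × ℤ) × K8Pr) :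
    Measurable (k8bCo H D a x) := by
  have mp := hok.mp
  have mq := hok.mq0
  have m0 := hok.mx0
  have m1 := hok.mx1
  unfold k8bCo
  refine Measurable.prodMk ?_ ?_
  · refine measurable_pi_lambda _ fun i => ?_
    fin_cases i
    · simp only [Fin.zero_eta, Matrix.cons_val_zero]
      exact (m0.sub ((measurable_const.add (mp.const_mul _)).add (mq.const_mul _))).div_const _
    · simp only [Fin.mk_one, Matrix.cons_val_one, Matrix.cons_val_zero]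
      exact (m1.sub ((measurable_const.add (mp.const_mul _)).add (mq.const_mul _))).div_const _
    · simp
  · refine measurable_pi_lambda _ fun i => ?_
    fin_cases i
    · simp only [Fin.zero_eta, Matrix.cons_val_zero]
      refine measurable_pi_lambda _ fun b => ?_
      fin_cases b
      · simp only [Fin.zero_eta, Matrix.cons_val_zero]
        exact (mp.sub measurable_const).div_const _
      · simp only [Fin.mk_one, Matrix.cons_val_one, Matrix.cons_val_zero]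
        exact (mq.sub measurable_const).div_const _
    · simp

theorem k8b_co_bd (H : K7bHor) (c : K7bPar) (hc : c.WF) {K s D : ℝ} {E : Set (H.Lam × ℝ)} (F : K8Lab H) (hK : 1 ≤ K) (hD : 0 < D)
    (hF : F.Ok c K s D E) (x : (ℤ × ℤ × ℤ) × K8Pr) {l : H.Lam} (hl : l ∈ F.ch c.χ D x) :
    ‖k8bCo H D (c.a s) x l‖ ≤ 2 * K := by
  obtain ⟨hd, hg, hp⟩ := hl
  have ha : 0 < c.a s := Real.rpow_pos_of_pos (lt_of_lt_of_le one_pos hc.N1) _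
  have f0 := hF.fit l hd 0 ⟨le_rfl, zero_le_one⟩
  have f1 := hF.fit l hd 1 ⟨zero_le_one, le_rfl⟩
  rw [hp] at f0 f1
  have e0 := (k8b_co_x H (D := D) ha.ne' x l 0).1
  have e1 := (k8b_co_x H (D := D) ha.ne' x l 1).1
  have b0 : |k5_x (k8bCo H D (c.a s) x l) 0| ≤ K := by
    rw [e0, abs_div, abs_of_pos ha, div_le_iff₀ ha]
    exact f0
  have b1 : |k5_x (k8bCo H D (c.a s) x l) 1| ≤ K := by
    rw [e1, abs_div, abs_of_pos ha, div_le_iff₀ ha]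
    exact f1
  have z2 := (k8b_co_x H (D := D) ha.ne' x l 0).2.2.1
  have z3 := (k8b_co_x H (D := D) ha.ne' x l 0).2.2.2
  have y0 := (k8b_co_x H (D := D) ha.ne' x l 0).2.1
  simp only [k5_x, z2] at b0 b1
  have c0 : |(k8bCo H D (c.a s) x l).1 0| ≤ K := by simpa using b0
  have c1 : |(k8bCo H D (c.a s) x l).1 1| ≤ 2 * K := by
    have h1 := abs_le.1 c0
    have h2 : |(k8bCo H D (c.a s) x l).1 0 + (k8bCo H D (c.a s) x l).1 1| ≤ K := by simpa using b1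
    have h3 := abs_le.1 h2
    exact abs_le.2 ⟨by linarith [h1.1, h1.2, h3.1, h3.2], by linarith [h1.1, h1.2, h3.1, h3.2]⟩
  have hg1 : x.1.2.1 = k7bBin D (H.p l) := by rw [← hg]; rfl
  have hg2 : x.1.2.2 = k7bBin D (H.q0 l) := by rw [← hg]; rfl
  have p1 := k7b5a_bin_lo hD (H.p l)
  have p2 := k7b5a_bin_hi hD (H.p l)
  have q1 := k7b5a_bin_lo hD (H.q0 l)
  have q2 := k7b5a_bin_hi hD (H.q0 l)
  have yy : (k8bCo H D (c.a s) x l).2 0 = ![(H.p l - x.1.2.1 * D) / D, (H.q0 l - x.1.2.2 * D) / D] := by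
    simp [k8bCo]
  have K0 : 0 ≤ 2 * K := by linarith
  rw [Prod.norm_def]
  refine max_le ?_ ?_
  · rw [pi_norm_le_iff_of_nonneg K0]
    intro i
    rw [Real.norm_eq_abs]
    fin_cases i
    · exact c0.trans (by linarith)
    · exact c1
    · show |(k8bCo H D (c.a s) x l).1 2| ≤ 2 * K
      rw [z2, abs_zero]; exact K0
  · rw [pi_norm_le_iff_of_nonneg K0]
    intro i
    fin_cases i
    · show ‖(k8bCo H D (c.a s) x l).2 0‖ ≤ 2 * K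
      rw [yy, pi_norm_le_iff_of_nonneg K0]
      intro b
      rw [Real.norm_eq_abs]
      fin_cases b
      · show |(H.p l - x.1.2.1 * D) / D| ≤ 2 * K
        rw [hg1, abs_div, abs_of_pos hD, div_le_iff₀ hD, abs_le]
        constructor <;> nlinarith
      · show |(H.q0 l - x.1.2.2 * D) / D| ≤ 2 * K
        rw [hg2, abs_div, abs_of_pos hD, div_le_iff₀ hD, abs_le]
        constructor <;> nlinarith
    · show ‖(k8bCo H D (c.a s) x l).2 1‖ ≤ 2 * K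
      rw [z3, norm_zero]; exact K0

/-- **L-252-S8b-S2b** (~200 l.): measurability, flatness and bounds of the chart coefficients.
PROOF.  Measurable: `Measurable.ite` on the measurable set `F.ch` (`k8f_asg_meas`); the components of `k8bCo` are measurable (`mp`, `mq0`, `mx0`, `mx1`; `measurable_pi_lambda`, `Fin.cases`/`fin_cases`).
Bound on the chart: `|x̄(0)| ≤ K`, `|x̄(1)| ≤ K` (`hF.fit` at `t = 0, 1`, `k8b_co_x`), so `|x̄₀| ≤ K`, `|x̄₁| ≤ 2K`; `0 ≤ y_i < 1` (`k7b5a_bin_lo`, `k7b5a_bin_hi`).   Sup norms: `pi_norm_le_iff_of_nonneg`, `Prod.norm_def`. -/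
theorem k8b_cc_facts (H : K7bHor) (c : K7bPar) (hc : c.WF) {K s D : ℝ} {E : Set (H.Lam × ℝ)} (F : K8Lab H) (hK : 1 ≤ K) (hD : 0 < D)
    (hok : H.Ok c K) (hF : F.Ok c K s D E) (x : (ℤ × ℤ × ℤ) × K8Pr) :
    Measurable (k8bCC F c.χ D (c.a s) x) ∧ k8bFlat (k8bCC F c.χ D (c.a s) x) ∧ ∀ l, ‖k8bCC F c.χ D (c.a s) x l‖ ≤ 2 * K := by
  have hm : MeasurableSet (F.ch c.χ D x) := k8f_asg_meas hok c.χ D F hF.mdom hF.mpr x
  have ha : 0 < c.a s := Real.rpow_pos_of_pos (lt_of_lt_of_le one_pos hc.N1) _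
  refine ⟨?_, ?_, ?_⟩
  · unfold k8bCC
    exact Measurable.ite hm (k8b_co_meas H c hok D (c.a s) x) measurable_const
  · intro l
    unfold k8bCC
    split_ifs with h
    · exact (k8b_co_x H (D := D) ha.ne' x l 0).2.2
    · exact ⟨rfl, rfl⟩
  · intro l
    unfold k8bCC
    split_ifs with h
    · exact k8b_co_bd H c hc F hK hD hF x h
    · rw [norm_zero]; linarith

/-- **L-252-S8b-S2c** (~200 l.): `ν_H` is a probability, `λ_H ≤ K ν_H ⊗ dt`, `λ_H` has mass `≥ 1/K`.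
PROOF.  `ν(ch) ≠ 0` is the hypothesis `h0`, `ν(ch) ≤ 1 < ⊤` (`νle`): `ENNReal.inv_mul_cancel`.
`Measure.restrict` of `hok.dom` to `chI = ch ×ˢ univ`: `(ν.prod τ).restrict (ch ×ˢ univ) = (ν.restrict ch).prod τ` (`Measure.prod_restrict`); `k7bTime = volume.restrict (Icc 0 1) = volume.restrict (Ico 0 1)` (`Ico_ae_eq_Icc`, `Measure.restrict_congr_set`);
`Measure.prod_smul_left`. -/
theorem k8b_chart_law (H : K7bHor) (c : K7bPar) {K s D : ℝ} {E : Set (H.Lam × ℝ)} (F : K8Lab H) (hK : 1 ≤ K)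
    (hok : H.Ok c K) (hF : F.Ok c K s D E) (hE : MeasurableSet E) (x : (ℤ × ℤ × ℤ) × K8Pr) (h0 : H.ν (F.ch c.χ D x) ≠ 0)
    (hm : H.ν (F.ch c.χ D x) ≤ ENNReal.ofReal K * H.lam (E ∩ F.chI c.χ D x)) :
    IsProbabilityMeasure (k8bNu F c.χ D x) ∧
      k8bLa F c.χ D x E ≤ ENNReal.ofReal K • (k8bNu F c.χ D x).prod (volume.restrict (Ico 0 1)) ∧
      ENNReal.ofReal (1 / K) ≤ k8bLa F c.χ D x E univ := by
  have _ := hF
  have _ := hE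
  have hfinν : IsFiniteMeasure H.ν := ⟨lt_of_le_of_lt hok.νle ENNReal.one_lt_top⟩
  have ht : H.ν (F.ch c.χ D x) ≠ ⊤ := measure_ne_top _ _
  have K0 : 0 < K := by linarith
  refine ⟨⟨?_⟩, ?_, ?_⟩
  · rw [k8bNu, Measure.smul_apply, smul_eq_mul, Measure.restrict_apply MeasurableSet.univ, univ_inter]
    exact ENNReal.inv_mul_cancel h0 ht
  · have e1 : F.chI c.χ D x = F.ch c.χ D x ×ˢ (univ : Set ℝ) := by
      ext z
      simp [K8Lab.chI]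
    have e2 : k7bTime = volume.restrict (Ico (0 : ℝ) 1) := by
      rw [k7bTime]
      exact (Measure.restrict_congr_set Ico_ae_eq_Icc).symm
    have h1 : H.lam.restrict (E ∩ F.chI c.χ D x) ≤ ENNReal.ofReal K • (H.ν.restrict (F.ch c.χ D x)).prod (volume.restrict (Ico (0 : ℝ) 1)) := by
      calc H.lam.restrict (E ∩ F.chI c.χ D x) ≤ H.lam.restrict (F.chI c.χ D x) := Measure.restrict_mono inter_subset_right le_rfl
        _ ≤ (ENNReal.ofReal K • H.ν.prod k7bTime).restrict (F.chI c.χ D x) := Measure.restrict_mono le_rfl hok.dom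
        _ = ENNReal.ofReal K • (H.ν.restrict (F.ch c.χ D x)).prod (volume.restrict (Ico (0 : ℝ) 1)) := by
          rw [Measure.restrict_smul, e1, e2, ← Measure.prod_restrict, Measure.restrict_univ]
    rw [k8bLa, k8bNu, Measure.prod_smul_left, smul_comm]
    intro A
    simp only [Measure.smul_apply, smul_eq_mul]
    have := h1 A
    simp only [Measure.smul_apply, smul_eq_mul] at this
    exact mul_le_mul' le_rfl this
  · rw [k8bLa, Measure.smul_apply, smul_eq_mul, Measure.restrict_apply MeasurableSet.univ, univ_inter]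
    have hK0 : ENNReal.ofReal K ≠ 0 := by simpa using K0
    have hKt : ENNReal.ofReal K ≠ ⊤ := ENNReal.ofReal_ne_top
    have e3 : ENNReal.ofReal (1 / K) = (ENNReal.ofReal K)⁻¹ := by
      rw [one_div, ENNReal.ofReal_inv_of_pos K0]
    rw [e3]
    calc (ENNReal.ofReal K)⁻¹ = (ENNReal.ofReal K)⁻¹ * ((H.ν (F.ch c.χ D x))⁻¹ * H.ν (F.ch c.χ D x)) := by
          rw [ENNReal.inv_mul_cancel h0 ht, mul_one]
      _ ≤ (ENNReal.ofReal K)⁻¹ * ((H.ν (F.ch c.χ D x))⁻¹ * (ENNReal.ofReal K * H.lam (E ∩ F.chI c.χ D x))) :=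
          mul_le_mul' le_rfl (mul_le_mul' le_rfl hm)
      _ = ((ENNReal.ofReal K)⁻¹ * ENNReal.ofReal K) * ((H.ν (F.ch c.χ D x))⁻¹ * H.lam (E ∩ F.chI c.χ D x)) := by ring
      _ = (H.ν (F.ch c.χ D x))⁻¹ * H.lam (E ∩ F.chI c.χ D x) := by
          rw [ENNReal.inv_mul_cancel hK0 hKt, one_mul]

/-- measurability of the row of one entry -/
theorem k8b_re_meas (D a : ℝ) (h : K8Pr) (L : ℝ × ℝ × ℝ × ℝ) : Measurable fun t => k8bRow D a h L t := by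
  refine measurable_pi_iff.2 fun b => ?_
  fin_cases b
  · simp only [k8bRow, Fin.zero_eta, Matrix.cons_val_zero]
    fun_prop
  · simp only [k8bRow, Fin.mk_one, Matrix.cons_val_one, Matrix.cons_val_zero]
    fun_prop

/-- an affine function bounded by `B` on the square of half side `D` has the normalised gradient `≤ B / a` -/
theorem k8b_re_bd {D a B v t p₀ q₀ : ℝ} (hD : 0 < D) (ha : 0 < a) (hB : 0 ≤ B) (h : K8Pr) (L : ℝ × ℝ × ℝ × ℝ)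
    (hcl : ∀ p q : ℝ, |p - p₀| ≤ D → |q - q₀| ≤ D → |k8Cal L v t p q - h.ev t p q| ≤ B * a) :
    ‖k8bRow D a h L t‖ ≤ B := by
  have h1 := abs_le.1 (hcl (p₀ + D) q₀ (by simp [abs_of_pos hD]) (by simp [hD.le]))
  have h2 := abs_le.1 (hcl (p₀ - D) q₀ (by simp [abs_of_pos hD]) (by simp [hD.le]))
  have h3 := abs_le.1 (hcl p₀ (q₀ + D) (by simp [hD.le]) (by simp [abs_of_pos hD]))
  have h4 := abs_le.1 (hcl p₀ (q₀ - D) (by simp [hD.le]) (by simp [abs_of_pos hD]))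
  have e1 : (k8Cal L v t (p₀ + D) q₀ - h.ev t (p₀ + D) q₀) - (k8Cal L v t (p₀ - D) q₀ - h.ev t (p₀ - D) q₀)
      = 2 * (D * (L.2.2.1 - t * L.2.2.2 - (h.p0 + h.p1 * t))) := by
    simp only [k8Cal, k7bAff, K8Pr.ev]
    ring
  have e2 : (k8Cal L v t p₀ (q₀ + D) - h.ev t p₀ (q₀ + D)) - (k8Cal L v t p₀ (q₀ - D) - h.ev t p₀ (q₀ - D))
      = 2 * (D * (L.2.2.2 - (h.q0 + h.q1 * t))) := by
    simp only [k8Cal, k7bAff, K8Pr.ev]
    ring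
  have key : ∀ G : ℝ, |D * G| ≤ B * a → |D / a * G| ≤ B := by
    intro G hG
    have : D / a * G = (D * G) / a := by ring
    rw [this, abs_div, abs_of_pos ha, div_le_iff₀ ha]
    exact hG
  rw [pi_norm_le_iff_of_nonneg hB]
  intro b
  rw [Real.norm_eq_abs]
  fin_cases b
  · simp only [k8bRow, Fin.zero_eta, Matrix.cons_val_zero]
    refine key _ (abs_le.2 ⟨?_, ?_⟩) <;> linarith [h1.1, h1.2, h2.1, h2.2]
  · simp only [k8bRow, Fin.mk_one, Matrix.cons_val_one, Matrix.cons_val_zero]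
    refine key _ (abs_le.2 ⟨?_, ?_⟩) <;> linarith [h3.1, h3.2, h4.1, h4.2]

/-- **L-252-S8b-S3** (~350 l.): THE ROW OF A CHART: measurable, bounded, equal to the row of the entry at every incidence.
PROOF.  `U := {q : H.Q | ∃ z ∈ E ∩ chI x, H.lab s z = q}` (finite type).   For `q ∈ U` choose `z_q`, `L q := entOf s z_q`.   `Fr t := if ∃ q ∈ U, t ∈ blk q then k8bRow D a x.2 (L q) t else 0` (choose such a `q`).
By `blkdisj` (labels in `Qat s`: `labmem`) two labels of `U` whose blocks contain `t` have the same block; by `K8bSel` they are equal.   So on `blk q` (`q ∈ U`) `Fr = k8bRow D a x.2 (L q)`, which is continuous in `t`: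
`Fr = ∑_{q ∈ U} indicator (blk q) (k8bRow … (L q))` (disjoint blocks of distinct `q ∈ U`): measurable.   At `z ∈ E ∩ chI x`: `q = lab s z ∈ U`, `z.2 ∈ blk q`, `entOf s z = L q` by `K8bSel`.
BOUND: fix `q ∈ U`, `t ∈ blk q`, `z = z_q`, `φ(p,q') := k8Cal (L q) (x.1.1 χ) t p q' - x.2.ev t p q'` is affine in `(p,q')` with gradient `(a/D) Fr t`; `hC.close`: `|φ| ≤ K a` on the square of half side `D` around `(p z.1, q0 z.1)`;
`φ(p₀ + D, q₀) - φ(p₀ - D, q₀) = 2 D ∂_p φ`, so `|∂_p φ| ≤ K a / D`, the same for `q'`. -/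
theorem k8b_row_exists (H : K7bHor) (c : K7bPar) (hc : c.WF) {K s D : ℝ} {E : Set (H.Lam × ℝ)} (F : K8Lab H) (hK : 1 ≤ K)
    (hs : s ∈ c.G) (hD : 0 < D) (hok : H.Ok c K) (hE : E ⊆ H.Sp) (hC : F.Cmp c K s D E) (hS : K8bSel F c s D E)
    (x : (ℤ × ℤ × ℤ) × K8Pr) :
    ∃ Fr : ℝ → Fin 2 → ℝ, Measurable Fr ∧ (∀ t, ‖Fr t‖ ≤ K) ∧
      ∀ z ∈ E ∩ F.chI c.χ D x, Fr z.2 = k8bRow D (c.a s) x.2 (H.entOf s z) z.2 := by
  classical
  have ha : 0 < c.a s := Real.rpow_pos_of_pos (lt_of_lt_of_le one_pos hc.N1) _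
  have hK0 : 0 ≤ K := by linarith
  set W : Set (H.Lam × ℝ) := E ∩ F.chI c.χ D x with hW
  have hlb : ∀ z ∈ W, F.lb c.χ D z.1 = x := by
    rintro z ⟨-, hz⟩
    exact Prod.ext hz.2.1 hz.2.2
  set U : Finset H.Q := Finset.univ.filter (fun q => ∃ z ∈ W, H.lab s z = q) with hU
  have hUex : ∀ q ∈ U, ∃ z ∈ W, H.lab s z = q := fun q hq => (Finset.mem_filter.1 hq).2
  set L : H.Q → ℝ × ℝ × ℝ × ℝ := fun q => if h : ∃ z ∈ W, H.lab s z = q then H.entOf s h.choose else 0 with hLdef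
  have hL : ∀ z ∈ W, L (H.lab s z) = H.entOf s z := by
    intro z hz
    have h : ∃ z' ∈ W, H.lab s z' = H.lab s z := ⟨z, hz, rfl⟩
    simp only [hLdef, dif_pos h]
    have h1 := h.choose_spec
    exact (hS z hz.1 h.choose h1.1.1 (by rw [hlb _ h1.1, hlb _ hz]) (by rw [h1.2])).2
  have hdisj : ∀ q ∈ U, ∀ q' ∈ U, q ≠ q' → Disjoint (H.blk q) (H.blk q') := by
    intro q hq q' hq' hne
    obtain ⟨z, hz, rfl⟩ := hUex q hq
    obtain ⟨z', hz', rfl⟩ := hUex q' hq'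
    rcases hok.blkdisj s hs _ (hok.labmem s hs z (hE hz.1)).1 _ (hok.labmem s hs z' (hE hz'.1)).1 with h | h
    · exact absurd (hS z hz.1 z' hz'.1 (by rw [hlb _ hz', hlb _ hz]) h.symm).1.symm hne
    · exact h
  set Fr : ℝ → Fin 2 → ℝ := fun t => ∑ q ∈ U, (H.blk q).indicator (fun t => k8bRow D (c.a s) x.2 (L q) t) t with hFr
  have hval : ∀ q ∈ U, ∀ t ∈ H.blk q, Fr t = k8bRow D (c.a s) x.2 (L q) t := by
    intro q hq t ht
    simp only [hFr]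
    rw [Finset.sum_eq_single q]
    · exact Set.indicator_of_mem ht _
    · intro q' hq' hne
      exact Set.indicator_of_notMem (fun h => Set.disjoint_left.1 (hdisj q hq q' hq' hne.symm) ht h) _
    · intro h
      exact absurd hq h
  have hzero : ∀ t, (∀ q ∈ U, t ∉ H.blk q) → Fr t = 0 := by
    intro t ht
    simp only [hFr]
    exact Finset.sum_eq_zero fun q hq => Set.indicator_of_notMem (ht q hq) _
  have hbd : ∀ q ∈ U, ∀ t ∈ H.blk q, ‖k8bRow D (c.a s) x.2 (L q) t‖ ≤ K := by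
    intro q hq t ht
    obtain ⟨z, hz, rfl⟩ := hUex q hq
    rw [hL z hz]
    have hg : H.grp c.χ D z.1 = x.1 := hz.2.2.1
    have hp : F.pr z.1 = x.2 := hz.2.2.2
    have hcl := hC.close z hz.1 t ht
    rw [hg, hp] at hcl
    exact k8b_re_bd hD ha hK0 x.2 _ hcl
  refine ⟨Fr, ?_, ?_, ?_⟩
  · refine Finset.measurable_sum _ fun q _ => ?_
    exact (k8b_re_meas D (c.a s) x.2 (L q)).indicator measurableSet_Ico
  · intro t
    by_cases ht : ∃ q ∈ U, t ∈ H.blk q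
    · obtain ⟨q, hq, htq⟩ := ht
      rw [hval q hq t htq]
      exact hbd q hq t htq
    · push_neg at ht
      rw [hzero t ht, norm_zero]
      exact hK0
  · intro z hz
    have hq : H.lab s z ∈ U := Finset.mem_filter.2 ⟨Finset.mem_univ _, z, hz, rfl⟩
    rw [hval _ hq z.2 (hok.labmem s hs z (hE hz.1)).2.1, hL z hz]

/-! ## 3. The integrated mixed cap (08 l.497-513) -/

/-- the time slope of a predictor which is bounded at the times `0`, `1` -/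
theorem k8b4_lip (h : K8Pr) {K P Q : ℝ} (h0 : |h.ev 0 P Q| ≤ K) (h1 : |h.ev 1 P Q| ≤ K) (t t' : ℝ) :
    |h.ev t P Q - h.ev t' P Q| ≤ 2 * K * |t - t'| := by
  have e : h.ev t P Q - h.ev t' P Q = (h.ev 1 P Q - h.ev 0 P Q) * (t - t') := by
    simp only [K8Pr.ev]; ring
  rw [e, abs_mul]
  refine mul_le_mul_of_nonneg_right ?_ (abs_nonneg _)
  rw [abs_le] at h0 h1 ⊢
  constructor <;> linarith

/-- the parameter gradient of a predictor bounded on a square of half side `D` -/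
theorem k8b4_grad (h : K8Pr) {K D p q t : ℝ} (hb : ∀ p' q' : ℝ, |p' - p| ≤ D → |q' - q| ≤ D → |h.ev t p' q'| ≤ K) (hD : 0 < D) :
    |h.p0 + h.p1 * t| * D ≤ K ∧ |h.q0 + h.q1 * t| * D ≤ K := by
  have a1 := hb (p + D) q (by simp [abs_of_pos hD]) (by simp [hD.le])
  have a2 := hb (p - D) q (by simp [abs_of_pos hD]) (by simp [hD.le])
  have a3 := hb p (q + D) (by simp [hD.le]) (by simp [abs_of_pos hD])
  have a4 := hb p (q - D) (by simp [hD.le]) (by simp [abs_of_pos hD])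
  rw [abs_le] at a1 a2 a3 a4
  constructor
  · have e : (h.p0 + h.p1 * t) * D = (h.ev t (p + D) q - h.ev t (p - D) q) / 2 := by simp only [K8Pr.ev]; ring
    have : |(h.p0 + h.p1 * t) * D| ≤ K := by
      rw [e, abs_le]; constructor <;> linarith
    rwa [abs_mul, abs_of_pos hD] at this
  · have e : (h.q0 + h.q1 * t) * D = (h.ev t p (q + D) - h.ev t p (q - D)) / 2 := by simp only [K8Pr.ev]; ring
    have : |(h.q0 + h.q1 * t) * D| ≤ K := by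
      rw [e, abs_le]; constructor <;> linarith
    rwa [abs_mul, abs_of_pos hD] at this

/-- variation of the predictor inside a tiny group -/
theorem k8b4_var (h : K8Pr) {K D D₂ p q P Q t : ℝ} (hg : |h.p0 + h.p1 * t| * D ≤ K ∧ |h.q0 + h.q1 * t| * D ≤ K) (hD : 0 < D)
    (hP : |p - P| ≤ D₂) (hQ : |q - Q| ≤ D₂) : |h.ev t p q - h.ev t P Q| * D ≤ 2 * K * D₂ := by
  have e : h.ev t p q - h.ev t P Q = (h.p0 + h.p1 * t) * (p - P) + (h.q0 + h.q1 * t) * (q - Q) := by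
    simp only [K8Pr.ev]; ring
  have hD₂ : 0 ≤ D₂ := (abs_nonneg _).trans hP
  have h1 : |h.ev t p q - h.ev t P Q| ≤ |h.p0 + h.p1 * t| * D₂ + |h.q0 + h.q1 * t| * D₂ := by
    rw [e]
    refine (abs_add_le _ _).trans ?_
    rw [abs_mul, abs_mul]
    gcongr
  calc |h.ev t p q - h.ev t P Q| * D ≤ (|h.p0 + h.p1 * t| * D₂ + |h.q0 + h.q1 * t| * D₂) * D := by gcongr
    _ = (|h.p0 + h.p1 * t| * D) * D₂ + (|h.q0 + h.q1 * t| * D) * D₂ := by ring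
    _ ≤ K * D₂ + K * D₂ := add_le_add (mul_le_mul_of_nonneg_right hg.1 hD₂) (mul_le_mul_of_nonneg_right hg.2 hD₂)
    _ = 2 * K * D₂ := by ring

/-- one incidence of the set in a tiny group -/
theorem k8b4_piece (H : K7bHor) (c : K7bPar) {K s D D₂ ζ η : ℝ} {E : Set (H.Lam × ℝ)} (F : K8Lab H) (x : (ℤ × ℤ × ℤ) × K8Pr) (i : ℤ)
    {r w a' : ℝ} (e : Fin 2 → ℝ) (ha : 0 < c.a s) (hK : 1 ≤ K) (hD : 0 < D) (hok : H.Ok c K) (hF : F.Ok c K s D E) (hη : 0 < η)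
    (hζw : ζ ≤ w) (h0 : 0 < D₂) (h1 : D₂ ≤ D) (h2 : 8 * K * D₂ ≤ D * c.a s * ζ) {z : H.Lam × ℝ}
    (hz : z ∈ H.Sp ∩ F.chI c.χ D x ∩ {z | ⌊z.2 / η⌋ = i ∧ k8bIn r w a' e (k8bCo H D (c.a s) x z.1) z.2}) (i₂ j₂ : ℤ)
    (hg : H.grp c.χ D₂ z.1 = (x.1.1, i₂, j₂)) :
    z.2 ∈ Set.Icc ((i : ℝ) * η) (((i : ℝ) + 1) * η) ∧
      |H.X z - (x.2.ev z.2 (i₂ * D₂) (j₂ * D₂) + c.a s * a')| ≤ 2 * (c.a s * w) ∧
      ∀ t t', |(x.2.ev t (i₂ * D₂) (j₂ * D₂) + c.a s * a') - (x.2.ev t' (i₂ * D₂) (j₂ * D₂) + c.a s * a')| ≤ 2 * K * |t - t'| := by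
  obtain ⟨⟨hSp, hch⟩, hi, hin⟩ := hz
  obtain ⟨hdom, hgrp, hpr⟩ := hch
  have ht := hok.time z hSp
  have hgi : k7bBin D₂ (H.p z.1) = i₂ := congrArg (fun g : ℤ × ℤ × ℤ => g.2.1) hg
  have hgj : k7bBin D₂ (H.q0 z.1) = j₂ := congrArg (fun g : ℤ × ℤ × ℤ => g.2.2) hg
  have bp := k7b5b_bin_sub D₂ (H.p z.1) h0
  have bq := k7b5b_bin_sub D₂ (H.q0 z.1) h0
  rw [hgi] at bp
  rw [hgj] at bq
  have hP : |H.p z.1 - i₂ * D₂| ≤ D₂ := by rw [abs_le]; constructor <;> linarith [bp.1, bp.2]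
  have hQ : |H.q0 z.1 - j₂ * D₂| ≤ D₂ := by rw [abs_le]; constructor <;> linarith [bq.1, bq.2]
  have hP' : |(i₂ : ℝ) * D₂ - H.p z.1| ≤ D := by rw [abs_sub_comm]; exact hP.trans h1
  have hQ' : |(j₂ : ℝ) * D₂ - H.q0 z.1| ≤ D := by rw [abs_sub_comm]; exact hQ.trans h1
  have hnorm := hF.norm z.1 hdom
  rw [hpr] at hnorm
  refine ⟨?_, ?_, ?_⟩
  · have f1 := Int.floor_le (z.2 / η)
    have f2 := Int.lt_floor_add_one (z.2 / η)
    rw [hi] at f1 f2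
    rw [le_div_iff₀ hη] at f1
    rw [div_lt_iff₀ hη] at f2
    exact ⟨f1, f2.le⟩
  · obtain ⟨cx, -, -, -⟩ := k8b_co_x H (D := D) ha.ne' x z.1 z.2
    obtain ⟨-, hx1, hx2⟩ := hin
    rw [cx] at hx1 hx2
    rw [le_div_iff₀ ha] at hx1
    rw [div_le_iff₀ ha] at hx2
    have hgr := k8b4_grad x.2 (hnorm z.2 ht) hD
    have hv := k8b4_var x.2 hgr hD hP hQ
    have hv' : |x.2.ev z.2 (H.p z.1) (H.q0 z.1) - x.2.ev z.2 (i₂ * D₂) (j₂ * D₂)| ≤ c.a s * w := by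
      have h3 : |x.2.ev z.2 (H.p z.1) (H.q0 z.1) - x.2.ev z.2 (i₂ * D₂) (j₂ * D₂)| * D ≤ (c.a s * w) * D := by
        calc _ ≤ 2 * K * D₂ := hv
          _ ≤ 8 * K * D₂ := by nlinarith [mul_pos (lt_of_lt_of_le one_pos hK) h0]
          _ ≤ D * c.a s * ζ := h2
          _ ≤ D * c.a s * w := mul_le_mul_of_nonneg_left hζw (mul_pos hD ha).le
          _ = (c.a s * w) * D := by ring
      exact le_of_mul_le_mul_right h3 hD
    show |H.Xt z.1 z.2 - _| ≤ _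
    rw [abs_le] at hv' ⊢
    constructor <;> linarith [hv'.1, hv'.2]
  · intro t t'
    have := k8b4_lip x.2 (hnorm 0 ⟨le_rfl, zero_le_one⟩ _ _ hP' hQ') (hnorm 1 ⟨zero_le_one, le_rfl⟩ _ _ hP' hQ') t t'
    rwa [add_sub_add_right_eq_sub]

/-- the bins of mesh `m` which meet an interval of length `L ≥ m` -/
theorem k8b4_bins (m a L : ℝ) (hm : 0 < m) (hL : m ≤ L) :
    ∃ T : Finset ℤ, (T.card : ℝ) * m ≤ 3 * L ∧ ∀ x ∈ Set.Icc a (a + L), k7bBin m x ∈ T := by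
  obtain ⟨c1, b1⟩ := k7b5b_bins m a (a + L) hm (le_add_of_nonneg_right (hm.le.trans hL))
  refine ⟨_, ?_, b1⟩
  rw [add_sub_cancel_left] at c1
  have h1 := mul_le_mul_of_nonneg_right c1 hm.le
  have e : (L / m + 2) * m = L + 2 * m := by field_simp
  linarith

/-- the position in the parameter square -/
theorem k8b4_pos (H : K7bHor) {D a r w a' t : ℝ} (hD : 0 < D) (ha : a ≠ 0) (x : (ℤ × ℤ × ℤ) × K8Pr) (e : Fin 2 → ℝ) (l : H.Lam)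
    (hin : k8bIn r w a' e (k8bCo H D a x l) t) :
    H.p l ∈ Set.Icc (x.1.2.1 * D + D * e 0) (x.1.2.1 * D + D * e 0 + D * r) ∧
      H.q0 l ∈ Set.Icc (x.1.2.2 * D + D * e 1) (x.1.2.2 * D + D * e 1 + D * r) := by
  obtain ⟨-, cy, -, -⟩ := k8b_co_x H (D := D) ha x l t
  have h0 := hin.1 0
  have h1 := hin.1 1
  rw [cy] at h0 h1
  simp only [Matrix.cons_val_zero, Matrix.cons_val_one] at h0 h1
  obtain ⟨h01, h02⟩ := h0
  obtain ⟨h11, h12⟩ := h1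
  rw [le_div_iff₀ hD] at h01 h11
  rw [div_le_iff₀ hD] at h02 h12
  refine ⟨⟨?_, ?_⟩, ⟨?_, ?_⟩⟩ <;> linarith

/-- **L-252-S8b-S4** (~500 l.): THE MIXED CAP of a chart, before normalisation: `K η (D r)² (a w)^d π(d₀)`.
PROOF.  If the set is empty there is nothing to prove; otherwise fix `l₁ ∈ F.ch x`.   `D₂ := D a ζ / (8K)`, `a = c.a s`.   The predictor `h = x.2` is bounded by `K` on `[0,1] ×` (square of half side `D` around `(p l₁, q0 l₁)`) ⊇ the whole `D`-bin (`hF.norm`);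
so (affine in `(p,q)`) its `P`-gradient is `≤ K/D` per component for `t ∈ [0,1]`, `|h| ≤ 3K` on the concentric square of half side `2D`, and `t ↦ h.ev t p q` is affine with slope `≤ 6K` there.
Cover: every `l` of the set lies in a group `g₂ = (x.1.1, i, j)` of the mesh `D₂` with `i D₂ ∈ [P_c + D e - D₂, P_c + D e + D r]`, the same for `j`: `≤ (D r/D₂ + 2)² ≤ 9 (D r/D₂)²` groups (`D₂ ≤ D ζ ≤ D r`; `k7b5b_bins`).
In the group `g₂`: `|h.ev t p q - h.ev t (i D₂) (j D₂)| ≤ 2 (K/D) D₂ ≤ a ζ ≤ a w` and `X - h.ev t p q ∈ a [a', a' + w]` (`k8b_co_x`), so `|X z - f z.2| ≤ 2 a w` with `f t := h.ev t (i D₂) (j D₂) + a a'`.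
`k7b_band_cap` with `D := D₂`, `M := 6K`, `r := 2 a w`, `[t0, t1] = [i₀ η, (i₀+1) η]`: hypotheses `ξ, χ, N^(-e₀) ≤ D₂`, `6K ξ ≤ 2 a w`, `ϱ ≤ 2 a w` from `K8bRel` with `X ≥ 8K`; bound `C K^C (η + ξ) (2 a w)^d π(d₀) D₂²`.
(`f` must be globally Lipschitz: it is affine in `t`.)   Sum: `9 (D r)² C K^C 2η 2^d (a w)^d π(d₀)`;   `gW χ D g = π(d₀) D²`. -/
theorem k8b_mixcap : ∃ C : ℕ, ∀ (H : K7bHor) (c : K7bPar) (K X s D ζ η : ℝ) (E : Set (H.Lam × ℝ)) (F : K8Lab H)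
    (x : (ℤ × ℤ × ℤ) × K8Pr) (i : ℤ) (r w a' : ℝ) (e : Fin 2 → ℝ), K8bRel c X s D ζ → 1 ≤ K → 8 * K ≤ X → H.Ok c K → F.Ok c K s D E →
    c.ξ ≤ η → ζ ≤ r → r ≤ 1 → ζ ≤ w → w ≤ 1 →
    H.lam (H.Sp ∩ F.chI c.χ D x ∩ {z | ⌊z.2 / η⌋ = i ∧ k8bIn r w a' e (k8bCo H D (c.a s) x z.1) z.2})
      ≤ ENNReal.ofReal ((C : ℝ) * K ^ C * η * r ^ 2 * w ^ c.d * c.a s ^ c.d) * H.gW c.χ D x.1 := by
  obtain ⟨C₀, hC₀⟩ := k7b_band_cap
  refine ⟨36 * C₀, ?_⟩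
  intro H c K X s D ζ η E F x i r w a' e hR hK hX hok hF hξη hζr hr1 hζw hw1
  have hc := hR.wf
  have hD := hR.D0
  have ha : 0 < c.a s := Real.rpow_pos_of_pos (lt_of_lt_of_le one_pos hc.N1) _
  have hK0 : 0 < K := by linarith
  have hη : 0 < η := hc.ξ0.trans_le hξη
  have hr0 : 0 < r := hR.ζ0.trans_le hζr
  have hw0 : 0 < w := hR.ζ0.trans_le hζw
  have ha1 : c.a s ≤ 1 := by nlinarith [hR.aX, hR.X1]
  have hm : 0 < D * c.a s * ζ := mul_pos (mul_pos hD ha) hR.ζ0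
  obtain ⟨D₂, hD₂⟩ : ∃ D₂ : ℝ, D₂ = D * c.a s * ζ / (8 * K) := ⟨_, rfl⟩
  have h20 : 0 < D₂ := by rw [hD₂]; positivity
  have h2e : 8 * K * D₂ = D * c.a s * ζ := by rw [hD₂]; field_simp
  have hmle : D * c.a s * ζ ≤ D * ζ := by
    have : D * c.a s * ζ = (D * ζ) * c.a s := by ring
    rw [this]
    exact mul_le_of_le_one_right (mul_pos hD hR.ζ0).le ha1
  have h2Dζ : D₂ ≤ D * ζ := by nlinarith
  have h2Dr : D₂ ≤ D * r := h2Dζ.trans (mul_le_mul_of_nonneg_left hζr hD.le)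
  have h2D : D₂ ≤ D := h2Dζ.trans (mul_le_of_le_one_right hD.le hR.ζ1)
  have h21 : D₂ ≤ 1 := h2D.trans hR.D1
  have mesh : ∀ m : ℝ, 0 ≤ m → X * m ≤ D * c.a s * ζ → m ≤ D₂ := by
    intro m hm0 hm1
    have : 8 * K * m ≤ 8 * K * D₂ := by
      rw [h2e]
      exact (mul_le_mul_of_nonneg_right hX hm0).trans hm1
    exact le_of_mul_le_mul_left this (by positivity)
  have hξ2 := mesh _ hc.ξ0.le hR.ξm
  have hχ2 := mesh _ hc.χ0.le hR.χm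
  have hN2 := mesh _ (Real.rpow_nonneg (by linarith [hc.N1]) _) hR.em
  have haw : D * c.a s * ζ ≤ c.a s * w := by
    calc D * c.a s * ζ ≤ 1 * c.a s * w :=
          mul_le_mul (mul_le_mul_of_nonneg_right hR.D1 ha.le) hζw hR.ζ0.le (by positivity)
      _ = c.a s * w := by ring
  have hMξ : 2 * K * c.ξ ≤ 2 * (c.a s * w) := by
    have : 8 * K * c.ξ ≤ c.a s * w := ((mul_le_mul_of_nonneg_right hX hc.ξ0.le).trans hR.ξm).trans haw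
    nlinarith [mul_pos hK0 hc.ξ0]
  have hϱ2 : c.ϱ ≤ 2 * (c.a s * w) := by
    have h1 : 1 * c.ϱ ≤ X * c.ϱ := mul_le_mul_of_nonneg_right hR.X1 hc.ϱ0.le
    have h2 := (h1.trans hR.ϱm).trans haw
    nlinarith [mul_pos ha hw0]
  have ht01 : (i : ℝ) * η ≤ ((i : ℝ) + 1) * η := by nlinarith
  obtain ⟨T₁, c1, b1⟩ := k8b4_bins D₂ (x.1.2.1 * D + D * e 0) (D * r) h20 h2Dr
  obtain ⟨T₂, c2, b2⟩ := k8b4_bins D₂ (x.1.2.2 * D + D * e 1) (D * r) h20 h2Dr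
  have hcov := k7b5b_cover H.lam (H.Sp ∩ F.chI c.χ D x ∩ {z | ⌊z.2 / η⌋ = i ∧ k8bIn r w a' e (k8bCo H D (c.a s) x z.1) z.2})
    (T₁ ×ˢ T₂)
    (fun τ => (H.Sp ∩ F.chI c.χ D x ∩ {z | ⌊z.2 / η⌋ = i ∧ k8bIn r w a' e (k8bCo H D (c.a s) x z.1) z.2}) ∩
      {z | H.grp c.χ D₂ z.1 = (x.1.1, τ.1, τ.2)})
    (ENNReal.ofReal ((C₀ : ℝ) * K ^ C₀ * (((i : ℝ) + 1) * η - (i : ℝ) * η + c.ξ) * (2 * (c.a s * w)) ^ c.d) *
      (H.pal (k7bIv c.χ x.1.1) * ENNReal.ofReal (D₂ ^ 2)))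
    (by
      intro z hz
      have hpos := k8b4_pos H hD ha.ne' x e z.1 hz.2.2
      refine ⟨(k7bBin D₂ (H.p z.1), k7bBin D₂ (H.q0 z.1)), Finset.mem_product.2 ⟨b1 _ hpos.1, b2 _ hpos.2⟩, hz, ?_⟩
      have hgrp : H.grp c.χ D z.1 = x.1 := hz.1.2.2.1
      have h1 : k7bBin c.χ (H.v z.1) = x.1.1 := congrArg Prod.fst hgrp
      show (k7bBin c.χ (H.v z.1), k7bBin D₂ (H.p z.1), k7bBin D₂ (H.q0 z.1)) = _
      rw [h1])
    (by
      intro τ _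
      rcases Set.eq_empty_or_nonempty ((H.Sp ∩ F.chI c.χ D x ∩ {z | ⌊z.2 / η⌋ = i ∧ k8bIn r w a' e (k8bCo H D (c.a s) x z.1) z.2}) ∩
        {z | H.grp c.χ D₂ z.1 = (x.1.1, τ.1, τ.2)}) with hemp | ⟨z₀, hz₀⟩
      · show H.lam _ ≤ _
        rw [hemp, measure_empty]
        exact zero_le
      · have hlip := (k8b4_piece H c F x i e ha hK hD hok hF hη hζw h20 h2D h2e.le hz₀.1 τ.1 τ.2 hz₀.2).2.2
        have hb := hC₀ c H K D₂ (2 * K) (2 * (c.a s * w)) ((i : ℝ) * η) (((i : ℝ) + 1) * η)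
          (fun t => x.2.ev t (τ.1 * D₂) (τ.2 * D₂) + c.a s * a') (x.1.1, τ.1, τ.2) hc hK hok h21 hξ2 hχ2 hN2 hlip hMξ hϱ2 ht01
        refine (measure_mono ?_).trans hb
        intro z hz
        have hp := k8b4_piece H c F x i e ha hK hD hok hF hη hζw h20 h2D h2e.le hz.1 τ.1 τ.2 hz.2
        exact ⟨⟨hz.1.1.1, hz.2⟩, hp.1, hp.2.1⟩)
  refine hcov.trans ?_
  unfold K7bHor.gW
  have hP0 : 0 ≤ (C₀ : ℝ) * K ^ C₀ * (((i : ℝ) + 1) * η - (i : ℝ) * η + c.ξ) * (2 * (c.a s * w)) ^ c.d := by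
    have : 0 ≤ ((i : ℝ) + 1) * η - (i : ℝ) * η + c.ξ := by linarith [hc.ξ0]
    have h3 : 0 ≤ (2 * (c.a s * w)) ^ c.d := Real.rpow_nonneg (by positivity) _
    positivity
  rw [k7b5b_regroup' hP0, k7b5b_regroup' (by positivity), ← mul_assoc, ← ENNReal.ofReal_natCast, ← ENNReal.ofReal_mul (Nat.cast_nonneg _)]
  refine mul_le_mul_left (ENNReal.ofReal_le_ofReal ?_) _
  rw [Finset.card_product, Nat.cast_mul]
  have hn : ((T₁.card : ℝ) * (T₂.card : ℝ)) * D₂ ^ 2 ≤ 9 * (D ^ 2 * r ^ 2) := by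
    have h0 : 0 ≤ (T₂.card : ℝ) * D₂ := by positivity
    calc ((T₁.card : ℝ) * (T₂.card : ℝ)) * D₂ ^ 2 = ((T₁.card : ℝ) * D₂) * ((T₂.card : ℝ) * D₂) := by ring
      _ ≤ (3 * (D * r)) * (3 * (D * r)) := mul_le_mul c1 c2 h0 (by positivity)
      _ = 9 * (D ^ 2 * r ^ 2) := by ring
  have hτ : ((i : ℝ) + 1) * η - (i : ℝ) * η + c.ξ ≤ 2 * η := by linarith
  have hτ0 : 0 ≤ ((i : ℝ) + 1) * η - (i : ℝ) * η + c.ξ := by linarith [hc.ξ0]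
  have hpw : (2 * (c.a s * w)) ^ c.d ≤ 2 * (c.a s ^ c.d * w ^ c.d) := by
    rw [Real.mul_rpow (by norm_num) (mul_pos ha hw0).le, Real.mul_rpow ha.le hw0.le]
    refine mul_le_mul_of_nonneg_right ?_ (mul_nonneg (Real.rpow_nonneg ha.le _) (Real.rpow_nonneg hw0.le _))
    calc (2 : ℝ) ^ c.d ≤ (2 : ℝ) ^ (1 : ℝ) := Real.rpow_le_rpow_of_exponent_le (by norm_num) hc.d1.le
      _ = 2 := Real.rpow_one 2
  have hpw0 : 0 ≤ (2 * (c.a s * w)) ^ c.d := Real.rpow_nonneg (by positivity) _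
  have hKp : K ^ C₀ ≤ K ^ (36 * C₀) := pow_le_pow_right₀ hK (by omega)
  have had : 0 ≤ c.a s ^ c.d := Real.rpow_nonneg ha.le _
  have hwd : 0 ≤ w ^ c.d := Real.rpow_nonneg hw0.le _
  calc (T₁.card : ℝ) * (T₂.card : ℝ) * ((C₀ : ℝ) * K ^ C₀ * (((i : ℝ) + 1) * η - (i : ℝ) * η + c.ξ) * (2 * (c.a s * w)) ^ c.d * D₂ ^ 2)
      = ((C₀ : ℝ) * K ^ C₀ * (((i : ℝ) + 1) * η - (i : ℝ) * η + c.ξ) * (2 * (c.a s * w)) ^ c.d) * (((T₁.card : ℝ) * (T₂.card : ℝ)) * D₂ ^ 2) := by ring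
    _ ≤ ((C₀ : ℝ) * K ^ (36 * C₀) * (2 * η) * (2 * (c.a s ^ c.d * w ^ c.d))) * (9 * (D ^ 2 * r ^ 2)) := by
        gcongr
    _ = ((36 * C₀ : ℕ) : ℝ) * K ^ (36 * C₀) * η * r ^ 2 * w ^ c.d * c.a s ^ c.d * D ^ 2 := by
        push_cast
        ring

/-! ## 4. The support count (08 l.587-600) -/

/-! ### helpers of `k8b_pair_count` (prefix `k8b_pc_`) -/

theorem k8b_pc_meas_aff (L : ℝ × ℝ × ℝ × ℝ) : Measurable (k7bAff L) := by
  unfold k7bAff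
  fun_prop

/-- the meshes are below `D` -/
theorem k8b_pc_mesh {c : K7bPar} {X s D ζ : ℝ} (hR : K8bRel c X s D ζ) (ha : 0 < c.a s) (ha1 : c.a s ≤ 1) :
    c.χ ≤ D ∧ c.N ^ (-c.e0) ≤ D ∧ c.ϱ ≤ c.a s := by
  have hX0 : 0 < X := lt_of_lt_of_le one_pos hR.X1
  have h1 : D * c.a s * ζ ≤ D := by
    calc D * c.a s * ζ ≤ D * 1 * 1 := mul_le_mul (mul_le_mul_of_nonneg_left ha1 hR.D0.le) hR.ζ1 hR.ζ0.le (by linarith [hR.D0])
      _ = D := by ring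
  have h2 : D * c.a s * ζ ≤ c.a s := by
    calc D * c.a s * ζ ≤ 1 * c.a s * 1 := mul_le_mul (mul_le_mul_of_nonneg_right hR.D1 ha.le) hR.ζ1 hR.ζ0.le (by linarith)
      _ = c.a s := by ring
  have hN : 0 < c.N ^ (-c.e0) := Real.rpow_pos_of_pos (lt_of_lt_of_le one_pos hR.wf.N1) _
  refine ⟨?_, ?_, ?_⟩
  · exact (le_mul_of_one_le_left hR.wf.χ0.le hR.X1).trans (hR.χm.trans h1)
  · exact (le_mul_of_one_le_left hN.le hR.X1).trans (hR.em.trans h1)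
  · exact (le_mul_of_one_le_left hR.wf.ϱ0.le hR.X1).trans (hR.ϱm.trans h2)

/-- at a fixed time all incidences of a chart have the same entry of depth `s` -/
theorem k8b_pc_entry {H : K7bHor} {c : K7bPar} {K s D t : ℝ} {E : Set (H.Lam × ℝ)} {F : K8Lab H} {x : (ℤ × ℤ × ℤ) × K8Pr}
    (hs : s ∈ c.G) (h : H.Ok c K) (hE : E ⊆ H.Sp) (hSel : K8bSel F c s D E) {l l' : H.Lam} (hl : (l, t) ∈ E ∩ F.chI c.χ D x)
    (hl' : (l', t) ∈ E ∩ F.chI c.χ D x) : H.lab s (l', t) = H.lab s (l, t) ∧ H.entOf s (l', t) = H.entOf s (l, t) := by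
  obtain ⟨q1, b1, -⟩ := h.labmem s hs _ (hE hl.1)
  obtain ⟨q2, b2, -⟩ := h.labmem s hs _ (hE hl'.1)
  have hlb : F.lb c.χ D l' = F.lb c.χ D l := by
    have e1 : F.lb c.χ D l = x := Prod.ext hl.2.2.1 hl.2.2.2
    have e2 : F.lb c.χ D l' = x := Prod.ext hl'.2.2.1 hl'.2.2.2
    rw [e1, e2]
  refine hSel _ hl.1 _ hl'.1 hlb ?_
  rcases h.blkdisj s hs _ q2 _ q1 with he | hd
  · exact he
  · exact absurd b1 (Set.disjoint_left.1 hd b2)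

/-- the true box of depth `s₂` of an incidence of the chart at the time `t` lies in the box of the reference point -/
theorem k8b_pc_box {H : K7bHor} {c : K7bPar} {K X s s₂ D ζ t : ℝ} {F : K8Lab H} {x : (ℤ × ℤ × ℤ) × K8Pr} (hR : K8bRel c X s D ζ)
    (hK : 1 ≤ K) (h : H.Ok c K) (hs₂ : s₂ ∈ c.G) (hD : D ≤ c.h s₂ ^ 2) {l : H.Lam} (hl : (l, t) ∈ H.Sp) (hx : l ∈ F.ch c.χ D x) :
    k7bBox (H.ct (H.lab s₂ (l, t))) (H.cZ (H.lab s₂ (l, t))) (H.cY (H.lab s₂ (l, t))) (c.h s₂) K ⊆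
      k7bBox t ((x.1.2.1 : ℝ) * D + t * ((x.1.1 : ℝ) * c.χ)) ((x.1.2.2 : ℝ) * D - t * ((x.1.2.1 : ℝ) * D)) (c.h s₂)
        (5 + K + 2 * 5 * K + K + 2 * (5 + K + 2 * 5 * K) * K) := by
  have hc := hR.wf
  have hK0 : 0 ≤ K := by linarith
  obtain ⟨ha, hh, hah, hh1⟩ := k7b5d_pow c hc (by linarith [hR.khalf]) (hc.G0 s hR.sG)
  have ha1 : c.a s ≤ 1 := hah.trans (pow_le_one₀ hh.le hh1)
  obtain ⟨-, hh₂, -, hh₂1⟩ := k7b5d_pow c hc (by linarith [hR.khalf]) (hc.G0 s₂ hs₂)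
  obtain ⟨hχD, heD, -⟩ := k8b_pc_mesh hR ha ha1
  have ht01 : t ∈ Set.Icc (0 : ℝ) 1 := h.time _ hl
  obtain ⟨pz, py⟩ := k7b_grp_pos c H hc h hR.D0 hχD heD hl ht01
  have hg : H.grp c.χ D l = x.1 := hx.2.1
  simp only [hg] at pz py
  unfold k7bRef at pz py
  simp only at pz py
  have hhh : c.h s₂ ^ 2 ≤ c.h s₂ := by nlinarith
  have h1 : (t, H.Zt l t, H.Yt l t) ∈ k7bBox t ((x.1.2.1 : ℝ) * D + t * ((x.1.1 : ℝ) * c.χ))
      ((x.1.2.2 : ℝ) * D - t * ((x.1.2.1 : ℝ) * D)) (c.h s₂) 5 := by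
    refine ⟨?_, ?_, ?_⟩
    · show |t - t| ≤ _
      rw [sub_self, abs_zero]
      positivity
    · show |H.Zt l t - ((x.1.2.1 : ℝ) * D + t * ((x.1.1 : ℝ) * c.χ))| ≤ _
      linarith
    · show |H.Yt l t - ((x.1.2.2 : ℝ) * D - t * ((x.1.2.1 : ℝ) * D)) - (-((x.1.2.1 : ℝ) * D + t * ((x.1.1 : ℝ) * c.χ)) * (t - t)
        + t * (H.Zt l t - ((x.1.2.1 : ℝ) * D + t * ((x.1.1 : ℝ) * c.χ))))| ≤ _
      have e3 : |t * (H.Zt l t - ((x.1.2.1 : ℝ) * D + t * ((x.1.1 : ℝ) * c.χ)))| ≤ 1 * (2 * D) := by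
        rw [abs_mul]
        exact mul_le_mul (by rw [abs_of_nonneg ht01.1]; exact ht01.2) pz (abs_nonneg _) zero_le_one
      have e4 : H.Yt l t - ((x.1.2.2 : ℝ) * D - t * ((x.1.2.1 : ℝ) * D)) - (-((x.1.2.1 : ℝ) * D + t * ((x.1.1 : ℝ) * c.χ)) * (t - t)
          + t * (H.Zt l t - ((x.1.2.1 : ℝ) * D + t * ((x.1.1 : ℝ) * c.χ))))
          = (H.Yt l t - ((x.1.2.2 : ℝ) * D - t * ((x.1.2.1 : ℝ) * D))) - t * (H.Zt l t - ((x.1.2.1 : ℝ) * D + t * ((x.1.1 : ℝ) * c.χ))) := by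
        ring
      rw [e4]
      refine (abs_sub _ _).trans ?_
      linarith
  obtain ⟨hq, hb, hasg⟩ := h.labmem s₂ hs₂ _ hl
  have hbox := h.box s₂ hs₂ _ hq l hasg t hb
  have hcen := k7b5d_symm (t := t) (Z := H.Zt l t) (Y := H.Yt l t) hbox
  have e1 := k7b_box_engulf (t' := t) (Z' := H.Zt l t) (Y' := H.Yt l t) hh₂.le (by norm_num : (0 : ℝ) ≤ 5) hK0 h1
  exact k7b_box_engulf hh₂.le (by positivity) hK0 (e1 hcen)

theorem k8b_pc_fin {n K A A₂ h4 ρ₃ : ℝ} (hK : 1 ≤ K) (hA : 0 < A) (hA₂ : 0 < A₂) (hh : 0 < h4) (hρ0 : 0 ≤ ρ₃) (hρ : ρ₃ ≤ 49 * K ^ 2)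
    (hn : n * (A₂ * h4 / K ^ 2) ≤ K * (K * (K * A) * (8 * ρ₃ ^ 3 * h4))) : n ≤ 941192 * K ^ 11 * (A / A₂) := by
  have hK0 : 0 < K := by linarith
  have e1 : n * (A₂ * h4 / K ^ 2) = n * A₂ * h4 / K ^ 2 := by ring
  rw [e1, div_le_iff₀ (by positivity)] at hn
  have h3 : ρ₃ ^ 3 ≤ (49 * K ^ 2) ^ 3 := pow_le_pow_left₀ hρ0 hρ 3
  have h4' : h4 * (n * A₂) ≤ h4 * (941192 * K ^ 11 * A) := by
    calc h4 * (n * A₂) = n * A₂ * h4 := by ring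
      _ ≤ K * (K * (K * A) * (8 * ρ₃ ^ 3 * h4)) * K ^ 2 := hn
      _ ≤ K * (K * (K * A) * (8 * (49 * K ^ 2) ^ 3 * h4)) * K ^ 2 := by gcongr
      _ = h4 * (941192 * K ^ 11 * A) := by ring
  have h5 := le_of_mul_le_mul_left h4' hh
  rw [← mul_div_assoc, le_div_iff₀ hA₂]
  exact h5

/-- **L-252-S8b-S5a** (~500 l.): AT A FIXED TIME A CHART MEETS `≤ C K^C (a_s/a_{s₂})^d` PAIRS (true label, entry) OF THE DEPTH `s₂ ≥ s`.
PROOF (as `k7b_box_count`, `S7b/P5Box.lean`; reuse `k7b5d_symm`, `k7b5d_box_meas`, `k7b5d_box_vol` and copy the box algebra of `k7b5d_base_in`, `k7b5d_qbox_sub`).   `h₂ = c.h s₂`, `a₂ = c.a s₂`, `a = c.a s`.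
For `y ∈ S` choose `z_y = (l_y, t) ∈ E ∩ chI x`.   (i) `base z_y` is within `(0, 2D, 3D)` of the reference point `k7bRef χ D x.1 t` (`k7b_grp_pos`), `D ≤ h₂²`; it lies in the true box of `lab s₂ z_y` (`hok.box`, `labmem`);
so this box is contained in `𝔅 := k7bBox` around the reference point, scale `h₂`, enlargement `ρ ≤ 58 K³`; `vol 𝔅 = 8 ρ³ h₂⁴`.
(ii) All `z_y` have the same label of `F` and the same time, hence (blocks containing `t`: `blkdisj`) the same block at the depth `s`; `K8bSel`: the same entry `L₀ = entOf s z_y`.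
(iii) `W_y := E₀ ∩ H.pairEv s s₂ z_y` are pairwise disjoint, measurable (`mlab`, `ment`), `mQ (lab s₂ z_y) ≤ K lam W_y` (`Pairs`), `mQ ≥ (h₂/K)(a₂^d h₂³/K)` (`bllen`, `νQ`).
(iv) `W_y ⊆ Sp ∩ {base ∈ 𝔅 ∧ |X - k7bAff L₀ base| ≤ K a}` (`box`, `labmem`, `entfit` at the depth `s`).   `capP` with `r = K a ∈ [ϱ, 1]`: total `≤ K (K a)^d 8 ρ³ h₂⁴`.   Divide. -/
theorem k8b_pair_count : ∃ C : ℕ, ∀ (H : K7bHor) (c : K7bPar) (K X s s₂ D ζ t : ℝ) (E₀ E : Set (H.Lam × ℝ)) (F : K8Lab H)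
    (x : (ℤ × ℤ × ℤ) × K8Pr) (S : Finset (H.Q × (ℝ × ℝ × ℝ × ℝ))), K8bRel c X s D ζ → 1 ≤ K → 8 * K ≤ X → H.Ok c K → K8Prep H c K E₀ E →
    K8bSel F c s D E → s₂ ∈ c.G → s ≤ s₂ → D ≤ c.h s₂ ^ 2 →
    (∀ y ∈ S, ∃ l, (l, t) ∈ E ∩ F.chI c.χ D x ∧ (H.lab s₂ (l, t), H.entOf s₂ (l, t)) = y) →
    (S.card : ℝ) ≤ (C : ℝ) * K ^ C * (c.a s / c.a s₂) ^ c.d := by
  refine ⟨941192, ?_⟩
  intro H c K X s s₂ D ζ t E₀ E F x S hR hK hX h hP hSel hs₂ hss hD hS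
  have hc := hR.wf
  have hs := hR.sG
  have hK0 : 0 < K := by linarith
  have hE : E ⊆ H.Sp := hP.sub.trans hP.sub0
  obtain ⟨ha, hh, hah, hh1⟩ := k7b5d_pow c hc (by linarith [hR.khalf]) (hc.G0 s hs)
  have ha1 : c.a s ≤ 1 := hah.trans (pow_le_one₀ hh.le hh1)
  obtain ⟨ha₂, hh₂, -, -⟩ := k7b5d_pow c hc (by linarith [hR.khalf]) (hc.G0 s₂ hs₂)
  have hrat : 0 ≤ (c.a s / c.a s₂) ^ c.d := Real.rpow_nonneg (div_pos ha ha₂).le _
  by_cases hne : S.Nonempty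
  swap
  · rw [Finset.not_nonempty_iff_eq_empty.1 hne]
    simp only [Finset.card_empty, Nat.cast_zero]
    positivity
  obtain ⟨y₀, hy₀⟩ := hne
  obtain ⟨l₀, hl₀, -⟩ := hS y₀ hy₀
  obtain ⟨L₀, hL₀⟩ : ∃ L₀, L₀ = H.entOf s (l₀, t) := ⟨_, rfl⟩
  obtain ⟨ρ₃, hρ₃⟩ : ∃ ρ₃ : ℝ, ρ₃ = 5 + K + 2 * 5 * K + K + 2 * (5 + K + 2 * 5 * K) * K := ⟨_, rfl⟩
  have hρ0 : 0 ≤ ρ₃ := by rw [hρ₃]; positivity
  have hρ : ρ₃ ≤ 49 * K ^ 2 := by
    rw [hρ₃]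
    nlinarith
  obtain ⟨Bs, hBs⟩ : ∃ Bs : Set (ℝ × ℝ × ℝ), Bs = k7bBox t ((x.1.2.1 : ℝ) * D + t * ((x.1.1 : ℝ) * c.χ))
      ((x.1.2.2 : ℝ) * D - t * ((x.1.2.1 : ℝ) * D)) (c.h s₂) ρ₃ := ⟨_, rfl⟩
  have mBs : MeasurableSet Bs := by rw [hBs]; exact k7b5d_box_meas _ _ _ _ _
  have vBs : volume Bs ≤ ENNReal.ofReal (8 * ρ₃ ^ 3 * c.h s₂ ^ 4) := by
    rw [hBs]
    exact k7b5d_box_vol _ _ _ _ _ hh₂.le hρ0
  obtain ⟨-, -, hϱa⟩ := k8b_pc_mesh hR ha ha1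
  have hr1 : K * c.a s ≤ 1 := by
    have : 8 * K * c.a s ≤ X * c.a s := mul_le_mul_of_nonneg_right hX ha.le
    have := hR.aX
    nlinarith
  have hϱ : c.ϱ ≤ K * c.a s := hϱa.trans (le_mul_of_one_le_left ha.le hK)
  have hcap := h.capP Bs (k7bAff L₀) (K * c.a s) mBs (k8b_pc_meas_aff L₀) hϱ hr1
  have hpack := k7b_packing (ENNReal.ofReal K • H.lam) S
    (fun y => E₀ ∩ {z' | H.lab s₂ z' = y.1 ∧ H.entOf s₂ z' = y.2 ∧ H.entOf s z' = L₀})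
    (H.Sp ∩ {z | H.base z ∈ Bs ∧ |H.X z - k7bAff L₀ (H.base z)| ≤ K * c.a s})
    (fun y _ => hP.meas0.inter ((h.mlab s₂ hs₂ y.1).inter ((h.ment s₂ hs₂ y.2).inter (h.ment s hs L₀)))) ?_ ?_
    (m := ENNReal.ofReal (c.a s₂ ^ c.d * c.h s₂ ^ 4 / K ^ 2)) ?_
  · have hAd : 0 < c.a s ^ c.d := Real.rpow_pos_of_pos ha _
    have hAd₂ : 0 < c.a s₂ ^ c.d := Real.rpow_pos_of_pos ha₂ _
    have hKad : (K * c.a s) ^ c.d ≤ K * c.a s ^ c.d := by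
      rw [Real.mul_rpow hK0.le ha.le]
      refine mul_le_mul_of_nonneg_right ?_ hAd.le
      calc K ^ c.d ≤ K ^ (1 : ℝ) := Real.rpow_le_rpow_of_exponent_le hK hc.d1.le
        _ = K := Real.rpow_one _
    have h1 : (S.card : ℝ≥0∞) * ENNReal.ofReal (c.a s₂ ^ c.d * c.h s₂ ^ 4 / K ^ 2) ≤
        ENNReal.ofReal (K * (K * (K * c.a s ^ c.d) * (8 * ρ₃ ^ 3 * c.h s₂ ^ 4))) := by
      refine hpack.trans ?_
      rw [Measure.smul_apply, smul_eq_mul, ENNReal.ofReal_mul hK0.le, ENNReal.ofReal_mul (by positivity)]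
      refine mul_le_mul' le_rfl (hcap.trans (mul_le_mul' (ENNReal.ofReal_le_ofReal ?_) vBs))
      exact mul_le_mul_of_nonneg_left hKad hK0.le
    rw [← ENNReal.ofReal_natCast, ← ENNReal.ofReal_mul (Nat.cast_nonneg _),
      ENNReal.ofReal_le_ofReal_iff (by positivity)] at h1
    have h2 := k8b_pc_fin hK hAd hAd₂ (by positivity : 0 < c.h s₂ ^ 4) hρ0 hρ h1
    rw [Real.div_rpow ha.le ha₂.le]
    refine h2.trans ?_
    refine mul_le_mul_of_nonneg_right ?_ (div_pos hAd hAd₂).le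
    push_cast
    exact mul_le_mul_of_nonneg_left (pow_le_pow_right₀ hK (by norm_num)) (by norm_num)
  · intro y _ y' _ hyy
    refine Set.disjoint_left.2 fun z hz hz' => hyy ?_
    exact Prod.ext (hz.2.1.symm.trans hz'.2.1) (hz.2.2.1.symm.trans hz'.2.2.1)
  · intro y hy z' hz'
    obtain ⟨l, hl, hly⟩ := hS y hy
    have hz'S : z' ∈ H.Sp := hP.sub0 hz'.1
    obtain ⟨hq', hb', ha'⟩ := h.labmem s₂ hs₂ z' hz'S
    have hbox := h.box s₂ hs₂ _ hq' z'.1 ha' z'.2 hb'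
    have hl2 : H.lab s₂ z' = H.lab s₂ (l, t) := hz'.2.1.trans (congrArg Prod.fst hly).symm
    rw [hl2] at hbox
    have hsub := k8b_pc_box hR hK h hs₂ hD (hE hl.1) hl.2
    refine ⟨hz'S, ?_, ?_⟩
    · show H.base z' ∈ Bs
      rw [hBs, hρ₃]
      exact hsub hbox
    · have hf := h.entfit s hs z' hz'S z'.2 (h.labmem s hs z' hz'S).2.1
      rw [hz'.2.2.2] at hf
      exact hf
  · intro y hy
    obtain ⟨l, hl, hly⟩ := hS y hy
    have hp := hP.pairs s hs s₂ hs₂ hss _ hl.1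
    obtain ⟨hqQ, -, -⟩ := h.labmem s₂ hs₂ _ (hE hl.1)
    have hbl := (h.bllen s₂ hs₂ _ hqQ).1
    have hν := (h.νQ s₂ hs₂ _ hqQ).1
    have hmQ : ENNReal.ofReal (c.a s₂ ^ c.d * c.h s₂ ^ 4 / K ^ 2) ≤ H.mQ (H.lab s₂ (l, t)) := by
      unfold K7bHor.mQ
      have e : c.a s₂ ^ c.d * c.h s₂ ^ 4 / K ^ 2 = c.h s₂ / K * (c.a s₂ ^ c.d * c.h s₂ ^ 3 / K) := by
        field_simp
      rw [e, ENNReal.ofReal_mul (by positivity)]
      exact mul_le_mul' (ENNReal.ofReal_le_ofReal hbl) hν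
    rw [Measure.smul_apply, smul_eq_mul]
    refine hmQ.trans (hp.trans (mul_le_mul' le_rfl (measure_mono ?_)))
    rintro z' ⟨h1, h2, h3, h4⟩
    refine ⟨h1, h2.trans (congrArg Prod.fst hly), h3.trans (congrArg Prod.snd hly), h4.trans ?_⟩
    rw [hL₀]
    exact (k8b_pc_entry hs h hE hSel hl₀ hl).2

/-! ### helpers of `k8b_S_near` (prefix `k8b_sn_`) -/

/-- two affine functions which are `B`-close on a centred box of scale `h` have close slopes -/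
theorem k8b_sn_slopes {L L' : ℝ × ℝ × ℝ × ℝ} {tc Zc Yc h B : ℝ} (hh : 0 < h)
    (hb : ∀ u ∈ k7bBox tc Zc Yc h 1, |k7bAff L u - k7bAff L' u| ≤ B) :
    |L.2.2.2 - L'.2.2.2| * h ^ 2 ≤ B ∧ |(L.2.2.1 - L'.2.2.1) + tc * (L.2.2.2 - L'.2.2.2)| * h ≤ B := by
  have hh2 : 0 < h ^ 2 := by positivity
  have m1 : (tc, Zc, Yc + h ^ 2) ∈ k7bBox tc Zc Yc h 1 := by
    refine ⟨?_, ?_, ?_⟩
    · show |tc - tc| ≤ 1 * h
      rw [sub_self, abs_zero]; linarith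
    · show |Zc - Zc| ≤ 1 * h
      rw [sub_self, abs_zero]; linarith
    · show |Yc + h ^ 2 - Yc - (-Zc * (tc - tc) + tc * (Zc - Zc))| ≤ 1 * h ^ 2
      have : Yc + h ^ 2 - Yc - (-Zc * (tc - tc) + tc * (Zc - Zc)) = h ^ 2 := by ring
      rw [this, abs_of_pos hh2, one_mul]
  have m2 : (tc, Zc, Yc - h ^ 2) ∈ k7bBox tc Zc Yc h 1 := by
    refine ⟨?_, ?_, ?_⟩
    · show |tc - tc| ≤ 1 * h
      rw [sub_self, abs_zero]; linarith
    · show |Zc - Zc| ≤ 1 * h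
      rw [sub_self, abs_zero]; linarith
    · show |Yc - h ^ 2 - Yc - (-Zc * (tc - tc) + tc * (Zc - Zc))| ≤ 1 * h ^ 2
      have : Yc - h ^ 2 - Yc - (-Zc * (tc - tc) + tc * (Zc - Zc)) = -(h ^ 2) := by ring
      rw [this, abs_neg, abs_of_pos hh2, one_mul]
  have m3 : (tc, Zc + h, Yc + tc * h) ∈ k7bBox tc Zc Yc h 1 := by
    refine ⟨?_, ?_, ?_⟩
    · show |tc - tc| ≤ 1 * h
      rw [sub_self, abs_zero]; linarith
    · show |Zc + h - Zc| ≤ 1 * h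
      rw [add_sub_cancel_left, abs_of_pos hh, one_mul]
    · show |Yc + tc * h - Yc - (-Zc * (tc - tc) + tc * (Zc + h - Zc))| ≤ 1 * h ^ 2
      have : Yc + tc * h - Yc - (-Zc * (tc - tc) + tc * (Zc + h - Zc)) = 0 := by ring
      rw [this, abs_zero]; linarith
  have m4 : (tc, Zc - h, Yc - tc * h) ∈ k7bBox tc Zc Yc h 1 := by
    refine ⟨?_, ?_, ?_⟩
    · show |tc - tc| ≤ 1 * h
      rw [sub_self, abs_zero]; linarith
    · show |Zc - h - Zc| ≤ 1 * h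
      have : Zc - h - Zc = -h := by ring
      rw [this, abs_neg, abs_of_pos hh, one_mul]
    · show |Yc - tc * h - Yc - (-Zc * (tc - tc) + tc * (Zc - h - Zc))| ≤ 1 * h ^ 2
      have : Yc - tc * h - Yc - (-Zc * (tc - tc) + tc * (Zc - h - Zc)) = 0 := by ring
      rw [this, abs_zero]; linarith
  have u1 := hb _ m1
  have u2 := hb _ m2
  have u3 := hb _ m3
  have u4 := hb _ m4
  unfold k7bAff at u1 u2 u3 u4
  simp only at u1 u2 u3 u4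
  rw [abs_le] at u1 u2 u3 u4
  constructor
  · rw [← abs_of_pos hh2, ← abs_mul, abs_le]
    constructor <;> nlinarith [u1.1, u1.2, u2.1, u2.2]
  · rw [← abs_of_pos hh, ← abs_mul, abs_le]
    constructor <;> nlinarith [u3.1, u3.2, u4.1, u4.2]

theorem k8b_sn_tri (a b c d : ℝ) : |a + b + c + d| ≤ |a| + |b| + |c| + |d| :=
  (abs_add_le _ _).trans (add_le_add ((abs_add_le _ _).trans (add_le_add (abs_add_le _ _) le_rfl)) le_rfl)

theorem k8b_sn_num {K : ℝ} (hK : 1 ≤ K) : K + 3 / 2 + (4 + K) * K ≤ 8 * K ^ 2 := by nlinarith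

/-- the slopes of the deep entry are `≤ 4K`, `≤ 2K` -/
theorem k8b_sn_grad {K r1 r2 t g1 g2 : ℝ} (hK0 : 0 < K) (h1 : r1 ≤ 1) (h2 : r2 ≤ 1) (ht : t ∈ Set.Icc (0 : ℝ) 1)
    (sl2 : |g1 + g2 * t| ≤ K * (1 + r1)) (sl3 : |g2| ≤ K * (1 + r2)) : |g1| ≤ 4 * K ∧ |g2| ≤ 2 * K := by
  have a2 : |g2| ≤ 2 * K := by
    refine sl3.trans ?_
    have := mul_le_mul_of_nonneg_left h2 hK0.le
    linarith
  have a1 : |g1 + g2 * t| ≤ 2 * K := by
    refine sl2.trans ?_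
    have := mul_le_mul_of_nonneg_left h1 hK0.le
    linarith
  refine ⟨?_, a2⟩
  have q5 : |g2 * t| ≤ 2 * K * 1 := by
    rw [abs_mul]
    exact mul_le_mul a2 (by rw [abs_of_nonneg ht.1]; exact ht.2) (abs_nonneg _) (by linarith)
  have : |g1| ≤ |g1 + g2 * t| + |g2 * t| := by
    have := abs_sub (g1 + g2 * t) (g2 * t)
    simpa using this
  linarith

/-- the slope terms -/
theorem k8b_sn_est {K a a₂ h D t tc da dg P Q : ℝ} (hK0 : 0 < K) (ha : 0 < a) (hh : 0 < h) (hh1 : h ≤ 1) (ht : t ∈ Set.Icc (0 : ℝ) 1)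
    (f1 : |dg| * h ^ 2 ≤ K * a) (f2 : |da + tc * dg| * h ≤ K * a) (htc : |t - tc| ≤ K * h) (pD : |P| ≤ D) (qD : |Q| ≤ D)
    (hD : D * a ≤ h ^ 2 * a₂) : |(da - t * dg) * P| + |dg * Q| ≤ (4 + K) * K * a₂ := by
  have hh22 : 0 < h ^ 2 := by positivity
  have hKa : 0 ≤ K * a := by positivity
  have t1 : |da - t * dg| * h ^ 2 ≤ (3 + K) * (K * a) := by
    have e : da - t * dg = (da + tc * dg) - (t + tc) * dg := by ring
    have w1 : |t + tc| ≤ 2 + K := by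
      have : K * h ≤ K := mul_le_of_le_one_right hK0.le hh1
      rw [abs_le] at htc ⊢
      constructor <;> linarith [ht.1, ht.2, htc.1, htc.2]
    have w2 : |(t + tc) * dg| * h ^ 2 ≤ (2 + K) * (K * a) := by
      rw [abs_mul, mul_assoc]
      exact mul_le_mul w1 f1 (by positivity) (by linarith)
    have w3 : |da + tc * dg| * h ^ 2 ≤ K * a := by
      calc |da + tc * dg| * h ^ 2 = (|da + tc * dg| * h) * h := by ring
        _ ≤ (K * a) * 1 := mul_le_mul f2 hh1 hh.le hKa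
        _ = K * a := mul_one _
    rw [e]
    calc |da + tc * dg - (t + tc) * dg| * h ^ 2 ≤ (|da + tc * dg| + |(t + tc) * dg|) * h ^ 2 :=
          mul_le_mul_of_nonneg_right (abs_sub _ _) hh22.le
      _ = |da + tc * dg| * h ^ 2 + |(t + tc) * dg| * h ^ 2 := by ring
      _ ≤ K * a + (2 + K) * (K * a) := add_le_add w3 w2
      _ = (3 + K) * (K * a) := by ring
  have v1 : (|(da - t * dg) * P| + |dg * Q|) * h ^ 2 ≤ ((4 + K) * K * a₂) * h ^ 2 := by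
    rw [abs_mul, abs_mul]
    calc (|da - t * dg| * |P| + |dg| * |Q|) * h ^ 2
        = (|da - t * dg| * h ^ 2) * |P| + (|dg| * h ^ 2) * |Q| := by ring
      _ ≤ ((3 + K) * (K * a)) * D + (K * a) * D :=
          add_le_add (mul_le_mul t1 pD (abs_nonneg _) (by positivity)) (mul_le_mul f1 qD (abs_nonneg _) hKa)
      _ = (4 + K) * K * (D * a) := by ring
      _ ≤ (4 + K) * K * (h ^ 2 * a₂) := mul_le_mul_of_nonneg_left hD (by positivity)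
      _ = ((4 + K) * K * a₂) * h ^ 2 := by ring
  exact le_of_mul_le_mul_right v1 hh22

/-- **L-252-S8b-S5b** (~450 l.): GIVEN THE ENTRIES, THE SCALAR `S(t)` IS KNOWN TO `8 K a_{s₂}/a_s`.
`k8bS0` below is the value predicted by the entries `L₂` (depth `s₂`), `L₀` (depth `s`).
PROOF.  `z = (l,t)`, `P = (p l, q0 l)`, `P_c = (x.1.2.1 D, x.1.2.2 D)`, `v_c = x.1.1 χ`, `h = x.2`, `𝓛_i(P) := k8Cal L_i v_c t P`.   All functions are affine in `P`.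
(1) `|X z - k7bAff L₂ (base z)| ≤ K a₂` (`entfit`, `labmem`).   (2) `base z = (t, p + t v, q + t y1)`, `|v - v_c| ≤ χ`, `|y1 + p| ≤ N^(-e₀)` (`heq`), `|L₂.Y| ≤ 2K`, `|L₂.Z| ≤ 4K` (`Slopes`, `a ≤ h² ≤ h` since `2k ≤ 1`, `|t| ≤ 1`):
`|k7bAff L₂ (base z) - 𝓛₂(P)| ≤ 4K χ + 2K N^(-e₀) ≤ K a₂`  (`K8bRel`, `X ≥ 8K`, `a ζ ≤ 2 a₂`… use `hω`).
(3) algebra: `a S = X - h(P) - ∇(𝓛₀ - h)·(P - P_c) = (X - 𝓛₂(P)) + (𝓛₂ - 𝓛₀)(P) + (𝓛₀ - h)(P_c)` and `(𝓛₂ - 𝓛₀)(P) = (𝓛₂ - 𝓛₀)(P_c) + ∇(𝓛₂ - 𝓛₀)·(P - P_c)`.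
(4) `M := L₂ - L₀` is bounded by `K a` on the box `qBox c s₂ (lab s₂ z) 1` (`PairFit`, `R = 1`).   Parametrise the box `(tc + α, Zc + β, Yc - Zc α + tc β + γ)`: `|M.Y| ≤ K a/h₂²`, `|M.Z + tc M.Y| ≤ K a/h₂`; `|tc| ≤ 1 + K h₂`… use `|t - tc| ≤ K h₂` (`box`) and `|t| ≤ 1`:
`|∂_p 𝓜| = |M.Z - t M.Y| ≤ K a/h₂ + (2 + K h₂) K a/h₂² ≤ (3 + K) K a / h₂²`, `|∂_q 𝓜| ≤ K a/h₂²`; `|P - P_c| ≤ D`: variation `≤ (4 + K) K a D/h₂² ≤ (4 + K) K a₂` by `hD`. -/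
def k8bS0 (χ D a t : ℝ) (x : (ℤ × ℤ × ℤ) × K8Pr) (L₂ : ℝ × ℝ × ℝ × ℝ) : ℝ :=
  (k8Cal L₂ (x.1.1 * χ) t (x.1.2.1 * D) (x.1.2.2 * D) - x.2.ev t (x.1.2.1 * D) (x.1.2.2 * D)) / a

theorem k8b_S_near (H : K7bHor) (c : K7bPar) {K X s s₂ D ζ : ℝ} {E₀ E : Set (H.Lam × ℝ)} (F : K8Lab H) (x : (ℤ × ℤ × ℤ) × K8Pr)
    (hR : K8bRel c X s D ζ) (hK : 1 ≤ K) (hX : 8 * K ≤ X) (hok : H.Ok c K) (hP : K8Prep H c K E₀ E) (hs₂ : s₂ ∈ c.G) (hss : s ≤ s₂)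
    (hD : D * c.a s ≤ c.h s₂ ^ 2 * c.a s₂) (hζ : c.a s * ζ ≤ 2 * c.a s₂) {z : H.Lam × ℝ} (hz : z ∈ E ∩ F.chI c.χ D x) :
    |k5_S (k8bRow D (c.a s) x.2 (H.entOf s z) z.2) (k8bCo H D (c.a s) x z.1) z.2 - k8bS0 c.χ D (c.a s) z.2 x (H.entOf s₂ z)|
      ≤ 8 * K ^ 2 * (c.a s₂ / c.a s) := by
  have hc := hR.wf
  have hs := hR.sG
  have hK0 : 0 < K := by linarith
  have hD0 := hR.D0
  have hzS : z ∈ H.Sp := hP.sub0 (hP.sub hz.1)
  obtain ⟨ha, -, -, -⟩ := k7b5d_pow c hc (by linarith [hR.khalf]) (hc.G0 s hs)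
  obtain ⟨ha₂, hh₂, hah₂, hh₂1⟩ := k7b5d_pow c hc (by linarith [hR.khalf]) (hc.G0 s₂ hs₂)
  have ht := hok.time z hzS
  obtain ⟨L₀, hL₀⟩ : ∃ L₀, L₀ = H.entOf s z := ⟨_, rfl⟩
  obtain ⟨L₂, hL₂⟩ : ∃ L₂, L₂ = H.entOf s₂ z := ⟨_, rfl⟩
  rw [← hL₀, ← hL₂]
  -- the identity
  obtain ⟨hx, hy, -, -⟩ := k8b_co_x H (D := D) ha.ne' x z.1 z.2
  have hS : k5_S (k8bRow D (c.a s) x.2 L₀ z.2) (k8bCo H D (c.a s) x z.1) z.2
      = (H.Xt z.1 z.2 - x.2.ev z.2 (H.p z.1) (H.q0 z.1)) / c.a s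
        - (D / c.a s * (L₀.2.2.1 - z.2 * L₀.2.2.2 - (x.2.p0 + x.2.p1 * z.2)) * ((H.p z.1 - x.1.2.1 * D) / D)
          + D / c.a s * (L₀.2.2.2 - (x.2.q0 + x.2.q1 * z.2)) * ((H.q0 z.1 - x.1.2.2 * D) / D)) := by
    unfold k5_S
    rw [hx, hy]
    simp [k8bRow, dotProduct, Fin.sum_univ_two]
  have key : k5_S (k8bRow D (c.a s) x.2 L₀ z.2) (k8bCo H D (c.a s) x z.1) z.2 - k8bS0 c.χ D (c.a s) z.2 x L₂
      = ((H.Xt z.1 z.2 - k7bAff L₂ (H.bs z.1 z.2))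
          + (L₂.2.2.1 * (z.2 * (H.v z.1 - x.1.1 * c.χ)) + L₂.2.2.2 * (z.2 * (H.y1 z.1 + H.p z.1)))
          + ((L₂.2.2.1 - L₀.2.2.1) - z.2 * (L₂.2.2.2 - L₀.2.2.2)) * (H.p z.1 - x.1.2.1 * D)
          + (L₂.2.2.2 - L₀.2.2.2) * (H.q0 z.1 - x.1.2.2 * D)) / c.a s := by
    rw [hS]
    unfold k8bS0 k8Cal k7bAff K8Pr.ev K7bHor.bs K7bHor.Xt K7bHor.Zt K7bHor.Yt
    field_simp
    ring
  -- (1)
  have b1 : |H.Xt z.1 z.2 - k7bAff L₂ (H.bs z.1 z.2)| ≤ K * c.a s₂ := by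
    rw [hL₂]
    exact hok.entfit s₂ hs₂ z hzS z.2 (hok.labmem s₂ hs₂ z hzS).2.1
  -- (2)
  obtain ⟨-, sl2, sl3⟩ := hP.slopes s₂ hs₂ z hz.1
  rw [← hL₂] at sl2 sl3
  have r1 : c.a s₂ / c.h s₂ ^ 2 ≤ 1 := (div_le_one (by positivity)).2 hah₂
  have r2 : c.a s₂ / c.h s₂ ≤ 1 := by
    rw [div_le_one hh₂]
    calc c.a s₂ ≤ c.h s₂ ^ 2 := hah₂
      _ = c.h s₂ * c.h s₂ := sq _
      _ ≤ c.h s₂ * 1 := mul_le_mul_of_nonneg_left hh₂1 hh₂.le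
      _ = c.h s₂ := mul_one _
  obtain ⟨g1, g2⟩ := k8b_sn_grad hK0 r2 r1 ht sl2 sl3
  have hgrp : H.grp c.χ D z.1 = x.1 := hz.2.2.1
  have hv1 := k7b5a_bin_lo hc.χ0 (H.v z.1)
  have hv2 := k7b5a_bin_hi hc.χ0 (H.v z.1)
  have hp1 := k7b5a_bin_lo hD0 (H.p z.1)
  have hp2 := k7b5a_bin_hi hD0 (H.p z.1)
  have hq1 := k7b5a_bin_lo hD0 (H.q0 z.1)
  have hq2 := k7b5a_bin_hi hD0 (H.q0 z.1)
  have eg1 : k7bBin c.χ (H.v z.1) = x.1.1 := congrArg Prod.fst hgrp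
  have eg2 : k7bBin D (H.p z.1) = x.1.2.1 := congrArg (fun g => g.2.1) hgrp
  have eg3 : k7bBin D (H.q0 z.1) = x.1.2.2 := congrArg (fun g => g.2.2) hgrp
  rw [eg1] at hv1 hv2
  rw [eg2] at hp1 hp2
  rw [eg3] at hq1 hq2
  have hheq := hok.heq z hzS
  have tabs : |z.2| ≤ 1 := by rw [abs_of_nonneg ht.1]; exact ht.2
  have c1 : |z.2 * (H.v z.1 - x.1.1 * c.χ)| ≤ c.χ := by
    rw [abs_mul]
    calc |z.2| * |H.v z.1 - x.1.1 * c.χ| ≤ 1 * c.χ := by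
          refine mul_le_mul tabs ?_ (abs_nonneg _) zero_le_one
          rw [abs_le]; constructor <;> linarith
      _ = c.χ := one_mul _
  have c2 : |z.2 * (H.y1 z.1 + H.p z.1)| ≤ c.N ^ (-c.e0) := by
    rw [abs_mul]
    calc |z.2| * |H.y1 z.1 + H.p z.1| ≤ 1 * c.N ^ (-c.e0) := mul_le_mul tabs hheq (abs_nonneg _) zero_le_one
      _ = c.N ^ (-c.e0) := one_mul _
  have hDaζ : D * c.a s * ζ ≤ 2 * c.a s₂ := by
    calc D * c.a s * ζ = D * (c.a s * ζ) := by ring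
      _ ≤ 1 * (c.a s * ζ) := mul_le_mul_of_nonneg_right hR.D1 (mul_pos ha hR.ζ0).le
      _ ≤ 2 * c.a s₂ := by rw [one_mul]; exact hζ
  have hN0 : 0 < c.N ^ (-c.e0) := Real.rpow_pos_of_pos (lt_of_lt_of_le one_pos hc.N1) _
  have m1 : 8 * K * c.χ ≤ 2 * c.a s₂ := (mul_le_mul_of_nonneg_right hX hc.χ0.le).trans (hR.χm.trans hDaζ)
  have m2 : 8 * K * c.N ^ (-c.e0) ≤ 2 * c.a s₂ := (mul_le_mul_of_nonneg_right hX hN0.le).trans (hR.em.trans hDaζ)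
  have b2 : |L₂.2.2.1 * (z.2 * (H.v z.1 - x.1.1 * c.χ)) + L₂.2.2.2 * (z.2 * (H.y1 z.1 + H.p z.1))| ≤ 3 / 2 * c.a s₂ := by
    have d1 : |L₂.2.2.1 * (z.2 * (H.v z.1 - x.1.1 * c.χ))| ≤ 4 * K * c.χ := by
      rw [abs_mul]; exact mul_le_mul g1 c1 (abs_nonneg _) (by positivity)
    have d2 : |L₂.2.2.2 * (z.2 * (H.y1 z.1 + H.p z.1))| ≤ 2 * K * c.N ^ (-c.e0) := by
      rw [abs_mul]; exact mul_le_mul g2 c2 (abs_nonneg _) (by positivity)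
    refine (abs_add_le _ _).trans ?_
    linarith
  -- (4)
  have hpf : ∀ u ∈ k7bBox (H.ct (H.lab s₂ z)) (H.cZ (H.lab s₂ z)) (H.cY (H.lab s₂ z)) (c.h s₂) 1, |k7bAff L₂ u - k7bAff L₀ u| ≤ K * c.a s := by
    intro u hu
    have := hP.pfit s hs s₂ hs₂ hss z hz.1 1 le_rfl u hu
    rw [← hL₂, ← hL₀, mul_one] at this
    exact this
  obtain ⟨f1, f2⟩ := k8b_sn_slopes hh₂ hpf
  obtain ⟨lq, lb, la⟩ := hok.labmem s₂ hs₂ z hzS
  have hbox := hok.box s₂ hs₂ _ lq _ la _ lb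
  have htc : |z.2 - H.ct (H.lab s₂ z)| ≤ K * c.h s₂ := hbox.1
  obtain ⟨tc, htcd⟩ : ∃ tc, tc = H.ct (H.lab s₂ z) := ⟨_, rfl⟩
  rw [← htcd] at f2 htc
  obtain ⟨dg, hdg⟩ : ∃ dg, dg = L₂.2.2.2 - L₀.2.2.2 := ⟨_, rfl⟩
  obtain ⟨da, hda⟩ : ∃ da, da = L₂.2.2.1 - L₀.2.2.1 := ⟨_, rfl⟩
  rw [← hdg] at f1 f2
  rw [← hda] at f2
  rw [key, ← hdg, ← hda]
  have pD : |H.p z.1 - x.1.2.1 * D| ≤ D := by rw [abs_le]; constructor <;> linarith
  have qD : |H.q0 z.1 - x.1.2.2 * D| ≤ D := by rw [abs_le]; constructor <;> linarith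
  have b3 : |(da - z.2 * dg) * (H.p z.1 - x.1.2.1 * D)| + |dg * (H.q0 z.1 - x.1.2.2 * D)| ≤ (4 + K) * K * c.a s₂ :=
    k8b_sn_est hK0 ha hh₂ hh₂1 ht f1 f2 htc pD qD hD
  rw [abs_div, abs_of_pos ha, ← mul_div_assoc]
  refine div_le_div_of_nonneg_right ?_ ha.le
  refine (k8b_sn_tri _ _ _ _).trans ?_
  have fin : K * c.a s₂ + 3 / 2 * c.a s₂ + (4 + K) * K * c.a s₂ ≤ 8 * K ^ 2 * c.a s₂ := by
    have : K + 3 / 2 + (4 + K) * K ≤ 8 * K ^ 2 := k8b_sn_num hK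
    calc K * c.a s₂ + 3 / 2 * c.a s₂ + (4 + K) * K * c.a s₂ = (K + 3 / 2 + (4 + K) * K) * c.a s₂ := by ring
      _ ≤ 8 * K ^ 2 * c.a s₂ := mul_le_mul_of_nonneg_right this ha₂.le
  linarith

/-- the number of integers between two floors -/
theorem k8b_su_card (u M : ℝ) (hM : 0 ≤ M) : ((Finset.Icc ⌊u - M⌋ ⌊u + M⌋).card : ℝ) ≤ 2 * M + 2 := by
  rw [Int.card_Icc]
  have h0 : 0 ≤ ⌊u + M⌋ + 1 - ⌊u - M⌋ := by
    have := Int.floor_le_floor (show u - M ≤ u + M by linarith)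
    omega
  have h1 : ((⌊u + M⌋ + 1 - ⌊u - M⌋).toNat : ℝ) = ((⌊u + M⌋ + 1 - ⌊u - M⌋ : ℤ) : ℝ) := by
    exact_mod_cast congrArg (Int.cast : ℤ → ℝ) (Int.toNat_of_nonneg h0)
  rw [h1]
  push_cast
  linarith [Int.floor_le (u + M), Int.lt_floor_add_one (u - M)]

/-- **L-252-S8b-S5c** (glue, ~200 l.): THE SUPPORT COUNT at a width `ω ∈ [a_{s₂}/a_s, 2 a_{s₂}/a_s]`.
PROOF.  Fix `t`.   The set `Y` of the pairs `(lab s₂ (l,t), entOf s₂ (l,t))`, `(l,t) ∈ E ∩ chI x`, is finite (`H.Q` finite, `entmem`); `k8b_pair_count` bounds its cardinality.   For `y ∈ Y`, `S` lies within `8K² ω` of `k8bS0 … y.2` (`k8b_S_near`, `hFr`):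
`≤ 16K² + 2` bins of width `ω`.   `Z := Y.biUnion (bins)`.   `(a_s/a_{s₂})^d ≤ (2/ω)^d ≤ 2 ω^(-d)`. -/
theorem k8b_support : ∃ C : ℕ, ∀ (H : K7bHor) (c : K7bPar) (K X s s₂ D ζ ω : ℝ) (E₀ E : Set (H.Lam × ℝ)) (F : K8Lab H)
    (x : (ℤ × ℤ × ℤ) × K8Pr) (Fr : ℝ → Fin 2 → ℝ), K8bRel c X s D ζ → 1 ≤ K → 8 * K ≤ X → H.Ok c K → K8Prep H c K E₀ E →
    K8bSel F c s D E → s₂ ∈ c.G → s ≤ s₂ → D * c.a s ≤ c.h s₂ ^ 2 * c.a s₂ → c.a s * ζ ≤ 2 * c.a s₂ →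
    c.a s₂ / c.a s ≤ ω → ω ≤ 2 * (c.a s₂ / c.a s) →
    (∀ z ∈ E ∩ F.chI c.χ D x, Fr z.2 = k8bRow D (c.a s) x.2 (H.entOf s z) z.2) →
    k8bSup c.d ((C : ℝ) * K ^ C) ω (k8bCC F c.χ D (c.a s) x) (E ∩ F.chI c.χ D x) Fr := by
  classical
  obtain ⟨C₁, hC₁⟩ := k8b_pair_count
  refine ⟨36 * C₁ + 2, ?_⟩
  intro H c K X s s₂ D ζ ω E₀ E F x Fr hR hK hX hok hP hS hs₂ hss hD hζ hω1 hω2 hFr t
  have hN1 := hR.wf.N1
  have hN0 : 0 < c.N := by linarith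
  have ha : 0 < c.a s := Real.rpow_pos_of_pos hN0 _
  have ha₂ : 0 < c.a s₂ := Real.rpow_pos_of_pos hN0 _
  have haa : c.a s₂ ≤ c.a s := Real.rpow_le_rpow_of_exponent_le hN1 (by linarith)
  have hq0 : 0 < c.a s₂ / c.a s := div_pos ha₂ ha
  have hω0 : 0 < ω := lt_of_lt_of_le hq0 hω1
  have hDh : D ≤ c.h s₂ ^ 2 := by
    have h1 : D * c.a s ≤ c.h s₂ ^ 2 * c.a s := hD.trans (mul_le_mul_of_nonneg_left haa (sq_nonneg _))
    exact le_of_mul_le_mul_right h1 ha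
  set Y : Finset (H.Q × (ℝ × ℝ × ℝ × ℝ)) :=
    ((Finset.univ : Finset H.Q).biUnion (fun q => (H.ent q).image (fun L => (q, L)))).filter
      (fun y => ∃ l, (l, t) ∈ E ∩ F.chI c.χ D x ∧ (H.lab s₂ (l, t), H.entOf s₂ (l, t)) = y) with hY
  have hYc : (Y.card : ℝ) ≤ (C₁ : ℝ) * K ^ C₁ * (c.a s / c.a s₂) ^ c.d :=
    hC₁ H c K X s s₂ D ζ t E₀ E F x Y hR hK hX hok hP hS hs₂ hss hDh (fun y hy => (Finset.mem_filter.1 hy).2)
  set M : ℝ := 8 * K ^ 2 with hM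
  have hM0 : 0 ≤ M := by positivity
  set Z : Finset ℤ := Y.biUnion (fun y => Finset.Icc ⌊k8bS0 c.χ D (c.a s) t x y.2 / ω - M⌋
    ⌊k8bS0 c.χ D (c.a s) t x y.2 / ω + M⌋) with hZ
  refine ⟨Z, ?_, ?_⟩
  · have h1 : (Z.card : ℝ) ≤ (Y.card : ℝ) * (2 * M + 2) := by
      calc (Z.card : ℝ) ≤ ((∑ y ∈ Y, (Finset.Icc ⌊k8bS0 c.χ D (c.a s) t x y.2 / ω - M⌋
            ⌊k8bS0 c.χ D (c.a s) t x y.2 / ω + M⌋).card : ℕ) : ℝ) := by
            exact_mod_cast Finset.card_biUnion_le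
        _ = ∑ y ∈ Y, ((Finset.Icc ⌊k8bS0 c.χ D (c.a s) t x y.2 / ω - M⌋
            ⌊k8bS0 c.χ D (c.a s) t x y.2 / ω + M⌋).card : ℝ) := by push_cast; rfl
        _ ≤ ∑ _y ∈ Y, (2 * M + 2) := Finset.sum_le_sum fun y _ => k8b_su_card _ M hM0
        _ = (Y.card : ℝ) * (2 * M + 2) := by rw [Finset.sum_const, nsmul_eq_mul]
    have h2 : (c.a s / c.a s₂) ^ c.d ≤ 2 * ω ^ (-c.d) := by
      have h3 : c.a s / c.a s₂ ≤ 2 / ω := by
        rw [div_le_div_iff₀ ha₂ hω0]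
        have h4 : ω * c.a s ≤ 2 * c.a s₂ := by
          have := mul_le_mul_of_nonneg_right hω2 ha.le
          rwa [mul_assoc, div_mul_cancel₀ _ ha.ne'] at this
        linarith
      calc (c.a s / c.a s₂) ^ c.d ≤ (2 / ω) ^ c.d :=
            Real.rpow_le_rpow (div_pos ha ha₂).le h3 hR.wf.d0
        _ = 2 ^ c.d * ω ^ (-c.d) := by
            rw [Real.div_rpow (by norm_num) hω0.le, Real.rpow_neg hω0.le, div_eq_mul_inv]
        _ ≤ 2 * ω ^ (-c.d) := by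
            have h5 : (2 : ℝ) ^ c.d ≤ 2 ^ (1 : ℝ) := Real.rpow_le_rpow_of_exponent_le (by norm_num) hR.wf.d1.le
            rw [Real.rpow_one] at h5
            exact mul_le_mul_of_nonneg_right h5 (Real.rpow_nonneg hω0.le _)
    have hωd : 0 ≤ ω ^ (-c.d) := Real.rpow_nonneg hω0.le _
    have h6 : 2 * M + 2 ≤ 18 * K ^ 2 := by
      rw [hM]
      nlinarith
    have hKp : K ^ (C₁ + 2) ≤ K ^ (36 * C₁ + 2) := pow_le_pow_right₀ hK (by omega)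
    have hKC : 0 ≤ K ^ C₁ := by positivity
    calc (Z.card : ℝ) ≤ (Y.card : ℝ) * (2 * M + 2) := h1
      _ ≤ ((C₁ : ℝ) * K ^ C₁ * (2 * ω ^ (-c.d))) * (18 * K ^ 2) := by
          refine mul_le_mul (hYc.trans (mul_le_mul_of_nonneg_left h2 (by positivity))) h6 (by positivity)
            (by positivity)
      _ = (36 * (C₁ : ℝ)) * K ^ (C₁ + 2) * ω ^ (-c.d) := by ring
      _ ≤ ((36 * C₁ + 2 : ℕ) : ℝ) * K ^ (36 * C₁ + 2) * ω ^ (-c.d) := by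
          refine mul_le_mul_of_nonneg_right ?_ hωd
          refine mul_le_mul ?_ hKp (by positivity) (by positivity)
          push_cast
          linarith
  · intro l hl
    have hSp : ((l, t) : H.Lam × ℝ) ∈ H.Sp := hP.sub0 (hP.sub hl.1)
    have hy : (H.lab s₂ (l, t), H.entOf s₂ (l, t)) ∈ Y := by
      rw [hY, Finset.mem_filter]
      refine ⟨?_, l, hl, rfl⟩
      rw [Finset.mem_biUnion]
      exact ⟨H.lab s₂ (l, t), Finset.mem_univ _, Finset.mem_image.2 ⟨_, hok.entmem s₂ hs₂ _ hSp, rfl⟩⟩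
    have hch : l ∈ F.ch c.χ D x := hl.2
    have hcc : k8bCC F c.χ D (c.a s) x l = k8bCo H D (c.a s) x l := by
      simp only [k8bCC, if_pos hch]
    have hnear := k8b_S_near H c F x hR hK hX hok hP hs₂ hss hD hζ hl
    rw [← hFr _ hl] at hnear
    simp only at hnear
    rw [hcc, hZ, Finset.mem_biUnion]
    refine ⟨_, hy, ?_⟩
    have h7 : |k5_S (Fr t) (k8bCo H D (c.a s) x l) t - k8bS0 c.χ D (c.a s) t x (H.entOf s₂ (l, t))| ≤ M * ω :=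
      hnear.trans (mul_le_mul_of_nonneg_left hω1 hM0)
    have h8 := abs_le.1 h7
    rw [Finset.mem_Icc]
    constructor
    · refine Int.floor_le_floor ?_
      rw [le_div_iff₀ hω0, sub_mul, div_mul_cancel₀ _ hω0.ne']
      linarith [h8.1]
    · refine Int.floor_le_floor ?_
      rw [div_le_iff₀ hω0, add_mul, div_mul_cancel₀ _ hω0.ne']
      linarith [h8.2]

/-! ## 5. The new predictors (08 l.703-709) -/

theorem k8b_nf_floor {w r : ℝ} (hw : 0 < w) : 0 ≤ r - (⌊r / w⌋ : ℝ) * w ∧ r - (⌊r / w⌋ : ℝ) * w ≤ w := by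
  have h1 : (⌊r / w⌋ : ℝ) ≤ r / w := Int.floor_le _
  have h2 : r / w < (⌊r / w⌋ : ℝ) + 1 := Int.lt_floor_add_one _
  rw [le_div_iff₀ hw] at h1
  rw [div_lt_iff₀ hw] at h2
  constructor <;> linarith

theorem k8b_nf_fit {w ts t r r' : ℝ} (hw : 0 < w) (hts : ts ∈ Set.Icc (0 : ℝ) 1) (ht : t ∈ Set.Icc (0 : ℝ) 1) :
    |(r - (⌊r / w⌋ : ℝ) * w) + (t - ts) * (r' - (⌊r' / w⌋ : ℝ) * w)| ≤ 2 * w := by
  obtain ⟨a1, a2⟩ := k8b_nf_floor (r := r) hw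
  obtain ⟨b1, b2⟩ := k8b_nf_floor (r := r') hw
  have h1 : |t - ts| ≤ 1 := by
    rw [abs_le]; constructor <;> linarith [hts.1, hts.2, ht.1, ht.2]
  have h2 : |(t - ts) * (r' - (⌊r' / w⌋ : ℝ) * w)| ≤ w := by
    rw [abs_mul, abs_of_nonneg b1]
    calc |t - ts| * (r' - (⌊r' / w⌋ : ℝ) * w) ≤ 1 * w := mul_le_mul h1 b2 b1 (by norm_num)
      _ = w := one_mul _
  calc |(r - (⌊r / w⌋ : ℝ) * w) + (t - ts) * (r' - (⌊r' / w⌋ : ℝ) * w)|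
      ≤ |r - (⌊r / w⌋ : ℝ) * w| + |(t - ts) * (r' - (⌊r' / w⌋ : ℝ) * w)| := abs_add_le _ _
    _ ≤ w + w := by
        rw [abs_of_nonneg a1]
        linarith
    _ = 2 * w := by ring

theorem k8b_nf_dot {K₁ B f0 f1 y0 y1 : ℝ} (hf0 : |f0| ≤ K₁) (hf1 : |f1| ≤ K₁) (hy0 : |y0| ≤ B) (hy1 : |y1| ≤ B) :
    |f0 * y0 + f1 * y1| ≤ 2 * (K₁ * B) := by
  have h0 : |f0 * y0| ≤ K₁ * B := by
    rw [abs_mul]; exact mul_le_mul hf0 hy0 (abs_nonneg _) ((abs_nonneg _).trans hf0)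
  have h1 : |f1 * y1| ≤ K₁ * B := by
    rw [abs_mul]; exact mul_le_mul hf1 hy1 (abs_nonneg _) ((abs_nonneg _).trans hf1)
  have := abs_add_le (f0 * y0) (f1 * y1)
  linarith

theorem k8b_nf_zw {w r M : ℝ} (hw : 0 < w) (hw1 : w ≤ 1) (hr : |r| ≤ M) : |(⌊r / w⌋ : ℝ) * w| ≤ M + 1 := by
  obtain ⟨a1, a2⟩ := k8b_nf_floor (r := r) hw
  obtain ⟨r1, r2⟩ := abs_le.1 hr
  rw [abs_le]
  constructor <;> linarith

theorem k8b_nf_norm {w ts t r r' K₁ u u' : ℝ} (hw : 0 < w) (hw1 : w ≤ 1) (hK₁ : 1 ≤ K₁) (hts : ts ∈ Set.Icc (0 : ℝ) 1)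
    (ht : t ∈ Set.Icc (0 : ℝ) 1) (hr : |r| ≤ 3 * K₁) (hr' : |r'| ≤ 4 * K₁) (hu : |u| ≤ 4 * K₁) (hu' : |u'| ≤ 4 * K₁) :
    |(⌊r / w⌋ : ℝ) * w + u + (t - ts) * ((⌊r' / w⌋ : ℝ) * w + u')| ≤ 39 * K₁ := by
  have h1 : |t - ts| ≤ 1 := by
    rw [abs_le]; constructor <;> linarith [hts.1, hts.2, ht.1, ht.2]
  have z1 := k8b_nf_zw hw hw1 hr
  have z2 := k8b_nf_zw hw hw1 hr'
  have h2 : |(⌊r' / w⌋ : ℝ) * w + u'| ≤ 9 * K₁ := by
    have := abs_add_le ((⌊r' / w⌋ : ℝ) * w) u'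
    linarith
  have h3 : |(t - ts) * ((⌊r' / w⌋ : ℝ) * w + u')| ≤ 9 * K₁ := by
    rw [abs_mul]
    calc |t - ts| * |(⌊r' / w⌋ : ℝ) * w + u'| ≤ 1 * (9 * K₁) := mul_le_mul h1 h2 (abs_nonneg _) (by norm_num)
      _ = 9 * K₁ := one_mul _
  have h4 := abs_add_le ((⌊r / w⌋ : ℝ) * w + u) ((t - ts) * ((⌊r' / w⌋ : ℝ) * w + u'))
  have h5 := abs_add_le ((⌊r / w⌋ : ℝ) * w) u
  linarith

/-- **L-252-S8b-S6a** (~60 l.): the value of the new predictor.   `simp [k8bNew, K8Pr.ev]`, `field_simp`, `ring`. -/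
theorem k8b_new_ev {D a : ℝ} (hD : D ≠ 0) (w ts : ℝ) (x : (ℤ × ℤ × ℤ) × K8Pr) (f A : Fin 2 → ℝ) (z z' : ℤ) (t p q : ℝ) :
    (k8bNew D a w ts x f A z z').ev t p q = x.2.ev t p q + a * (z * w + (f 0 * ((p - x.1.2.1 * D) / D) + f 1 * ((q - x.1.2.2 * D) / D))
      + (t - ts) * (z' * w + (A 0 * ((p - x.1.2.1 * D) / D) + A 1 * ((q - x.1.2.2 * D) / D)))) := by
  simp only [k8bNew, K8Pr.ev]
  field_simp
  ring

theorem k8b_nf_y {D P p : ℝ} (hD : 0 < D) (hp : |p - P| ≤ D) : |(p - (k7bBin D P : ℝ) * D) / D| ≤ 2 := by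
  have h1 := k7b5a_bin_lo hD P
  have h2 := k7b5a_bin_hi hD P
  obtain ⟨p1, p2⟩ := abs_le.1 hp
  rw [abs_le, le_div_iff₀ hD, div_le_iff₀ hD]
  constructor <;> nlinarith

theorem k8b_nf_y1 {D P : ℝ} (hD : 0 < D) : |(P - (k7bBin D P : ℝ) * D) / D| ≤ 1 := by
  have h1 := k7b5a_bin_lo hD P
  have h2 := k7b5a_bin_hi hD P
  rw [abs_le, le_div_iff₀ hD, div_le_iff₀ hD]
  constructor <;> nlinarith

/-- **L-252-S8b-S6b** (~250 l.): FIT `2 a w` THROUGHOUT UNIT TIME and NORM of the new predictor on the unchanged parameter box.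
PROOF.  `co = k8bCo H D a x l`, `x̄(t) = k5_x co t = x̄(ts) + (t - ts) co.1 1` (flat), `y = co.2 0`.   `z w ≤ x̄(ts) - f·y < (z+1) w`, `z' w ≤ co.1 1 - A·y < (z'+1) w` (floors; `Matrix.dotProduct`, `Fin.sum_univ_two`).
So `|x̄(t) - (z w + f·y + (t - ts)(z' w + A·y))| ≤ w + |t - ts| w ≤ 2w`; multiply by `a` (`k8b_co_x`, `k8b_new_ev`).
NORM: `|x.2.ev| ≤ K` (`hF.norm`); `ỹ = ((p,q) - P_c)/D ∈ [-1, 2]²`; `|z w| ≤ |x̄(ts)| + 2K₁ + w ≤ 3K + 2 K₁`… all terms `≤ 20 K₁`, `a ≤ 1`. -/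
theorem k8b_new_fit (H : K7bHor) (c : K7bPar) (hc : c.WF) {K K₁ s D w ts : ℝ} {E : Set (H.Lam × ℝ)} (F : K8Lab H) (hK : 1 ≤ K) (hKK : K ≤ K₁)
    (hs : s ∈ c.G) (hD : 0 < D) (hw : 0 < w) (hw1 : w ≤ 1) (hts : ts ∈ Icc (0 : ℝ) 1) (hF : F.Ok c K s D E) (x : (ℤ × ℤ × ℤ) × K8Pr)
    (f A : Fin 2 → ℝ) (hf : ‖f‖ ≤ K₁) (hA : ‖A‖ ≤ K₁) {l : H.Lam} (hl : l ∈ F.ch c.χ D x) :
    let co := k8bCo H D (c.a s) x l
    let h' := k8bNew D (c.a s) w ts x f A (k5_bin w (k5_S f co ts)) (k5_bin w (co.1 1 - A ⬝ᵥ co.2 0))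
    (∀ t ∈ Icc (0 : ℝ) 1, |H.Xt l t - h'.ev t (H.p l) (H.q0 l)| ≤ 2 * (c.a s * w)) ∧
      ∀ t ∈ Icc (0 : ℝ) 1, ∀ p q : ℝ, |p - H.p l| ≤ D → |q - H.q0 l| ≤ D → |h'.ev t p q| ≤ 40 * K₁ := by
  obtain ⟨hdom, hgrp, hpr⟩ := hl
  have hN0 : 0 < c.N := by linarith [hc.N1]
  have ha0 : 0 < c.a s := Real.rpow_pos_of_pos hN0 _
  have ha1 : c.a s ≤ 1 := Real.rpow_le_one_of_one_le_of_nonpos hc.N1 (by linarith [hc.G0 s hs])
  obtain ⟨a, haeq⟩ : ∃ a, a = c.a s := ⟨_, rfl⟩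
  rw [← haeq] at ha0 ha1 ⊢
  have hfit := hF.fit l hdom
  have hnorm := hF.norm l hdom
  rw [hpr, ← haeq] at hfit
  rw [hpr] at hnorm
  have g1 : x.1.2.1 = k7bBin D (H.p l) := by rw [← hgrp]; rfl
  have g2 : x.1.2.2 = k7bBin D (H.q0 l) := by rw [← hgrp]; rfl
  have hK₁ : 1 ≤ K₁ := hK.trans hKK
  have hf0 : |f 0| ≤ K₁ := (norm_le_pi_norm f 0).trans hf
  have hf1 : |f 1| ≤ K₁ := (norm_le_pi_norm f 1).trans hf
  have hA0 : |A 0| ≤ K₁ := (norm_le_pi_norm A 0).trans hA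
  have hA1 : |A 1| ≤ K₁ := (norm_le_pi_norm A 1).trans hA
  obtain ⟨y0, hy0⟩ : ∃ y0, y0 = (H.p l - x.1.2.1 * D) / D := ⟨_, rfl⟩
  obtain ⟨y1, hy1⟩ : ∃ y1, y1 = (H.q0 l - x.1.2.2 * D) / D := ⟨_, rfl⟩
  have by0 : |y0| ≤ 1 := by rw [hy0, g1]; exact k8b_nf_y1 hD
  have by1 : |y1| ≤ 1 := by rw [hy1, g2]; exact k8b_nf_y1 hD
  obtain ⟨T, hT⟩ : ∃ T, T = H.x1 l - (x.2.c1 + x.2.p1 * H.p l + x.2.q1 * H.q0 l) := ⟨_, rfl⟩
  obtain ⟨cx, cy, -, -⟩ := k8b_co_x H (D := D) ha0.ne' x l ts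
  obtain ⟨r, hr⟩ : ∃ r, r = k5_S f (k8bCo H D a x l) ts := ⟨_, rfl⟩
  obtain ⟨r', hr'⟩ : ∃ r', r' = (k8bCo H D a x l).1 1 - A ⬝ᵥ (k8bCo H D a x l).2 0 := ⟨_, rfl⟩
  have er : r = (H.Xt l ts - x.2.ev ts (H.p l) (H.q0 l)) / a - (f 0 * y0 + f 1 * y1) := by
    rw [hr, k5_S, cx, cy, hy0, hy1]
    simp [dotProduct, Fin.sum_univ_two]
  have er' : r' = T / a - (A 0 * y0 + A 1 * y1) := by
    rw [hr', hT, hy0, hy1]
    simp [k8bCo, dotProduct, Fin.sum_univ_two]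
  have e3 : ∀ t, H.Xt l t - x.2.ev t (H.p l) (H.q0 l) = H.Xt l ts - x.2.ev ts (H.p l) (H.q0 l) + (t - ts) * T := by
    intro t
    rw [hT]
    simp only [K7bHor.Xt, K8Pr.ev]
    ring
  have e1 : a * r = H.Xt l ts - x.2.ev ts (H.p l) (H.q0 l) - a * (f 0 * y0 + f 1 * y1) := by
    rw [er]; field_simp
  have e2 : a * r' = T - a * (A 0 * y0 + A 1 * y1) := by
    rw [er']; field_simp
  have br : |r| ≤ 3 * K₁ := by
    have h1 : |(H.Xt l ts - x.2.ev ts (H.p l) (H.q0 l)) / a| ≤ K := by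
      rw [abs_div, abs_of_pos ha0, div_le_iff₀ ha0]
      exact hfit ts hts
    have h2 := k8b_nf_dot hf0 hf1 by0 by1
    have h3 := abs_sub ((H.Xt l ts - x.2.ev ts (H.p l) (H.q0 l)) / a) (f 0 * y0 + f 1 * y1)
    rw [er]
    linarith
  have br' : |r'| ≤ 4 * K₁ := by
    have h0 := hfit 0 ⟨le_rfl, zero_le_one⟩
    have h1 := hfit 1 ⟨zero_le_one, le_rfl⟩
    have hT2 : T = (H.Xt l 1 - x.2.ev 1 (H.p l) (H.q0 l)) - (H.Xt l 0 - x.2.ev 0 (H.p l) (H.q0 l)) := by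
      rw [e3 1, e3 0]; ring
    have h2 : |T / a| ≤ 2 * K := by
      rw [abs_div, abs_of_pos ha0, div_le_iff₀ ha0, hT2]
      have := abs_sub (H.Xt l 1 - x.2.ev 1 (H.p l) (H.q0 l)) (H.Xt l 0 - x.2.ev 0 (H.p l) (H.q0 l))
      linarith
    have h3 := k8b_nf_dot hA0 hA1 by0 by1
    have h4 := abs_sub (T / a) (A 0 * y0 + A 1 * y1)
    rw [er']
    linarith
  intro co h'
  have hh' : h' = k8bNew D a w ts x f A ⌊r / w⌋ ⌊r' / w⌋ := by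
    simp only [h', co, k5_bin, hr, hr']
  rw [hh']
  refine ⟨fun t ht => ?_, fun t ht p q hp hq => ?_⟩
  · rw [k8b_new_ev hD.ne', ← hy0, ← hy1]
    have key : H.Xt l t - (x.2.ev t (H.p l) (H.q0 l) + a * ((⌊r / w⌋ : ℝ) * w + (f 0 * y0 + f 1 * y1)
        + (t - ts) * ((⌊r' / w⌋ : ℝ) * w + (A 0 * y0 + A 1 * y1))))
        = a * ((r - (⌊r / w⌋ : ℝ) * w) + (t - ts) * (r' - (⌊r' / w⌋ : ℝ) * w)) := by
      linear_combination e3 t - e1 - (t - ts) * e2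
    rw [key, abs_mul, abs_of_pos ha0]
    calc a * |(r - (⌊r / w⌋ : ℝ) * w) + (t - ts) * (r' - (⌊r' / w⌋ : ℝ) * w)| ≤ a * (2 * w) := by
          gcongr
          exact k8b_nf_fit hw hts ht
      _ = 2 * (a * w) := by ring
  · rw [k8b_new_ev hD.ne']
    have hy0' : |(p - x.1.2.1 * D) / D| ≤ 2 := by rw [g1]; exact k8b_nf_y hD hp
    have hy1' : |(q - x.1.2.2 * D) / D| ≤ 2 := by rw [g2]; exact k8b_nf_y hD hq
    have hu := k8b_nf_dot hf0 hf1 hy0' hy1'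
    have hu' := k8b_nf_dot hA0 hA1 hy0' hy1'
    have h1 := k8b_nf_norm (t := t) hw hw1 hK₁ hts ht br br' (u := f 0 * ((p - x.1.2.1 * D) / D) + f 1 * ((q - x.1.2.2 * D) / D))
      (u' := A 0 * ((p - x.1.2.1 * D) / D) + A 1 * ((q - x.1.2.2 * D) / D)) (by linarith) (by linarith)
    have h2 := hnorm t ht p q hp hq
    refine (abs_add_le _ _).trans ?_
    rw [abs_mul, abs_of_pos ha0]
    have h3 : a * |(⌊r / w⌋ : ℝ) * w + (f 0 * ((p - x.1.2.1 * D) / D) + f 1 * ((q - x.1.2.2 * D) / D))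
        + (t - ts) * ((⌊r' / w⌋ : ℝ) * w + (A 0 * ((p - x.1.2.1 * D) / D) + A 1 * ((q - x.1.2.2 * D) / D)))| ≤ 1 * (39 * K₁) :=
      mul_le_mul ha1 h1 (abs_nonneg _) (by norm_num)
    linarith

end

end Claimed.Agent.R252
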