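import Claimed.Agent.R252.S8b.StepContract

/-!
# Row 252, Sec. 8, 08 l.452-714: ONE BOOTSTRAP STEP, part 2: THE ABSTRACT CHART STEP, THE CHART CORE, THE ASSEMBLY, THE HUB `K8HCore`.   CONTRACT      (sub-architect helper98; prefix `k8b`)

Chain:   `k8b_tstar`, (`k8b_snd`, `k5_first_jet`, `k5_first_jet_lists`) → `k8b_chart_step` (abstract, measure model)
         (`k8b_cc_facts`, `k8b_chart_law`, `k8b_row_exists`, `k8b_mixcap`, `k8b_inst_cap`, `k8b_support`, `k8b_chart_step`) → `k8b_chart_core` (one chart of a labelling)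
         (`k8b_sel`, `k8b_chart_core`, `k8b_new_fit`, `k8f_refloor`) → `k8b_core_one` (one scale)   →   `k8b_core : K8HCore` (exponents).
ORDER OF CONSTANTS: `ε` (final loss `ζ^(-ε)`), then `γ` (ratio gap / `kζ` of the grid of tested widths), then `n` (number of tested widths), then `η` (admissible slack `K ≤ ζ^(-η)`) and `k₀`.
`ζ = (1/2)^kζ` accuracy floor, `w = (1/2)^kw` reading width, `θ` = exponent of the first-jet fit `k5_FJ d θ` (unit FIT).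
-/

set_option autoImplicit false

namespace Claimed.Agent.R252

open MeasureTheory Set
open scoped ENNReal BigOperators

noncomputable section

/-! ## 1. The abstract chart step (08 l.702-712) -/

/-- **L-252-S8b-T1** (~250 l.; Mathlib + `S5/MassContract`).   ONE TIME `t_*` WITH DENSE LINE WEIGHT (08 l.699-701).
PROOF.  `E₃ := {x ∈ E | δ/2 ≤ volume.real (k5_fib E x.1)}` (measurable: `measurable_measure_prodMk_left`).   `mass (E \ E₃) = ∫_{duration < δ/2} duration dν ≤ δ/2` (Tonelli; `ν` probability), so `mass E₃ ≥ δ/2`.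
`mass E₃ = ∫₀¹ ν(sec E₃ t) dt`, so some `ts ∈ [0,1)` has `ν.real (k5_sec E₃ ts) ≥ δ/2`.   `𝓛 := k5_sec E₃ ts` (section of a measurable set).   `mass {x ∈ E | x.1 ∈ 𝓛} = ∫_𝓛 duration dν ≥ ν(𝓛) δ/2 ≥ δ²/4`. -/
theorem k8b_tstar {Λ : Type} [MeasurableSpace Λ] (ν : Measure Λ) [IsProbabilityMeasure ν] (E : Set (Λ × ℝ)) (hE : MeasurableSet E)
    (hI : ∀ l t, (l, t) ∈ E → 0 ≤ t ∧ t < 1) (δ : ℝ) (hδ : 0 < δ) (hm : δ ≤ k5_mass ν E) :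
    ∃ (ts : ℝ) (Ls : Set Λ), 0 ≤ ts ∧ ts < 1 ∧ MeasurableSet Ls ∧ (∀ l ∈ Ls, (l, ts) ∈ E) ∧
      δ ^ 2 / 4 ≤ k5_mass ν {x | x ∈ E ∧ x.1 ∈ Ls} := by
  set T : Set ℝ := Ico 0 1 with hT
  have hTm : MeasurableSet T := measurableSet_Ico
  have hTfin : volume T ≠ ⊤ := by rw [hT, Real.volume_Ico]; exact ENNReal.ofReal_ne_top
  have hTv : volume.real T = 1 := by
    rw [hT, measureReal_def, Real.volume_Ico]; simp
  have hIn : k5_In E T := fun l t h => hI l t h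
  have hν1 : ν.real univ = 1 := by simp
  set dur : Λ → ℝ := fun l => volume.real (k5_fib E l) with hdur
  have hdm : Measurable dur := k5_measurable_fib hE
  set G : Set Λ := {l | δ / 2 ≤ dur l} with hG
  have hGm : MeasurableSet G := measurableSet_le measurable_const hdm
  set S : Set (Λ × ℝ) := {x | x.1 ∈ G} with hS
  have hSm : MeasurableSet S := measurable_fst hGm
  have hsplit := k5_mass_split (ν := ν) hE hTfin hIn hSm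
  have hIn2 : k5_In (E \ S) T := fun l t h => hIn l t h.1
  have hIn3 : k5_In (E ∩ S) T := fun l t h => hIn l t h.1
  have hlight : k5_mass ν (E \ S) ≤ δ / 2 := by
    have := k5_mass_le_fib (ν := ν) (hE.diff hSm) hTfin hIn2 (a := δ / 2) (fun l => by
      by_cases hl : l ∈ G
      · have : k5_fib (E \ S) l = ∅ := by
          ext t
          simp only [k5_fib, Set.mem_ofPred_eq, mem_sdiff, mem_empty_iff_false, iff_false, not_and, not_not]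
          intro _; exact hl
        rw [this]; simp; linarith
      · have : k5_fib (E \ S) l = k5_fib E l := by
          ext t
          simp only [k5_fib, Set.mem_ofPred_eq, mem_sdiff, and_iff_left_iff_imp]
          intro _; exact hl
        rw [this]
        exact (not_le.1 hl).le)
    rwa [hν1, mul_one] at this
  have hheavy : δ / 2 ≤ k5_mass ν (E ∩ S) := by linarith
  obtain ⟨ts, hts, hsec⟩ := k5_exists_sec (ν := ν) (hE.inter hSm) hTm hTfin hIn3 (by linarith)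
  rw [hTv, mul_one] at hsec
  set Ls : Set Λ := k5_sec (E ∩ S) ts with hLs
  have hLsm : MeasurableSet Ls := k5_meas_sec (hE.inter hSm) ts
  refine ⟨ts, Ls, hts.1, hts.2, hLsm, fun l hl => hl.1, ?_⟩
  set E4 : Set (Λ × ℝ) := {x | x ∈ E ∧ x.1 ∈ Ls} with hE4
  have hE4m : MeasurableSet E4 := hE.inter (measurable_fst hLsm)
  have hIn4 : k5_In E4 T := fun l t h => hIn l t h.1
  rw [k5_mass_eq_fib hE4m hTfin hIn4]
  have hfi : Integrable (fun l => volume.real (k5_fib E4 l)) ν := by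
    refine Integrable.of_bound (k5_measurable_fib hE4m).aestronglyMeasurable 1
      (Filter.Eventually.of_forall fun l => ?_)
    rw [Real.norm_eq_abs, abs_of_nonneg measureReal_nonneg, ← hTv]
    exact measureReal_mono (fun t ht => hIn4 l t ht) hTfin
  have hlow : ∀ l, Ls.indicator (fun _ => δ / 2) l ≤ volume.real (k5_fib E4 l) := by
    intro l
    by_cases hl : l ∈ Ls
    · rw [indicator_of_mem hl]
      have : k5_fib E4 l = k5_fib E l := by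
        ext t
        simp only [k5_fib, hE4, Set.mem_ofPred_eq, and_iff_left_iff_imp]
        intro _; exact hl
      rw [this]
      exact hl.2
    · rw [indicator_of_notMem hl]; exact measureReal_nonneg
  calc δ ^ 2 / 4 = (δ / 2) * (δ / 2) := by ring
    _ ≤ ν.real Ls * (δ / 2) := by
        apply mul_le_mul_of_nonneg_right _ (by linarith)
        linarith
    _ = ∫ l, Ls.indicator (fun _ => δ / 2) l ∂ν := by
        rw [integral_indicator_const _ hLsm, smul_eq_mul]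
    _ ≤ ∫ l, volume.real (k5_fib E4 l) ∂ν :=
        integral_mono ((integrable_const _).indicator hLsm) hfi hlow

theorem k8b_cs_two (k : ℕ) (e : ℝ) : ((2 : ℝ) ^ k) ^ e = (2 : ℝ) ^ ((k : ℝ) * e) := by
  rw [← Real.rpow_natCast, ← Real.rpow_mul (by norm_num)]

theorem k8b_cs_half (k : ℕ) (e : ℝ) : ((1 / 2 : ℝ) ^ k) ^ e = (2 : ℝ) ^ (-((k : ℝ) * e)) := by
  rw [one_div, inv_pow, Real.inv_rpow (by positivity), k8b_cs_two, Real.rpow_neg (by norm_num)]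

theorem k8b_cs_mono {a b : ℝ} (h : a ≤ b) : (2 : ℝ) ^ a ≤ (2 : ℝ) ^ b :=
  Real.rpow_le_rpow_of_exponent_le (by norm_num) h

/-- the scalar is bounded -/
theorem k8b_cs_Sb {K t : ℝ} (hK : 1 ≤ K) (h0 : 0 ≤ t) (h1 : t ≤ 1) {f : Fin 2 → ℝ} (hf : ‖f‖ ≤ K) {c : k5_Co 2} (hc : ‖c‖ ≤ K) :
    |k5_S f c t| ≤ 7 * K ^ 2 := by
  have a1 : ∀ i, |c.1 i| ≤ K := fun i => ((norm_le_pi_norm c.1 i).trans (norm_fst_le c)).trans hc
  have a2 : ∀ i b, |c.2 i b| ≤ K := fun i b =>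
    (((norm_le_pi_norm (c.2 i) b).trans (norm_le_pi_norm c.2 i)).trans (norm_snd_le c)).trans hc
  have a3 : ∀ b, |f b| ≤ K := fun b => (norm_le_pi_norm f b).trans hf
  have hx : |k5_x c t| ≤ 3 * K := by
    unfold k5_x
    have e1 : |t * c.1 1| ≤ K := by
      rw [abs_mul, abs_of_nonneg h0]
      calc t * |c.1 1| ≤ 1 * K := mul_le_mul h1 (a1 1) (abs_nonneg _) zero_le_one
        _ = K := one_mul K
    have e2 : |t ^ 2 * c.1 2| ≤ K := by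
      rw [abs_mul, abs_of_nonneg (sq_nonneg t)]
      calc t ^ 2 * |c.1 2| ≤ 1 * K := mul_le_mul (pow_le_one₀ h0 h1) (a1 2) (abs_nonneg _) zero_le_one
        _ = K := one_mul K
    calc |c.1 0 + t * c.1 1 + t ^ 2 * c.1 2| ≤ |c.1 0 + t * c.1 1| + |t ^ 2 * c.1 2| := abs_add_le _ _
      _ ≤ |c.1 0| + |t * c.1 1| + |t ^ 2 * c.1 2| := by gcongr; exact abs_add_le _ _
      _ ≤ K + K + K := add_le_add (add_le_add (a1 0) e1) e2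
      _ = 3 * K := by ring
  have hy : ∀ b, |k5_y c t b| ≤ 2 * K := by
    intro b
    unfold k5_y
    have e1 : |t * c.2 1 b| ≤ K := by
      rw [abs_mul, abs_of_nonneg h0]
      calc t * |c.2 1 b| ≤ 1 * K := mul_le_mul h1 (a2 1 b) (abs_nonneg _) zero_le_one
        _ = K := one_mul K
    calc |c.2 0 b + t * c.2 1 b| ≤ |c.2 0 b| + |t * c.2 1 b| := abs_add_le _ _
      _ ≤ K + K := add_le_add (a2 0 b) e1
      _ = 2 * K := by ring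
  have hd : |f ⬝ᵥ k5_y c t| ≤ 4 * K ^ 2 := by
    rw [dotProduct, Fin.sum_univ_two]
    have e : ∀ b, |f b * k5_y c t b| ≤ K * (2 * K) := fun b => by
      rw [abs_mul]
      exact mul_le_mul (a3 b) (hy b) (abs_nonneg _) (by linarith)
    calc |f 0 * k5_y c t 0 + f 1 * k5_y c t 1| ≤ |f 0 * k5_y c t 0| + |f 1 * k5_y c t 1| := abs_add_le _ _
      _ ≤ K * (2 * K) + K * (2 * K) := add_le_add (e 0) (e 1)
      _ = 4 * K ^ 2 := by ring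
  unfold k5_S
  calc |k5_x c t - f ⬝ᵥ k5_y c t| ≤ |k5_x c t| + |f ⬝ᵥ k5_y c t| := abs_sub _ _
    _ ≤ 3 * K + 4 * K ^ 2 := add_le_add hx hd
    _ ≤ 7 * K ^ 2 := by nlinarith

/-- the scalar bins at one time -/
theorem k8b_cs_bins {Λ : Type} [MeasurableSpace Λ] {d K ζ : ℝ} {ν : Measure Λ} {c : Λ → k5_Co 2} {E : Set (Λ × ℝ)}
    {F : ℝ → Fin 2 → ℝ} (h : k5_Snd 2 d K ζ ν c E F) (hK : 1 ≤ K) {w ts : ℝ} (hw : ζ ≤ w) (hw1 : w ≤ 1) (h0 : 0 ≤ ts)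
    (h1 : ts < 1) :
    ∃ Z : Finset ℤ, (Z.card : ℝ) ≤ 17 * K ^ 3 * w ^ (-d) ∧ ∀ l, (l, ts) ∈ E → k5_bin w (k5_S (F ts) (c l) ts) ∈ Z := by
  classical
  have H := h.tm ts h0 h1
  have hw0 : 0 < w := lt_of_lt_of_le H.z0 hw
  have hS : ∀ l, |k5_S (F ts) (c l) ts| ≤ 7 * K ^ 2 := fun l => k8b_cs_Sb hK h0 h1.le H.fb (h.cb l)
  choose Zf hZc hZm using fun a : ℤ => H.supp w 1 (a : ℝ) hw hw1 le_rfl
  obtain ⟨m, hm⟩ : ∃ m : ℤ, m = ⌈7 * K ^ 2⌉ := ⟨_, rfl⟩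
  have hm1 : 7 * K ^ 2 ≤ (m : ℝ) := hm ▸ Int.le_ceil _
  have hm2 : (m : ℝ) < 7 * K ^ 2 + 1 := hm ▸ Int.ceil_lt_add_one _
  have hm0 : 0 ≤ m := by
    have : (0 : ℝ) ≤ (m : ℝ) := le_trans (by positivity) hm1
    exact_mod_cast this
  have hwd : (1 / w) ^ d = w ^ (-d) := by
    rw [one_div, Real.inv_rpow hw0.le, Real.rpow_neg hw0.le]
  have hwd0 : 0 < w ^ (-d) := Real.rpow_pos_of_pos hw0 _
  refine ⟨(Finset.Icc (-m) m).biUnion Zf, ?_, fun l hl => ?_⟩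
  · have c1 : (((Finset.Icc (-m) m).biUnion Zf).card : ℝ) ≤ ∑ a ∈ Finset.Icc (-m) m, ((Zf a).card : ℝ) := by
      exact_mod_cast Finset.card_biUnion_le
    have c2 : ∑ a ∈ Finset.Icc (-m) m, ((Zf a).card : ℝ) ≤ ∑ _a ∈ Finset.Icc (-m) m, K * w ^ (-d) :=
      Finset.sum_le_sum fun a _ => by rw [← hwd]; exact hZc a
    have c3 : ((Finset.Icc (-m) m).card : ℝ) = 2 * m + 1 := by
      rw [Int.card_Icc]
      have : (m + 1 - -m).toNat = (2 * m + 1).toNat := by congr 1; ring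
      rw [this]
      have h2 : ((2 * m + 1).toNat : ℤ) = 2 * m + 1 := Int.toNat_of_nonneg (by omega)
      have h3 : (((2 * m + 1).toNat : ℤ) : ℝ) = ((2 * m + 1 : ℤ) : ℝ) := by rw [h2]
      push_cast at h3
      exact h3
    rw [Finset.sum_const, nsmul_eq_mul, c3] at c2
    refine c1.trans (c2.trans ?_)
    have : (2 * (m : ℝ) + 1) * K ≤ 17 * K ^ 3 := by nlinarith [sq_nonneg K, mul_pos (show (0:ℝ) < K by linarith) (show (0:ℝ) < K by linarith)]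
    calc (2 * (m : ℝ) + 1) * (K * w ^ (-d)) = (2 * (m : ℝ) + 1) * K * w ^ (-d) := by ring
      _ ≤ 17 * K ^ 3 * w ^ (-d) := mul_le_mul_of_nonneg_right this hwd0.le
  · set S := k5_S (F ts) (c l) ts with hSd
    have b := abs_le.1 (hS l)
    have f1 : (⌊S⌋ : ℝ) ≤ S := Int.floor_le S
    have f2 : S < ⌊S⌋ + 1 := Int.lt_floor_add_one S
    refine Finset.mem_biUnion.2 ⟨⌊S⌋, Finset.mem_Icc.2 ⟨?_, ?_⟩, hZm ⌊S⌋ l hl f1 f2.le⟩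
    · rw [Int.le_floor]
      push_cast
      linarith
    · have : (⌊S⌋ : ℝ) ≤ (m : ℝ) := by linarith
      exact_mod_cast this

theorem k8b_cs_J {c : k5_Co 2} (h1 : c.1 2 = 0) (h2 : c.2 1 = 0) (g f : Fin 2 → ℝ) (t : ℝ) :
    k5_J 1 g f c t = c.1 1 - g ⬝ᵥ c.2 0 := by
  have e1 : k5_y c t = c.2 0 := by
    funext a
    simp [k5_y, h2]
  have e2 : k5_yd c = 0 := h2
  have e3 : k5_xD 1 c t = c.1 1 := by
    simp [k5_xD, h1]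
  unfold k5_J
  rw [e1, e2, e3]
  simp

/-- **L-252-S8b-T2** (glue, ~500 l.).   THE ABSTRACT CHART STEP: value-and-slope list at one time.
PROOF.  `C₀` from `k8b_snd d`, `C_L` from `k5_first_jet_lists 2 d`.   `ε₂ := ε / (8 (C_L + 2))`.   `(η₁', k₁₀)` from `k5_first_jet 2 d θ … (R := 1) (n := 1) ε₂`; `η₁ := min η₁' ε₂`.   `γ := η₁ / (16 C₀)`.
Given `n`: `ε₁ := η₁/16`, `C` from `k8b_snd` at `(n, ε₁)`, `η := η₁ / (16 C)`, `k₀ ≥ max 12 (4 k₁₀)` so large that `C ≤ 2^(k₀ η₁/16)` and `64 · 9 · C_L ≤ 2^(k₀ ε/8)`.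
DATA.  `ζ = (1/2)^kζ`, `k1 := kζ / 3` (ℕ-division): `kζ/4 ≤ k1`, `3 k1 ≤ kζ`; `H1 := (1/2)^k1`.
1. `k8b_snd`: `E₁ ⊆ E`, `mass ≥ ζ^ε₁/(C K^C)`, `k5_Snd 2 d K_s ζ ν c E₁ F`, `K_s = C K^C ζ^(-ε₁) (2^g)^C₀ ≤ 2^(kζ η₁/4) ≤ H1^(-η₁)` (four factors `≤ 2^(kζ η₁/16)`), `1/K_s ≤ mass E₁`.
2. `k5_first_jet` with `ks := {k1}`, `kst := k1` (successor condition vacuous; `ζ ≤ (H1)^3`): `E₂ ⊆ E₁`, row `A`, `mass E₂ ≥ H1^ε₂ =: δ`, `k5_Fj 2 K₃ (θ/2) c E₂ F A {k1} H1 (H1^(θ(1-d)/16))`, `K₃ := H1^(-ε₂) ≥ K_s`.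
3. `k5_snd_mono`, `k5_snd_mono_K`: `k5_Snd 2 d K₃ ζ ν c E₂ F`.   `k5_first_jet_lists` with `w = (1/2)^kw`: `ζ ≤ H1 ≤ H1^(θ(1-d)/16) ≤ w` (`kw ≤ k1 θ(1-d)/16` from `100 kw ≤ θ(1-d) kζ ≤ 4 θ(1-d) k1`… `64 kw ≤ …` suffices), `w ∈ k5_Dy ζ`:
   `E₃ ⊆ E₂`, `mass ≥ δ/4`, at every time and `w`-bin of `S` at most `C_L (K₃/δ)^C_L = C_L H1^(-2 ε₂ C_L)` bins of `J₁`.
4. `k8b_tstar` for `E₃`: `ts`, `Ls`, mass `≥ δ²/64 ≥ ζ^ε`.   `A_* := A ts`, `‖A_*‖ ≤ K₃` (`k5_Fj.Ab`).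
5. Scalar bins at `ts`: `|S| ≤ 2K₃ + 2K₃² ≤ 4K₃²`; `k5_Tm.supp` (`q = w`, `r = 1`) on the `≤ 8K₃² + 1` unit intervals: `≤ 9 K₃³ w^(-d)` bins.   `Z` := pairs (scalar bin, listed `J₁`-bin).
   `k5_J 1 (A ts) (F ts) (c l) ts = (c l).1 1 - A ts ⬝ᵥ (c l).2 0` by flatness (`k5_xD`, `k5_y`, `k5_yd`).   `card Z ≤ 9 C_L H1^(-(3 + 2 C_L) ε₂) w^(-d) ≤ ζ^(-ε) w^(-d)`. -/
theorem k8b_chart_step (d θ : ℝ) (hd0 : 0 ≤ d) (hd : d < 1) (hθ : 0 < θ) (hθ1 : θ ≤ 1) (hFJ : k5_FJ d θ) (ε : ℝ) (hε : 0 < ε) :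
    ∃ γ : ℝ, 0 < γ ∧ ∀ n : ℕ, ∃ (η : ℝ) (k₀ : ℕ), 0 < η ∧
      ∀ (Λ : Type) [MeasurableSpace Λ] (ν : Measure Λ) (c : Λ → k5_Co 2) (E : Set (Λ × ℝ)) (F : ℝ → Fin 2 → ℝ) (K : ℝ)
        (ks : Finset ℕ) (kζ g kw : ℕ), k8bGrid ks kζ g → ks.card ≤ n → (g : ℝ) ≤ γ * kζ → k₀ ≤ kζ → K ≤ ((2 : ℝ) ^ kζ) ^ η →
        100 * (kw : ℝ) ≤ θ * (1 - d) * kζ → K8bCh K ν c E F → k8bMix d K ((1 / 2 : ℝ) ^ kζ) ν c E →
        (∀ k ∈ ks, k8bSup d K ((1 / 2 : ℝ) ^ k) c E F) → 1 / K ≤ k5_mass ν E →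
        ∃ (ts : ℝ) (A : Fin 2 → ℝ) (Ls : Set Λ) (Z : Finset (ℤ × ℤ)), 0 ≤ ts ∧ ts < 1 ∧ ‖A‖ ≤ ((2 : ℝ) ^ kζ) ^ ε ∧ MeasurableSet Ls ∧
          (Z.card : ℝ) ≤ ((2 : ℝ) ^ kζ) ^ ε * ((1 / 2 : ℝ) ^ kw) ^ (-d) ∧
          (∀ l ∈ Ls, (k5_bin ((1 / 2 : ℝ) ^ kw) (k5_S (F ts) (c l) ts),
            k5_bin ((1 / 2 : ℝ) ^ kw) ((c l).1 1 - A ⬝ᵥ (c l).2 0)) ∈ Z) ∧
          ((1 / 2 : ℝ) ^ kζ) ^ ε ≤ k5_mass ν {x | x ∈ E ∧ x.1 ∈ Ls} := by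
  classical
  obtain ⟨C₀, hC₀, hsnd⟩ := k8b_snd d hd0 hd
  obtain ⟨CL, hCL, hlist⟩ := k5_first_jet_lists 2 d hd0 hd
  obtain ⟨ε₂, hε₂d⟩ : ∃ ε₂ : ℝ, ε₂ = ε / (8 * (CL + 2)) := ⟨_, rfl⟩
  have hCL0 : 0 < CL := by linarith
  have hε₂ : 0 < ε₂ := by rw [hε₂d]; positivity
  have hε₂e : ε₂ * (8 * (CL + 2)) = ε := by rw [hε₂d]; field_simp
  obtain ⟨η₁', k₁₀, hη₁', hfj⟩ := k5_first_jet 2 d θ hd0 hd hθ hθ1 hFJ 1 1 ε₂ hε₂
  obtain ⟨η₁, hη₁d⟩ : ∃ η₁ : ℝ, η₁ = min η₁' ε₂ := ⟨_, rfl⟩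
  have hη₁ : 0 < η₁ := by rw [hη₁d]; exact lt_min hη₁' hε₂
  have hη₁a : η₁ ≤ η₁' := hη₁d ▸ min_le_left _ _
  have hη₁b : η₁ ≤ ε₂ := hη₁d ▸ min_le_right _ _
  have hC₀0 : 0 < C₀ := by linarith
  refine ⟨η₁ / (16 * C₀), by positivity, fun n => ?_⟩
  obtain ⟨C, hC, hsnd'⟩ := hsnd n (η₁ / 16) (by positivity)
  have hC0 : 0 < C := by linarith
  obtain ⟨ka, hka⟩ := k5_fj_large C (η₁ / 16) (by positivity)
  obtain ⟨kb, hkb⟩ := k5_fj_large 64 (ε / 8) (by positivity)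
  obtain ⟨kc, hkc⟩ := k5_fj_large (17 * CL) (ε / 8) (by positivity)
  refine ⟨η₁ / (16 * C), max (max 12 (4 * k₁₀)) (max ka (max kb kc)), by positivity, ?_⟩
  intro Λ _ ν c E F K ks kζ g kw hgrid hcard hg hk₀ hK hkw hch hmix hsup hmass
  have hk12 : 12 ≤ kζ := le_trans (le_trans (le_max_left _ _) (le_max_left _ _)) hk₀
  have hk10 : 4 * k₁₀ ≤ kζ := le_trans (le_trans (le_max_right _ _) (le_max_left _ _)) hk₀
  have hkka : ka ≤ kζ := le_trans (le_trans (le_max_left _ _) (le_max_right _ _)) hk₀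
  have hkkb : kb ≤ kζ := le_trans (le_trans (le_trans (le_max_left _ _) (le_max_right _ _)) (le_max_right _ _)) hk₀
  have hkkc : kc ≤ kζ := le_trans (le_trans (le_trans (le_max_right _ _) (le_max_right _ _)) (le_max_right _ _)) hk₀
  have := hch.prob
  have hK1 := hch.K1
  have hK0 : 0 < K := by linarith
  obtain ⟨k1, hk1d⟩ : ∃ k1 : ℕ, k1 = kζ / 3 := ⟨_, rfl⟩
  have hk1a : 3 * k1 ≤ kζ := by omega
  have hk1b : kζ ≤ 4 * k1 := by omega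
  have hk1c : k₁₀ ≤ k1 := by omega
  have hk1aR : 3 * (k1 : ℝ) ≤ kζ := by exact_mod_cast hk1a
  have hk1bR : (kζ : ℝ) ≤ 4 * k1 := by exact_mod_cast hk1b
  have hk1n : (0 : ℝ) ≤ k1 := Nat.cast_nonneg _
  have hkζn : (0 : ℝ) ≤ kζ := Nat.cast_nonneg _
  have h2 : (0 : ℝ) < 2 := by norm_num
  -- step 1
  obtain ⟨E₁, hE₁m, hE₁s, hE₁mass, hS₁⟩ := hsnd' Λ ν c E F K ks kζ g hgrid hcard hch hmix hsup hmass
  obtain ⟨ζ, hζd⟩ : ∃ ζ : ℝ, ζ = (1 / 2 : ℝ) ^ kζ := ⟨_, rfl⟩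
  rw [← hζd] at hE₁mass hS₁
  have hζ0 : 0 < ζ := by rw [hζd]; positivity
  obtain ⟨Ks, hKs⟩ : ∃ Ks : ℝ, Ks = C * K ^ C * ζ ^ (-(η₁ / 16)) * ((2 : ℝ) ^ g) ^ C₀ := ⟨_, rfl⟩
  rw [← hKs] at hS₁
  obtain ⟨T, hT⟩ : ∃ T : ℝ, T = (2 : ℝ) ^ ((kζ : ℝ) * (η₁ / 16)) := ⟨_, rfl⟩
  have hT1 : 1 ≤ T := by rw [hT]; exact Real.one_le_rpow (by norm_num) (by positivity)
  have hT0 : 0 < T := by linarith
  have f1 : C ≤ T := by
    have := hka kζ hkka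
    rw [k8b_cs_half] at this
    rw [hT]
    convert this using 2
    ring
  have hKC1 : 1 ≤ K ^ C := Real.one_le_rpow hK1 hC0.le
  have f2 : K ^ C ≤ T := by
    calc K ^ C ≤ (((2 : ℝ) ^ kζ) ^ (η₁ / (16 * C))) ^ C := Real.rpow_le_rpow hK0.le hK hC0.le
      _ = T := by
        rw [k8b_cs_two, ← Real.rpow_mul h2.le, hT]
        congr 1
        field_simp
  have f3 : ζ ^ (-(η₁ / 16)) = T := by
    rw [hζd, k8b_cs_half, hT]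
    congr 1
    ring
  have hG1 : 1 ≤ ((2 : ℝ) ^ g) ^ C₀ := Real.one_le_rpow (one_le_pow₀ (by norm_num)) hC₀0.le
  have f4 : ((2 : ℝ) ^ g) ^ C₀ ≤ T := by
    rw [k8b_cs_two, hT]
    apply k8b_cs_mono
    calc (g : ℝ) * C₀ ≤ η₁ / (16 * C₀) * kζ * C₀ := mul_le_mul_of_nonneg_right hg hC₀0.le
      _ = (kζ : ℝ) * (η₁ / 16) := by field_simp
  have hKsle : Ks ≤ (2 : ℝ) ^ ((kζ : ℝ) * (η₁ / 4)) := by
    have e : (2 : ℝ) ^ ((kζ : ℝ) * (η₁ / 4)) = T * T * T * T := by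
      rw [hT, ← Real.rpow_add h2, ← Real.rpow_add h2, ← Real.rpow_add h2]
      congr 1
      ring
    rw [e, hKs, f3]
    have g1 : C * K ^ C ≤ T * T := mul_le_mul f1 f2 (by linarith) hT0.le
    have g2 : C * K ^ C * T ≤ T * T * T := mul_le_mul_of_nonneg_right g1 hT0.le
    exact mul_le_mul g2 f4 (by linarith) (by positivity)
  have hCK1 : 1 ≤ C * K ^ C := one_le_mul_of_one_le_of_one_le hC hKC1
  have hKs1 : 1 ≤ Ks := by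
    rw [hKs, f3]
    exact one_le_mul_of_one_le_of_one_le (one_le_mul_of_one_le_of_one_le hCK1 hT1) hG1
  have hKs0 : 0 < Ks := by linarith
  have hKsη : Ks ≤ ((1 / 2 : ℝ) ^ k1) ^ (-η₁') := by
    refine hKsle.trans ?_
    rw [k8b_cs_half]
    apply k8b_cs_mono
    have : (k1 : ℝ) * η₁ ≤ k1 * η₁' := mul_le_mul_of_nonneg_left hη₁a hk1n
    have h4 : (kζ : ℝ) * η₁ ≤ 4 * k1 * η₁ := mul_le_mul_of_nonneg_right hk1bR hη₁.le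
    linarith
  obtain ⟨K₃, hK₃d⟩ : ∃ K₃ : ℝ, K₃ = ((1 / 2 : ℝ) ^ k1) ^ (-ε₂) := ⟨_, rfl⟩
  have hK₃e : K₃ = (2 : ℝ) ^ ((k1 : ℝ) * ε₂) := by
    rw [hK₃d, k8b_cs_half]
    congr 1
    ring
  have hKsK₃ : Ks ≤ K₃ := by
    refine hKsle.trans ?_
    rw [hK₃e]
    apply k8b_cs_mono
    have : (k1 : ℝ) * η₁ ≤ k1 * ε₂ := mul_le_mul_of_nonneg_left hη₁b hk1n
    have h4 : (kζ : ℝ) * η₁ ≤ 4 * k1 * η₁ := mul_le_mul_of_nonneg_right hk1bR hη₁.le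
    linarith
  have hK₃1 : 1 ≤ K₃ := hKs1.trans hKsK₃
  have hζ3 : ζ ≤ ((1 / 2 : ℝ) ^ (1 * k1)) ^ 3 := by
    rw [hζd, ← pow_mul]
    exact pow_le_pow_of_le_one (by norm_num) (by norm_num) (by omega)
  have hm1 : 1 / Ks ≤ k5_mass ν E₁ := by
    refine le_trans ?_ hE₁mass
    have e0 : ζ ^ (η₁ / 16) * T = 1 := by
      rw [← f3, ← Real.rpow_add hζ0]
      simp
    rw [div_le_div_iff₀ hKs0 (by linarith), hKs, f3]
    calc 1 * (C * K ^ C) = ζ ^ (η₁ / 16) * T * (C * K ^ C) * 1 := by rw [e0]; ring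
      _ ≤ ζ ^ (η₁ / 16) * T * (C * K ^ C) * ((2 : ℝ) ^ g) ^ C₀ := by
          refine mul_le_mul_of_nonneg_left hG1 ?_
          rw [e0]
          linarith
      _ = ζ ^ (η₁ / 16) * (C * K ^ C * T * ((2 : ℝ) ^ g) ^ C₀) := by ring
  -- step 2
  obtain ⟨E₂, A, hE₂m, hE₂s, hE₂mass, hFj⟩ := hfj {k1} k1 k1 Ks ζ hk1c (by simp) (by simp) (by simp)
    (by simp) (by simp) (by simp) hKs1 hKsη hζ3 Λ ν c E₁ F hS₁ hm1
  rw [← hK₃d] at hFj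
  -- step 3
  have hS₂ : k5_Snd 2 d K₃ ζ ν c E₂ F := k5_snd_mono_K (k5_snd_mono hS₁ hE₂m hE₂s) hKs0.le hKsK₃
  obtain ⟨δ, hδd⟩ : ∃ δ : ℝ, δ = ((1 / 2 : ℝ) ^ k1) ^ ε₂ := ⟨_, rfl⟩
  rw [← hδd] at hE₂mass
  have hδe : δ = (2 : ℝ) ^ (-((k1 : ℝ) * ε₂)) := by rw [hδd, k8b_cs_half]
  have hδ0 : 0 < δ := by rw [hδe]; positivity
  obtain ⟨w, hwd⟩ : ∃ w : ℝ, w = (1 / 2 : ℝ) ^ kw := ⟨_, rfl⟩
  have hw0 : 0 < w := by rw [hwd]; positivity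
  have hw1 : w ≤ 1 := by rw [hwd]; exact pow_le_one₀ (by norm_num) (by norm_num)
  have hθd0 : 0 < θ * (1 - d) := mul_pos hθ (by linarith)
  have hθd1 : θ * (1 - d) ≤ 1 := mul_le_one₀ hθ1 (by linarith) (by linarith)
  have hkwζ : kw ≤ kζ := by
    have : (kw : ℝ) ≤ kζ := by
      have h5 : θ * (1 - d) * kζ ≤ 1 * kζ := mul_le_mul_of_nonneg_right hθd1 hkζn
      have h6 : (0 : ℝ) ≤ kw := Nat.cast_nonneg _
      linarith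
    exact_mod_cast this
  have hζw : ζ ≤ w := by
    rw [hζd, hwd]
    exact pow_le_pow_of_le_one (by norm_num) (by norm_num) hkwζ
  have hH0 : (0 : ℝ) < (1 / 2 : ℝ) ^ k1 := by positivity
  have hH1 : ((1 / 2 : ℝ) ^ k1) ≤ 1 := pow_le_one₀ (by norm_num) (by norm_num)
  have hζH : ζ ≤ (1 / 2 : ℝ) ^ k1 := by
    rw [hζd]
    exact pow_le_pow_of_le_one (by norm_num) (by norm_num) (by omega)
  have hHwd : (1 / 2 : ℝ) ^ k1 ≤ ((1 / 2 : ℝ) ^ k1) ^ (θ * (1 - d) / 16) := by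
    calc (1 / 2 : ℝ) ^ k1 = ((1 / 2 : ℝ) ^ k1) ^ (1 : ℝ) := (Real.rpow_one _).symm
      _ ≤ _ := Real.rpow_le_rpow_of_exponent_ge hH0 hH1 (by linarith)
  have hwdw : ((1 / 2 : ℝ) ^ k1) ^ (θ * (1 - d) / 16) ≤ w := by
    have e : w = ((1 / 2 : ℝ) ^ kw) ^ (1 : ℝ) := by rw [Real.rpow_one, hwd]
    rw [e, k8b_cs_half, k8b_cs_half]
    apply k8b_cs_mono
    have : θ * (1 - d) * kζ ≤ θ * (1 - d) * (4 * k1) := mul_le_mul_of_nonneg_left hk1bR hθd0.le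
    have h3 : 0 ≤ θ * (1 - d) * k1 := by positivity
    linarith
  obtain ⟨E₃, hE₃m, hE₃s, hE₃mass, hL⟩ := hlist Λ ν c E₂ F A K₃ (θ / 2) ζ δ {k1} ((1 / 2 : ℝ) ^ k1)
    (((1 / 2 : ℝ) ^ k1) ^ (θ * (1 - d) / 16)) w hK₃1 hS₂ hFj hδ0 hE₂mass hζH hHwd hwdw ⟨hζw, kw, hwd⟩
  have hE₃E : E₃ ⊆ E := hE₃s.trans (hE₂s.trans hE₁s)
  -- step 4
  obtain ⟨ts, Ls, hts0, hts1, hLsm, hLsE, hLsmass⟩ := k8b_tstar ν E₃ hE₃m (fun l t h => hch.tI l t (hE₃E h)) (δ / 4)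
    (by positivity) hE₃mass
  -- step 5
  obtain ⟨Zs, hZsc, hZsm⟩ := k8b_cs_bins (k5_snd_mono hS₂ hE₃m hE₃s) hK₃1 hζw hw1 hts0 hts1
  choose ZJ hZJc hZJm using hL ts
  have hp : (0 : ℝ) ≤ (k1 : ℝ) * ε₂ := by positivity
  have hpc : (0 : ℝ) ≤ (k1 : ℝ) * ε₂ * CL := by positivity
  have hsum : 8 * ((k1 : ℝ) * ε₂ * CL) + 16 * ((k1 : ℝ) * ε₂) = k1 * ε := by rw [← hε₂e]; ring
  have hk1ε : 3 * ((k1 : ℝ) * ε) ≤ kζ * ε := by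
    have := mul_le_mul_of_nonneg_right hk1aR hε.le
    linarith
  have hkε : (0 : ℝ) ≤ (kζ : ℝ) * ε := by positivity
  refine ⟨ts, A ts, Ls, Zs.biUnion fun z => (ZJ z).image fun z' => (z, z'), hts0, hts1, ?_, hLsm, ?_, ?_, ?_⟩
  · refine (hFj.Ab ts).trans ?_
    rw [hK₃e, k8b_cs_two]
    apply k8b_cs_mono
    linarith
  · rw [← hwd]
    have hwdp : 0 < w ^ (-d) := Real.rpow_pos_of_pos hw0 _
    obtain ⟨Lb, hLb⟩ : ∃ Lb : ℝ, Lb = CL * (K₃ / δ) ^ CL := ⟨_, rfl⟩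
    have hLb0 : 0 ≤ Lb := by rw [hLb]; positivity
    have c1 : ((Zs.biUnion fun z => (ZJ z).image fun z' => (z, z')).card : ℝ) ≤ ∑ z ∈ Zs, ((ZJ z).card : ℝ) := by
      have h1 : (Zs.biUnion fun z => (ZJ z).image fun z' => (z, z')).card ≤ ∑ z ∈ Zs, ((ZJ z).image fun z' => (z, z')).card :=
        Finset.card_biUnion_le
      have h2 : ∑ z ∈ Zs, ((ZJ z).image fun z' => (z, z')).card ≤ ∑ z ∈ Zs, (ZJ z).card :=
        Finset.sum_le_sum fun z _ => Finset.card_image_le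
      exact_mod_cast h1.trans h2
    have c2 : ∑ z ∈ Zs, ((ZJ z).card : ℝ) ≤ (Zs.card : ℝ) * Lb := by
      rw [← nsmul_eq_mul, ← Finset.sum_const]
      exact Finset.sum_le_sum fun z _ => by rw [hLb]; exact hZJc z
    have c3 : (Zs.card : ℝ) * Lb ≤ 17 * K₃ ^ 3 * w ^ (-d) * Lb := mul_le_mul_of_nonneg_right hZsc hLb0
    refine c1.trans (c2.trans (c3.trans ?_))
    have e1 : K₃ ^ 3 = (2 : ℝ) ^ (3 * ((k1 : ℝ) * ε₂)) := by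
      rw [hK₃e, ← Real.rpow_natCast, ← Real.rpow_mul h2.le]
      congr 1
      push_cast
      ring
    have e2 : (K₃ / δ) ^ CL = (2 : ℝ) ^ (2 * ((k1 : ℝ) * ε₂ * CL)) := by
      rw [hK₃e, hδe, ← Real.rpow_sub h2, ← Real.rpow_mul h2.le]
      congr 1
      ring
    have e3 : 17 * CL ≤ (2 : ℝ) ^ ((kζ : ℝ) * (ε / 8)) := by
      have := hkc kζ hkkc
      rw [k8b_cs_half] at this
      convert this using 2
      ring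
    have e4 : 17 * K₃ ^ 3 * Lb ≤ ((2 : ℝ) ^ kζ) ^ ε := by
      rw [hLb, e1, e2, k8b_cs_two]
      calc 17 * (2 : ℝ) ^ (3 * ((k1 : ℝ) * ε₂)) * (CL * (2 : ℝ) ^ (2 * ((k1 : ℝ) * ε₂ * CL)))
          = 17 * CL * ((2 : ℝ) ^ (3 * ((k1 : ℝ) * ε₂)) * (2 : ℝ) ^ (2 * ((k1 : ℝ) * ε₂ * CL))) := by ring
        _ ≤ (2 : ℝ) ^ ((kζ : ℝ) * (ε / 8)) * ((2 : ℝ) ^ (3 * ((k1 : ℝ) * ε₂)) * (2 : ℝ) ^ (2 * ((k1 : ℝ) * ε₂ * CL))) :=
            mul_le_mul_of_nonneg_right e3 (by positivity)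
        _ = (2 : ℝ) ^ ((kζ : ℝ) * (ε / 8) + (3 * ((k1 : ℝ) * ε₂) + 2 * ((k1 : ℝ) * ε₂ * CL))) := by
            rw [← Real.rpow_add h2, ← Real.rpow_add h2]
        _ ≤ (2 : ℝ) ^ ((kζ : ℝ) * ε) := by
            apply k8b_cs_mono
            linarith
    calc 17 * K₃ ^ 3 * w ^ (-d) * Lb = 17 * K₃ ^ 3 * Lb * w ^ (-d) := by ring
      _ ≤ _ := mul_le_mul_of_nonneg_right e4 hwdp.le
  · intro l hl
    rw [← hwd]
    have hlE := hLsE l hl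
    refine Finset.mem_biUnion.2 ⟨_, hZsm l hlE, Finset.mem_image.2 ⟨_, ?_, rfl⟩⟩
    have := hZJm _ l hlE rfl
    rwa [k8b_cs_J (hch.flat l).1 (hch.flat l).2] at this
  · have m1 : k5_mass ν {x | x ∈ E₃ ∧ x.1 ∈ Ls} ≤ k5_mass ν {x | x ∈ E ∧ x.1 ∈ Ls} :=
      k5_mass_mono (T := Ico 0 1) (by simp) (fun l t h => hch.tI l t h.1) fun x hx => ⟨hE₃E hx.1, hx.2⟩
    refine le_trans ?_ (hLsmass.trans m1)
    have e3 : (64 : ℝ) ≤ (2 : ℝ) ^ ((kζ : ℝ) * (ε / 8)) := by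
      have := hkb kζ hkkb
      rw [k8b_cs_half] at this
      convert this using 2
      ring
    have e5 : (δ / 4) ^ 2 / 4 = δ ^ 2 / 64 := by ring
    have e6 : δ ^ 2 = (2 : ℝ) ^ (-(2 * ((k1 : ℝ) * ε₂))) := by
      rw [hδe, ← Real.rpow_natCast, ← Real.rpow_mul h2.le]
      congr 1
      push_cast
      ring
    rw [e5, e6, k8b_cs_half, le_div_iff₀ (by norm_num)]
    calc (2 : ℝ) ^ (-((kζ : ℝ) * ε)) * 64 ≤ (2 : ℝ) ^ (-((kζ : ℝ) * ε)) * (2 : ℝ) ^ ((kζ : ℝ) * (ε / 8)) :=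
          mul_le_mul_of_nonneg_left e3 (by positivity)
      _ = (2 : ℝ) ^ (-((kζ : ℝ) * ε) + (kζ : ℝ) * (ε / 8)) := by rw [← Real.rpow_add h2]
      _ ≤ _ := by
          apply k8b_cs_mono
          linarith

/-! ## 2. One chart of a labelling -/

/-- the tested widths `(1/2)^k`, `k ∈ ks`, are realised by prepared true depths `dep k ≥ s`, with the room `D/h² ≤ a_{dep}/a_s` of the support count -/
def K8bDep (c : K7bPar) (s D : ℝ) (ks : Finset ℕ) (dep : ℕ → ℝ) : Prop :=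
  ∀ k ∈ ks, dep k ∈ c.G ∧ s ≤ dep k ∧ c.a (dep k) / c.a s ≤ (1 / 2 : ℝ) ^ k ∧ (1 / 2 : ℝ) ^ k ≤ 2 * (c.a (dep k) / c.a s) ∧
    D * c.a s ≤ c.h (dep k) ^ 2 * c.a (dep k)

theorem k8b_t3_ch_meas {H : K7bHor} {c : K7bPar} {K s D : ℝ} {E : Set (H.Lam × ℝ)} {F : K8Lab H} (hok : H.Ok c K) (hF : F.Ok c K s D E)
    (x : (ℤ × ℤ × ℤ) × K8Pr) : MeasurableSet (F.ch c.χ D x) :=
  k8f_asg_meas hok c.χ D F hF.mdom hF.mpr x

theorem k8b_t3_chI_meas {H : K7bHor} {c : K7bPar} {K s D : ℝ} {E : Set (H.Lam × ℝ)} {F : K8Lab H} (hok : H.Ok c K) (hF : F.Ok c K s D E)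
    (x : (ℤ × ℤ × ℤ) × K8Pr) : MeasurableSet (F.chI c.χ D x) :=
  measurable_fst (k8b_t3_ch_meas hok hF x)

/-- `lam (chI) ≤ K ν(ch)` -/
theorem k8b_t3_lam_chI {H : K7bHor} {c : K7bPar} {K s D : ℝ} {E : Set (H.Lam × ℝ)} {F : K8Lab H} (hok : H.Ok c K) (hF : F.Ok c K s D E)
    (x : (ℤ × ℤ × ℤ) × K8Pr) : H.lam (F.chI c.χ D x) ≤ ENNReal.ofReal K * H.ν (F.ch c.χ D x) := by
  have : IsFiniteMeasure H.ν := ⟨lt_of_le_of_lt hok.νle ENNReal.one_lt_top⟩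
  have h1 : F.chI c.χ D x = F.ch c.χ D x ×ˢ (univ : Set ℝ) := by
    ext z; simp [K8Lab.chI]
  calc H.lam (F.chI c.χ D x) ≤ (ENNReal.ofReal K • H.ν.prod k7bTime) (F.chI c.χ D x) := hok.dom _
    _ = ENNReal.ofReal K * (H.ν.prod k7bTime) (F.ch c.χ D x ×ˢ (univ : Set ℝ)) := by
        rw [Measure.smul_apply, smul_eq_mul, h1]
    _ = ENNReal.ofReal K * H.ν (F.ch c.χ D x) := by
        rw [k7bTime, Measure.prod_prod, Measure.restrict_apply MeasurableSet.univ, univ_inter, Real.volume_Icc]; simp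

theorem k8b_t3_sup_mono {Λ : Type} {d K K' w : ℝ} {c : Λ → k5_Co 2} {E E' : Set (Λ × ℝ)} {F : ℝ → Fin 2 → ℝ} (hw : 0 < w)
    (h : k8bSup d K w c E F) (hK : K ≤ K') (hE : E' ⊆ E) : k8bSup d K' w c E' F := by
  intro t
  obtain ⟨Z, h1, h2⟩ := h t
  exact ⟨Z, h1.trans (mul_le_mul_of_nonneg_right hK (Real.rpow_nonneg hw.le _)), fun l hl => h2 l (hE hl)⟩

theorem k8b_t3_mix_mono {Λ : Type} [MeasurableSpace Λ] {d K K' ζ : ℝ} {ν : Measure Λ} {c : Λ → k5_Co 2} {E : Set (Λ × ℝ)} (hζ : 0 < ζ)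
    (h : k8bMix d K ζ ν c E) (hK : K ≤ K') : k8bMix d K' ζ ν c E := by
  intro t r w a e h1 h2 h3 h4
  refine (h t r w a e h1 h2 h3 h4).trans ?_
  have hr : 0 ≤ r ^ 2 := by positivity
  have hw : 0 ≤ w ^ d := Real.rpow_nonneg (hζ.le.trans h3) _
  exact mul_le_mul_of_nonneg_right (mul_le_mul_of_nonneg_right hK hr) hw


theorem k8b_t3_num (Cm Cs : ℕ) {K : ℝ} (hK : 1 ≤ K) :
    48 * ((Cm : ℝ) * K ^ (Cm + 2) + 2 * K) ^ 2 * K ^ 2 ≤ ((48 * (Cm + 2) ^ 2 + Cs + 2 * Cm + 6 : ℕ) : ℝ) * K ^ (48 * (Cm + 2) ^ 2 + Cs + 2 * Cm + 6) ∧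
    (Cs : ℝ) * K ^ Cs ≤ ((48 * (Cm + 2) ^ 2 + Cs + 2 * Cm + 6 : ℕ) : ℝ) * K ^ (48 * (Cm + 2) ^ 2 + Cs + 2 * Cm + 6) ∧
    (Cm : ℝ) * K ^ (Cm + 2) + 2 * K ≤ ((48 * (Cm + 2) ^ 2 + Cs + 2 * Cm + 6 : ℕ) : ℝ) * K ^ (48 * (Cm + 2) ^ 2 + Cs + 2 * Cm + 6) ∧
    8 * K ^ 2 ≤ ((48 * (Cm + 2) ^ 2 + Cs + 2 * Cm + 6 : ℕ) : ℝ) * K ^ (48 * (Cm + 2) ^ 2 + Cs + 2 * Cm + 6) := by
  set C' : ℕ := 48 * (Cm + 2) ^ 2 + Cs + 2 * Cm + 6 with hC'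
  have hK0 : 0 < K := by linarith
  have hP : 0 < K ^ C' := pow_pos hK0 _
  have hCr : (C' : ℝ) = 48 * ((Cm : ℝ) + 2) ^ 2 + Cs + 2 * Cm + 6 := by rw [hC']; push_cast; ring
  have hCm0 : (0 : ℝ) ≤ Cm := Nat.cast_nonneg _
  have hCs0 : (0 : ℝ) ≤ Cs := Nat.cast_nonneg _
  have e1 : K ≤ K ^ (Cm + 2) := le_self_pow₀ hK (by omega)
  have hA : (Cm : ℝ) * K ^ (Cm + 2) + 2 * K ≤ ((Cm : ℝ) + 2) * K ^ (Cm + 2) := by nlinarith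
  have hA0 : 0 ≤ (Cm : ℝ) * K ^ (Cm + 2) + 2 * K := by positivity
  have p1 : K ^ (Cm + 2) ≤ K ^ C' := pow_le_pow_right₀ hK (by rw [hC']; nlinarith)
  have p2 : K ^ (2 * Cm + 6) ≤ K ^ C' := pow_le_pow_right₀ hK (by rw [hC']; nlinarith)
  have p3 : K ^ Cs ≤ K ^ C' := pow_le_pow_right₀ hK (by rw [hC']; nlinarith)
  have p4 : K ^ 2 ≤ K ^ C' := pow_le_pow_right₀ hK (by rw [hC']; nlinarith)
  refine ⟨?_, ?_, ?_, ?_⟩
  · have h1 : ((Cm : ℝ) * K ^ (Cm + 2) + 2 * K) ^ 2 ≤ (((Cm : ℝ) + 2) * K ^ (Cm + 2)) ^ 2 := pow_le_pow_left₀ hA0 hA 2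
    have h2 : (((Cm : ℝ) + 2) * K ^ (Cm + 2)) ^ 2 * K ^ 2 = ((Cm : ℝ) + 2) ^ 2 * K ^ (2 * Cm + 6) := by ring
    have h3 : 48 * ((Cm : ℝ) * K ^ (Cm + 2) + 2 * K) ^ 2 * K ^ 2 ≤ 48 * (((Cm : ℝ) + 2) ^ 2 * K ^ (2 * Cm + 6)) := by
      rw [← h2]
      have : 0 ≤ K ^ 2 := by positivity
      nlinarith
    have h4 : 48 * (((Cm : ℝ) + 2) ^ 2 * K ^ (2 * Cm + 6)) ≤ 48 * (((Cm : ℝ) + 2) ^ 2 * K ^ C') := by
      have : 0 ≤ ((Cm : ℝ) + 2) ^ 2 := by positivity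
      nlinarith
    have h5 : 48 * (((Cm : ℝ) + 2) ^ 2 * K ^ C') ≤ (C' : ℝ) * K ^ C' := by
      rw [hCr]; nlinarith
    linarith
  · calc (Cs : ℝ) * K ^ Cs ≤ (Cs : ℝ) * K ^ C' := mul_le_mul_of_nonneg_left p3 hCs0
      _ ≤ (C' : ℝ) * K ^ C' := by
        refine mul_le_mul_of_nonneg_right ?_ hP.le
        rw [hCr]; nlinarith [sq_nonneg ((Cm : ℝ) + 2)]
  · calc (Cm : ℝ) * K ^ (Cm + 2) + 2 * K ≤ ((Cm : ℝ) + 2) * K ^ (Cm + 2) := hA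
      _ ≤ ((Cm : ℝ) + 2) * K ^ C' := mul_le_mul_of_nonneg_left p1 (by linarith)
      _ ≤ (C' : ℝ) * K ^ C' := by
        refine mul_le_mul_of_nonneg_right ?_ hP.le
        rw [hCr]; nlinarith [sq_nonneg ((Cm : ℝ) + 2)]
  · calc 8 * K ^ 2 ≤ 8 * K ^ C' := by linarith
      _ ≤ (C' : ℝ) * K ^ C' := by
        refine mul_le_mul_of_nonneg_right ?_ hP.le
        rw [hCr]; nlinarith [sq_nonneg ((Cm : ℝ) + 2)]


/-- the normalised law of a set -/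
theorem k8b_t3_la_apply {H : K7bHor} {c : K7bPar} {K s D : ℝ} {E : Set (H.Lam × ℝ)} {F : K8Lab H} (hok : H.Ok c K) (hF : F.Ok c K s D E)
    (hE : MeasurableSet E) (x : (ℤ × ℤ × ℤ) × K8Pr) (A : Set (H.Lam × ℝ)) :
    k8bLa F c.χ D x E A = (H.ν (F.ch c.χ D x))⁻¹ * H.lam (A ∩ (E ∩ F.chI c.χ D x)) := by
  rw [k8bLa, Measure.smul_apply, smul_eq_mul, Measure.restrict_apply' (hE.inter (k8b_t3_chI_meas hok hF x))]

/-- the integrated mixed cap of the normalised law -/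
theorem k8b_t3_hcap {Cm : ℕ} {H : K7bHor} {c : K7bPar} {K X s D ζ η : ℝ} {E : Set (H.Lam × ℝ)} {F : K8Lab H} {x : (ℤ × ℤ × ℤ) × K8Pr}
    (hCm : ∀ (i : ℤ) (r w a' : ℝ) (e : Fin 2 → ℝ), ζ ≤ r → r ≤ 1 → ζ ≤ w → w ≤ 1 →
      H.lam (H.Sp ∩ F.chI c.χ D x ∩ {z | ⌊z.2 / η⌋ = i ∧ k8bIn r w a' e (k8bCo H D (c.a s) x z.1) z.2})
        ≤ ENNReal.ofReal ((Cm : ℝ) * K ^ Cm * η * r ^ 2 * w ^ c.d * c.a s ^ c.d) * H.gW c.χ D x.1)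
    (hR : K8bRel c X s D ζ) (hK : 1 ≤ K) (hok : H.Ok c K) (hF : F.Ok c K s D E) (hE : MeasurableSet E) (hES : E ⊆ H.Sp) (hη : 0 < η)
    (h0 : H.ν (F.ch c.χ D x) ≠ 0)
    (hgW : H.gW c.χ D x.1 * ENNReal.ofReal (c.a s ^ c.d) ≤ ENNReal.ofReal (K ^ 2) * H.ν (F.ch c.χ D x))
    (i : ℤ) (r w a' : ℝ) (e : Fin 2 → ℝ) (h1 : ζ ≤ r) (h2 : r ≤ 1) (h3 : ζ ≤ w) (h4 : w ≤ 1) :
    k8bLa F c.χ D x E {z | ⌊z.2 / η⌋ = i ∧ k8bIn r w a' e (k8bCC F c.χ D (c.a s) x z.1) z.2}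
      ≤ ENNReal.ofReal (((Cm : ℝ) * K ^ (Cm + 2) + 2 * K) * η * r ^ 2 * w ^ c.d) := by
  have hK0 : 0 < K := by linarith
  have hN : 0 < c.N := lt_of_lt_of_le one_pos hR.wf.N1
  have ha : 0 < c.a s := Real.rpow_pos_of_pos hN _
  have hw0 : 0 < w := hR.ζ0.trans_le h3
  have hwd : 0 < w ^ c.d := Real.rpow_pos_of_pos hw0 _
  have had : 0 < c.a s ^ c.d := Real.rpow_pos_of_pos ha _
  have htop : H.ν (F.ch c.χ D x) ≠ ⊤ := ne_top_of_le_ne_top ENNReal.one_ne_top ((measure_mono (subset_univ _)).trans hok.νle)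
  rw [k8b_t3_la_apply hok hF hE]
  have hsub : {z : H.Lam × ℝ | ⌊z.2 / η⌋ = i ∧ k8bIn r w a' e (k8bCC F c.χ D (c.a s) x z.1) z.2} ∩ (E ∩ F.chI c.χ D x)
      ⊆ H.Sp ∩ F.chI c.χ D x ∩ {z | ⌊z.2 / η⌋ = i ∧ k8bIn r w a' e (k8bCo H D (c.a s) x z.1) z.2} := by
    rintro z ⟨⟨hz1, hz2⟩, hzE, hzc⟩
    refine ⟨⟨hES hzE, hzc⟩, hz1, ?_⟩
    have : k8bCC F c.χ D (c.a s) x z.1 = k8bCo H D (c.a s) x z.1 := by
      rw [k8bCC, if_pos (show z.1 ∈ F.ch c.χ D x from hzc)]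
    rwa [this] at hz2
  set T : ℝ := (Cm : ℝ) * K ^ Cm * η * r ^ 2 * w ^ c.d with hT
  have hT0 : 0 ≤ T := by rw [hT]; positivity
  have hb := (measure_mono hsub).trans (hCm i r w a' e h1 h2 h3 h4)
  have e1 : ENNReal.ofReal ((Cm : ℝ) * K ^ Cm * η * r ^ 2 * w ^ c.d * c.a s ^ c.d) * H.gW c.χ D x.1
      = ENNReal.ofReal T * (H.gW c.χ D x.1 * ENNReal.ofReal (c.a s ^ c.d)) := by
    rw [← hT, ENNReal.ofReal_mul hT0]; ring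
  rw [e1] at hb
  calc (H.ν (F.ch c.χ D x))⁻¹ * H.lam _ ≤ (H.ν (F.ch c.χ D x))⁻¹ * (ENNReal.ofReal T * (ENNReal.ofReal (K ^ 2) * H.ν (F.ch c.χ D x))) :=
        mul_le_mul' le_rfl (hb.trans (mul_le_mul' le_rfl hgW))
    _ = ENNReal.ofReal T * ENNReal.ofReal (K ^ 2) * ((H.ν (F.ch c.χ D x))⁻¹ * H.ν (F.ch c.χ D x)) := by ring
    _ = ENNReal.ofReal (T * K ^ 2) := by
        rw [ENNReal.inv_mul_cancel h0 htop, mul_one, ← ENNReal.ofReal_mul hT0]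
    _ ≤ _ := by
        refine ENNReal.ofReal_le_ofReal ?_
        have e2 : T * K ^ 2 = (Cm : ℝ) * K ^ (Cm + 2) * (η * r ^ 2 * w ^ c.d) := by rw [hT]; ring
        have e3 : ((Cm : ℝ) * K ^ (Cm + 2) + 2 * K) * η * r ^ 2 * w ^ c.d = ((Cm : ℝ) * K ^ (Cm + 2) + 2 * K) * (η * r ^ 2 * w ^ c.d) := by ring
        rw [e2, e3]
        refine mul_le_mul_of_nonneg_right (by linarith) (by positivity)


/-- **the chart as a measure model** -/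
theorem k8b_t3_model : ∃ C' : ℕ, ∀ (H : K7bHor) (c : K7bPar) (K s D : ℝ) (E₀ E : Set (H.Lam × ℝ)) (F : K8Lab H)
    (x : (ℤ × ℤ × ℤ) × K8Pr) (ks : Finset ℕ) (kζ : ℕ) (dep : ℕ → ℝ),
    K8bRel c ((2 : ℝ) ^ kζ) s D ((1 / 2 : ℝ) ^ kζ) → 1 ≤ K → H.Ok c K → MeasurableSet E → K8Prep H c K E₀ E → F.Ok c K s D E →
    F.Cmp c K s D E → K8bSel F c s D E → (∃ z ∈ E, F.lb c.χ D z.1 = x) → (∀ k ∈ ks, k ≤ kζ) → K8bDep c s D ks dep →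
    (C' : ℝ) * K ^ C' ≤ (2 : ℝ) ^ kζ → H.ν (F.ch c.χ D x) ≠ 0 →
    8 * K ^ 2 ≤ (C' : ℝ) * K ^ C' ∧
    ∃ (Fr : ℝ → Fin 2 → ℝ) (Eρ : Set (H.Lam × ℝ)), (∀ t, ‖Fr t‖ ≤ K) ∧ MeasurableSet Eρ ∧ Eρ ⊆ E ∩ F.chI c.χ D x ∧
      K8bCh ((C' : ℝ) * K ^ C') (k8bNu F c.χ D x) (k8bCC F c.χ D (c.a s) x) Eρ Fr ∧
      k8bMix c.d ((C' : ℝ) * K ^ C') ((1 / 2 : ℝ) ^ kζ) (k8bNu F c.χ D x) (k8bCC F c.χ D (c.a s) x) Eρ ∧
      (∀ k ∈ ks, k8bSup c.d ((C' : ℝ) * K ^ C') ((1 / 2 : ℝ) ^ k) (k8bCC F c.χ D (c.a s) x) Eρ Fr) ∧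
      1 / ((C' : ℝ) * K ^ C') ≤ k5_mass (k8bNu F c.χ D x) Eρ ∧
      ∀ A : Set (H.Lam × ℝ), MeasurableSet A → A ⊆ Eρ →
        ENNReal.ofReal (1 / K / 2) * ((k8bNu F c.χ D x).prod volume) A ≤ k8bLa F c.χ D x E A := by
  obtain ⟨Cm, hCm⟩ := k8b_mixcap
  obtain ⟨Cs, hCs⟩ := k8b_support
  refine ⟨48 * (Cm + 2) ^ 2 + Cs + 2 * Cm + 6, ?_⟩
  intro H c K s D E₀ E F x ks kζ dep hR hK hok hE hP hF hC hS hx hks hdep hsm h0
  obtain ⟨n1, n2, n3, n4⟩ := k8b_t3_num Cm Cs hK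
  set K₂ : ℝ := ((48 * (Cm + 2) ^ 2 + Cs + 2 * Cm + 6 : ℕ) : ℝ) * K ^ (48 * (Cm + 2) ^ 2 + Cs + 2 * Cm + 6) with hK₂
  set K₁ : ℝ := (Cm : ℝ) * K ^ (Cm + 2) + 2 * K with hK₁
  set ζ : ℝ := (1 / 2 : ℝ) ^ kζ with hζ
  set X : ℝ := (2 : ℝ) ^ kζ with hX
  refine ⟨n4, ?_⟩
  have hK0 : 0 < K := by linarith
  have hc := hR.wf
  have hN : 0 < c.N := lt_of_lt_of_le one_pos hc.N1
  have ha : 0 < c.a s := Real.rpow_pos_of_pos hN _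
  have hζ0 : 0 < ζ := hR.ζ0
  have hX0 : 0 < X := by rw [hX]; positivity
  have hXζ : X * ζ = 1 := by rw [hX, hζ, ← mul_pow]; norm_num
  have hES : E ⊆ H.Sp := hP.sub.trans hP.sub0
  have hKsq : K ≤ K ^ 2 := by nlinarith
  have h8K : 8 * K ≤ X := by linarith
  have hK₁1 : 1 ≤ K₁ := by
    have : 0 ≤ (Cm : ℝ) * K ^ (Cm + 2) := by positivity
    rw [hK₁]; linarith
  have hK₁0 : 0 < K₁ := by linarith
  have hKK₁ : 2 * K ≤ K₁ := by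
    have : 0 ≤ (Cm : ℝ) * K ^ (Cm + 2) := by positivity
    rw [hK₁]; linarith
  have hK₁X : K₁ ≤ X := n3.trans hsm
  have ha1 : c.a s ≤ 1 := by
    have := hR.aX
    have hX1 := hR.X1
    nlinarith
  -- the chart
  obtain ⟨z₀, hz₀, hxz⟩ := hx
  have hasg : F.asg c.χ D z₀.1 = F.ch c.χ D x := by rw [← hxz]; rfl
  have hinc : F.inc c.χ D z₀.1 = F.chI c.χ D x := by
    ext z; simp only [K8Lab.inc, K8Lab.chI, Set.mem_ofPred_eq, hasg]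
  have hgrp : H.grp c.χ D z₀.1 = x.1 := by rw [← hxz]; rfl
  have hprior : H.ν (F.ch c.χ D x) ≤ ENNReal.ofReal K * H.lam (E ∩ F.chI c.χ D x) := by
    have := hF.prior z₀ hz₀
    rwa [hasg, hinc] at this
  have hgW : H.gW c.χ D x.1 * ENNReal.ofReal (c.a s ^ c.d) ≤ ENNReal.ofReal (K ^ 2) * H.ν (F.ch c.χ D x) := by
    have h1 := hF.floor z₀ hz₀
    rw [hgrp, hinc] at h1
    refine h1.trans ?_
    calc ENNReal.ofReal K * H.lam (E ∩ F.chI c.χ D x) ≤ ENNReal.ofReal K * (ENNReal.ofReal K * H.ν (F.ch c.χ D x)) :=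
          mul_le_mul' le_rfl ((measure_mono inter_subset_right).trans (k8b_t3_lam_chI hok hF x))
      _ = ENNReal.ofReal (K ^ 2) * H.ν (F.ch c.χ D x) := by
          rw [← mul_assoc, ← ENNReal.ofReal_mul hK0.le, sq]
  obtain ⟨hprob, hdom, hmass⟩ := k8b_chart_law H c F hK hok hF hE x h0 hprior
  obtain ⟨hcm, hcf, hcb⟩ := k8b_cc_facts H c hc F hK hR.D0 hok hF x
  obtain ⟨Fr, hFrm, hFrb, hFr⟩ := k8b_row_exists H c hc F hK hR.sG hR.D0 hok hES hC hS x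
  -- the time mesh
  set η : ℝ := ζ / K₁ with hη
  have hη0 : 0 < η := div_pos hζ0 hK₁0
  have hη1 : η ≤ 1 := by
    rw [hη, div_le_one hK₁0]; exact hR.ζ1.trans hK₁1
  have hKη : K₁ * η ≤ ζ := by rw [hη, mul_div_cancel₀ _ hK₁0.ne']
  have hξη : c.ξ ≤ η := by
    have h1 := hR.ξm
    have h2 : D * c.a s * ζ ≤ ζ := by
      have : D * c.a s ≤ 1 := by
        have := hR.D1; have := hR.D0; nlinarith
      nlinarith
    have h3 : K₁ * c.ξ ≤ ζ := by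
      have := hc.ξ0
      nlinarith
    rw [hη, le_div_iff₀ hK₁0]; linarith
  have hcap := k8b_t3_hcap (Cm := Cm) (η := η)
    (fun i r w a' e h1 h2 h3 h4 => hCm H c K X s D ζ η E F x i r w a' e hR hK h8K hok hF hξη h1 h2 h3 h4)
    hR hK hok hF hE hES hη0 h0 hgW
  have hdom' : k8bLa F c.χ D x E ≤ ENNReal.ofReal K₁ • (k8bNu F c.χ D x).prod (volume.restrict (Ico 0 1)) := by
    refine hdom.trans ?_
    intro A
    simp only [Measure.smul_apply, smul_eq_mul]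
    exact mul_le_mul' (ENNReal.ofReal_le_ofReal (by linarith)) le_rfl
  obtain ⟨Eρ, hEρm, hEρI, hEρmass, hEρd, hEρmix⟩ := k8b_inst_cap (k8bNu F c.χ D x) (k8bLa F c.χ D x E) (k8bCC F c.χ D (c.a s) x)
    c.d K₁ ζ η (1 / K) hc.d0 hcm hcf (fun l => (hcb l).trans hKK₁) hK₁1 hζ0 hη0 hη1 hKη (by positivity) hdom' hmass hcap
  have hchIm := k8b_t3_chI_meas hok hF x
  refine ⟨Fr, Eρ ∩ (E ∩ F.chI c.χ D x), hFrb, hEρm.inter (hE.inter hchIm), inter_subset_right, ?_, ?_, ?_, ?_, ?_⟩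
  · exact ⟨hprob, hcm, hEρm.inter (hE.inter hchIm), hFrm, fun l t h => hEρI l t h.1, fun l => (hcb l).trans (hKK₁.trans n3), hcf,
      fun t => (hFrb t).trans (by linarith), hK₁1.trans n3⟩
  · have h1 : k8bMix c.d (48 * K₁ ^ 2 / (1 / K) ^ 2) ζ (k8bNu F c.χ D x) (k8bCC F c.χ D (c.a s) x) (Eρ ∩ (E ∩ F.chI c.χ D x)) :=
      k8b_mix_sub hEρmix inter_subset_left
    refine k8b_t3_mix_mono hζ0 h1 ?_
    have : 48 * K₁ ^ 2 / (1 / K) ^ 2 = 48 * K₁ ^ 2 * K ^ 2 := by field_simp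
    rw [this]; exact n1
  · intro k hk
    obtain ⟨d1, d2, d3, d4, d5⟩ := hdep k hk
    have hwk : (0 : ℝ) < (1 / 2 : ℝ) ^ k := by positivity
    have hζk : ζ ≤ (1 / 2 : ℝ) ^ k := by
      rw [hζ]; exact pow_le_pow_of_le_one (by norm_num) (by norm_num) (hks k hk)
    have h6 : c.a s * ζ ≤ 2 * c.a (dep k) := by
      have h7 : c.a s * ((1 / 2 : ℝ) ^ k) ≤ c.a s * (2 * (c.a (dep k) / c.a s)) := mul_le_mul_of_nonneg_left d4 ha.le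
      have h8 : c.a s * (2 * (c.a (dep k) / c.a s)) = 2 * c.a (dep k) := by field_simp
      have h9 : c.a s * ζ ≤ c.a s * ((1 / 2 : ℝ) ^ k) := mul_le_mul_of_nonneg_left hζk ha.le
      linarith
    have := hCs H c K X s (dep k) D ζ ((1 / 2 : ℝ) ^ k) E₀ E F x Fr hR hK h8K hok hP hS d1 d2 d5 h6 d3 d4 hFr
    exact k8b_t3_sup_mono hwk this n2 inter_subset_right
  · set B : Set (H.Lam × ℝ) := Eρ ∩ (E ∩ F.chI c.χ D x) with hB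
    have e1 : k8bLa F c.χ D x E Eρ = k8bLa F c.χ D x E B := by
      rw [k8b_t3_la_apply hok hF hE, k8b_t3_la_apply hok hF hE, hB, inter_assoc, inter_self]
    have e2 : (k8bNu F c.χ D x).prod (volume.restrict (Ico (0 : ℝ) 1)) ≤ (k8bNu F c.χ D x).prod volume := by
      have : (k8bNu F c.χ D x).prod (volume.restrict (Ico (0 : ℝ) 1))
          = ((k8bNu F c.χ D x).prod volume).restrict (univ ×ˢ Ico (0 : ℝ) 1) := by
        rw [← Measure.prod_restrict, Measure.restrict_univ]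
      rw [this]; exact Measure.restrict_le_self
    have e3 : ((k8bNu F c.χ D x).prod volume) B ≤ 1 := by
      have hsub : B ⊆ (univ : Set H.Lam) ×ˢ Ico (0 : ℝ) 1 := fun z hz => ⟨mem_univ _, hEρI z.1 z.2 hz.1⟩
      refine (measure_mono hsub).trans ?_
      rw [Measure.prod_prod]; simp
    have e4 : ENNReal.ofReal (1 / K / 4) ≤ ENNReal.ofReal K * ((k8bNu F c.χ D x).prod volume) B := by
      rw [e1] at hEρmass
      refine hEρmass.trans ((hdom B).trans ?_)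
      rw [Measure.smul_apply, smul_eq_mul]
      exact mul_le_mul' le_rfl (e2 B)
    have htop : ((k8bNu F c.χ D x).prod volume) B ≠ ⊤ := ne_top_of_le_ne_top ENNReal.one_ne_top e3
    have e5 : 1 / K / 4 ≤ K * k5_mass (k8bNu F c.χ D x) B := by
      have := (ENNReal.ofReal_le_iff_le_toReal (ENNReal.mul_ne_top ENNReal.ofReal_ne_top htop)).1 e4
      rwa [ENNReal.toReal_mul, ENNReal.toReal_ofReal hK0.le] at this
    have hK₂0 : 0 < K₂ := by nlinarith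
    have e6 : 1 / K₂ ≤ 1 / (4 * K ^ 2) := one_div_le_one_div_of_le (by positivity) (by nlinarith)
    have e7 : 1 / (4 * K ^ 2) ≤ k5_mass (k8bNu F c.χ D x) B := by
      rw [div_le_iff₀ (by positivity)]
      have : 1 / K / 4 * (4 * K) = 1 := by field_simp
      nlinarith
    exact e6.trans e7
  · intro A hA hAs
    exact hEρd A hA (hAs.trans inter_subset_left)


/-- smallness of a polynomial slack -/
theorem k8b_t3_small (C' : ℕ) {η₃ : ℝ} (hη₃ : 0 < η₃) {K : ℝ} {kζ : ℕ} (hK : 1 ≤ K) (hk : 2 * (C' : ℝ) / η₃ ≤ kζ)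
    (hKs : K ≤ ((2 : ℝ) ^ kζ) ^ (η₃ / (2 * ((C' : ℝ) + 1)))) : (C' : ℝ) * K ^ C' ≤ ((2 : ℝ) ^ kζ) ^ η₃ := by
  set Y : ℝ := (2 : ℝ) ^ kζ with hY
  have hY1 : 1 ≤ Y := one_le_pow₀ (by norm_num)
  have hY0 : 0 < Y := by linarith
  have hK0 : 0 < K := by linarith
  have hC0 : (0 : ℝ) ≤ C' := Nat.cast_nonneg _
  have h1 : K ^ C' ≤ Y ^ (η₃ / 2) := by
    calc K ^ C' ≤ (Y ^ (η₃ / (2 * ((C' : ℝ) + 1)))) ^ C' := pow_le_pow_left₀ hK0.le hKs _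
      _ = Y ^ (η₃ / (2 * ((C' : ℝ) + 1)) * C') := by rw [← Real.rpow_natCast, ← Real.rpow_mul hY0.le]
      _ ≤ Y ^ (η₃ / 2) := by
        refine Real.rpow_le_rpow_of_exponent_le hY1 ?_
        rw [div_mul_eq_mul_div, div_le_div_iff₀ (by positivity) (by norm_num)]
        nlinarith
  have h2 : (C' : ℝ) ≤ Y ^ (η₃ / 2) := by
    have e1 : Y ^ (η₃ / 2) = (2 : ℝ) ^ ((kζ : ℝ) * (η₃ / 2)) := by
      rw [hY, ← Real.rpow_natCast, ← Real.rpow_mul (by norm_num)]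
    have e2 : (C' : ℝ) ≤ (kζ : ℝ) * (η₃ / 2) := by
      rw [div_le_iff₀ hη₃] at hk
      linarith
    have e3 : (2 : ℝ) ^ (C' : ℝ) ≤ (2 : ℝ) ^ ((kζ : ℝ) * (η₃ / 2)) := Real.rpow_le_rpow_of_exponent_le (by norm_num) e2
    have e4 : (C' : ℝ) ≤ (2 : ℝ) ^ (C' : ℝ) := by
      rw [Real.rpow_natCast]
      exact_mod_cast (Nat.lt_two_pow_self (n := C')).le
    rw [e1]; linarith
  have h3 : Y ^ η₃ = Y ^ (η₃ / 2) * Y ^ (η₃ / 2) := by rw [← Real.rpow_add hY0]; ring_nf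
  rw [h3]
  exact mul_le_mul h2 h1 (by positivity) (by positivity)

/-- **L-252-S8b-T3** (glue, ~600 l.).   THE CHART CORE.   `ζ = (1/2)^kζ`, `w = (1/2)^kw`, `K' = ζ^(-ε)`, room `X = ζ⁻¹` in the mesh relations.
PROOF.  `C_m` from `k8b_mixcap`, `C_s` from `k8b_support`.   `γ` from `k8b_chart_step … (ε/2)`.   Given `n`: `(η₂, k₂)` from it; the slack handed to it is `K₂ := C' K^C'` (below); `η := η₂/(2C')`, `k₀ ≥ k₂` with `C' ≤ 2^(k₀ η₂/2)`, `C' K^C' ≤ ζ⁻¹`, `4 K₂ ≤ 2^(k₀ ε/2)`.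
DATA.  `a = c.a s`, `ν_H = k8bNu F c.χ D x`, `λ_H = k8bLa F c.χ D x E`, `cc = k8bCC F c.χ D a x`.   Let `z₀ ∈ E` with label `x`.   `F.asg c.χ D z₀.1 = F.ch c.χ D x`, `F.inc … = F.chI …` (`rfl` after rewriting `hx`).
0. `hF.prior z₀`: `ν(ch) ≤ K lam (E ∩ chI)`;  `hF.floor z₀` + `hok.dom`: `gW a^d ≤ K lam (E ∩ chI) ≤ K² ν(ch)`;  `ν(ch) ≠ 0`: otherwise `lam (E ∩ chI) = 0` by `dom`, and then … use: if `ν(ch) = 0` take `Ls = ∅`, `E' = ∅`, `Z = ∅` (the conclusion `ν(ch) ≤ K' lam ∅` holds).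
1. `k8b_chart_law`, `k8b_cc_facts`, `k8b_row_exists` (`Fr`).
2. `hcap` of `k8b_inst_cap` with `η_t := ζ / K₁`, `K₁ := C_m K^(C_m + 2) + 2K`: on `chI`, `cc = k8bCo`; `λ_H {…} = ν(ch)⁻¹ lam (E ∩ chI ∩ {…}) ≤ ν(ch)⁻¹ C_m K^C_m η_t r² w^d a^d gW ≤ C_m K^(C_m+2) η_t r² w^d`  (`E ⊆ Sp`).   `c.ξ ≤ η_t` from `K8bRel.ξm` (`X = ζ⁻¹`, `K₁ ≤ ζ⁻¹`).
3. `k8b_inst_cap` (`δ := 1/K`): `Eρ`.   `Eρ' := Eρ ∩ E ∩ chI`: `λ_H (Eρ \ Eρ') = 0`, so `(ν_H ⊗ dt)(Eρ \ Eρ') = 0` by the density comparison; `λ_H Eρ' ≥ δ/4`, `mass Eρ' ≥ δ/(4K)` (domination).   `k8bMix d (48 K₁² K²) ζ ν_H cc Eρ'` (`k8b_mix_sub`).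
4. `K8bCh K₂ ν_H cc Eρ' Fr`;  `k8bSup d K₂ ((1/2)^k) cc Eρ' Fr` for `k ∈ ks` from `k8b_support` with `s₂ = dep k`, `ω = (1/2)^k` (`a ζ ≤ a (1/2)^k ≤ 2 a_{dep k}`) and restriction to `Eρ' ⊆ E ∩ chI`.
5. `k8b_chart_step`: `ts, A, Ls₀, Z`.   `f := Fr ts`, `Ls := Ls₀ ∩ ch x`, `E' := {z ∈ Eρ' | z.1 ∈ Ls₀}`; `λ_H E' ≥ (δ/2) ζ^(ε/2)`, i.e. `ν(ch) ≤ 2K ζ^(-ε/2) lam E'`. -/
theorem k8b_chart_core (d θ : ℝ) (hd0 : 0 ≤ d) (hd : d < 1) (hθ : 0 < θ) (hθ1 : θ ≤ 1) (hFJ : k5_FJ d θ) (ε : ℝ) (hε : 0 < ε) :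
    ∃ γ : ℝ, 0 < γ ∧ ∀ n : ℕ, ∃ (η : ℝ) (k₀ : ℕ), 0 < η ∧
      ∀ (H : K7bHor) (c : K7bPar) (K s D : ℝ) (E₀ E : Set (H.Lam × ℝ)) (F : K8Lab H) (x : (ℤ × ℤ × ℤ) × K8Pr)
        (ks : Finset ℕ) (kζ g kw : ℕ) (dep : ℕ → ℝ), c.d = d → K8bRel c ((2 : ℝ) ^ kζ) s D ((1 / 2 : ℝ) ^ kζ) → 1 ≤ K → H.Ok c K →
        MeasurableSet E → K8Prep H c K E₀ E → F.Ok c K s D E → F.Cmp c K s D E → K8bSel F c s D E → (∃ z ∈ E, F.lb c.χ D z.1 = x) →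
        k8bGrid ks kζ g → ks.card ≤ n → (g : ℝ) ≤ γ * kζ → k₀ ≤ kζ → K ≤ ((2 : ℝ) ^ kζ) ^ η → 100 * (kw : ℝ) ≤ θ * (1 - d) * kζ →
        K8bDep c s D ks dep →
        ∃ (ts : ℝ) (f A : Fin 2 → ℝ) (Ls : Set H.Lam) (Z : Finset (ℤ × ℤ)) (E' : Set (H.Lam × ℝ)), ts ∈ Icc (0 : ℝ) 1 ∧
          ‖f‖ ≤ ((2 : ℝ) ^ kζ) ^ ε ∧ ‖A‖ ≤ ((2 : ℝ) ^ kζ) ^ ε ∧ MeasurableSet Ls ∧ Ls ⊆ F.ch c.χ D x ∧
          (Z.card : ℝ) ≤ ((2 : ℝ) ^ kζ) ^ ε * ((1 / 2 : ℝ) ^ kw) ^ (-d) ∧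
          (∀ l ∈ Ls, (k5_bin ((1 / 2 : ℝ) ^ kw) (k5_S f (k8bCo H D (c.a s) x l) ts),
            k5_bin ((1 / 2 : ℝ) ^ kw) ((k8bCo H D (c.a s) x l).1 1 - A ⬝ᵥ (k8bCo H D (c.a s) x l).2 0)) ∈ Z) ∧
          MeasurableSet E' ∧ E' ⊆ E ∩ {z | z.1 ∈ Ls} ∧ H.ν (F.ch c.χ D x) ≤ ENNReal.ofReal (((2 : ℝ) ^ kζ) ^ ε) * H.lam E' := by
  obtain ⟨γ, hγ, hstep⟩ := k8b_chart_step d θ hd0 hd hθ hθ1 hFJ (ε / 2) (by positivity)
  obtain ⟨C', hmodel⟩ := k8b_t3_model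
  refine ⟨γ, hγ, fun n => ?_⟩
  obtain ⟨η₂, k₂, hη₂, hst⟩ := hstep n
  set η₃ : ℝ := min η₂ (min 1 (ε / 2)) with hη₃
  have hη₃0 : 0 < η₃ := lt_min hη₂ (lt_min one_pos (by positivity))
  refine ⟨η₃ / (2 * ((C' : ℝ) + 1)), max k₂ ⌈2 * (C' : ℝ) / η₃⌉₊, by positivity, ?_⟩
  intro H c K s D E₀ E F x ks kζ g kw dep hcd hR hK hok hE hP hF hC hS hx hgrid hcard hg hk₀ hKs hkw hdep
  set Y : ℝ := (2 : ℝ) ^ kζ with hY
  have hY1 : 1 ≤ Y := one_le_pow₀ (by norm_num)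
  have hY0 : 0 < Y := by linarith
  have hYε : Y ^ (ε / 2) ≤ Y ^ ε := Real.rpow_le_rpow_of_exponent_le hY1 (by linarith)
  have hYε1 : 1 ≤ Y ^ ε := Real.one_le_rpow hY1 hε.le
  by_cases h0 : H.ν (F.ch c.χ D x) = 0
  · refine ⟨0, 0, 0, ∅, ∅, ∅, ⟨le_rfl, zero_le_one⟩, by simpa using by linarith, by simpa using by linarith, MeasurableSet.empty,
      empty_subset _, ?_, fun l hl => absurd hl (notMem_empty l), MeasurableSet.empty, empty_subset _, by rw [h0]; exact zero_le⟩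
    have : 0 ≤ Y ^ ε * ((1 / 2 : ℝ) ^ kw) ^ (-d) := by positivity
    simpa using this
  have hk₂ : k₂ ≤ kζ := (le_max_left _ _).trans hk₀
  have hk₃ : 2 * (C' : ℝ) / η₃ ≤ kζ := (Nat.le_ceil _).trans (by exact_mod_cast (le_max_right _ _).trans hk₀)
  have hsmall := k8b_t3_small C' hη₃0 hK hk₃ hKs
  set K₂ : ℝ := (C' : ℝ) * K ^ C' with hK₂
  have hs1 : K₂ ≤ Y := by
    refine hsmall.trans ?_
    calc Y ^ η₃ ≤ Y ^ (1 : ℝ) := Real.rpow_le_rpow_of_exponent_le hY1 ((min_le_right _ _).trans (min_le_left _ _))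
      _ = Y := Real.rpow_one _
  have hs2 : K₂ ≤ Y ^ η₂ := hsmall.trans (Real.rpow_le_rpow_of_exponent_le hY1 (min_le_left _ _))
  have hs3 : K₂ ≤ Y ^ (ε / 2) := hsmall.trans (Real.rpow_le_rpow_of_exponent_le hY1 ((min_le_right _ _).trans (min_le_right _ _)))
  obtain ⟨h8, Fr, Eρ, hFrb, hEρm, hEρs, hch, hmix, hsup, hmass, hden⟩ :=
    hmodel H c K s D E₀ E F x ks kζ dep hR hK hok hE hP hF hC hS hx hgrid.le hdep hs1 h0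
  rw [hcd] at hmix hsup
  obtain ⟨ts, A, Ls₀, Z, hts0, hts1, hA, hLs₀, hZ, hmem, hm⟩ := hst H.Lam (k8bNu F c.χ D x) (k8bCC F c.χ D (c.a s) x) Eρ Fr K₂ ks kζ g kw
    hgrid hcard hg hk₂ hs2 hkw hch hmix hsup hmass
  have hK0 : 0 < K := by linarith
  have h2K : 2 * K ≤ K₂ := by nlinarith
  have hchm := k8b_t3_ch_meas hok hF x
  refine ⟨ts, Fr ts, A, Ls₀ ∩ F.ch c.χ D x, Z, {z | z ∈ Eρ ∧ z.1 ∈ Ls₀}, ⟨hts0, hts1.le⟩, ?_, hA.trans hYε, hLs₀.inter hchm,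
    inter_subset_right, ?_, ?_, hEρm.inter (measurable_fst hLs₀), ?_, ?_⟩
  · exact (hFrb ts).trans (by linarith)
  · exact hZ.trans (mul_le_mul_of_nonneg_right hYε (by positivity))
  · intro l hl
    have := hmem l hl.1
    rwa [k8bCC, if_pos hl.2] at this
  · intro z hz
    exact ⟨(hEρs hz.1).1, hz.2, (hEρs hz.1).2⟩
  · set E' : Set (H.Lam × ℝ) := {z | z ∈ Eρ ∧ z.1 ∈ Ls₀} with hE'
    have hE'm : MeasurableSet E' := hEρm.inter (measurable_fst hLs₀)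
    have h1 := hden E' hE'm (fun z hz => hz.1)
    rw [k8b_t3_la_apply hok hF hE] at h1
    have h2 : ENNReal.ofReal (((1 / 2 : ℝ) ^ kζ) ^ (ε / 2)) ≤ ((k8bNu F c.χ D x).prod volume) E' :=
      ENNReal.ofReal_le_of_le_toReal hm
    set q : ℝ := 1 / K / 2 * ((1 / 2 : ℝ) ^ kζ) ^ (ε / 2) with hq
    have hq0 : 0 < q := by rw [hq]; positivity
    have h3 : ENNReal.ofReal q ≤ (H.ν (F.ch c.χ D x))⁻¹ * H.lam E' := by
      rw [hq, ENNReal.ofReal_mul (by positivity)]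
      refine (mul_le_mul' le_rfl h2).trans (h1.trans (mul_le_mul' le_rfl (measure_mono inter_subset_left)))
    have htop : H.ν (F.ch c.χ D x) ≠ ⊤ := ne_top_of_le_ne_top ENNReal.one_ne_top ((measure_mono (subset_univ _)).trans hok.νle)
    have h4 : ENNReal.ofReal (1 / q) * ENNReal.ofReal q = 1 := by
      rw [← ENNReal.ofReal_mul (by positivity), one_div, inv_mul_cancel₀ hq0.ne', ENNReal.ofReal_one]
    have h5 : H.ν (F.ch c.χ D x) ≤ ENNReal.ofReal (1 / q) * H.lam E' := by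
      calc H.ν (F.ch c.χ D x) = H.ν (F.ch c.χ D x) * (ENNReal.ofReal (1 / q) * ENNReal.ofReal q) := by rw [h4, mul_one]
        _ ≤ H.ν (F.ch c.χ D x) * (ENNReal.ofReal (1 / q) * ((H.ν (F.ch c.χ D x))⁻¹ * H.lam E')) :=
            mul_le_mul' le_rfl (mul_le_mul' le_rfl h3)
        _ = (H.ν (F.ch c.χ D x) * (H.ν (F.ch c.χ D x))⁻¹) * (ENNReal.ofReal (1 / q) * H.lam E') := by ring
        _ = ENNReal.ofReal (1 / q) * H.lam E' := by rw [ENNReal.mul_inv_cancel h0 htop, one_mul]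
    refine h5.trans (mul_le_mul' (ENNReal.ofReal_le_ofReal ?_) le_rfl)
    have e1 : ((1 / 2 : ℝ) ^ kζ) ^ (ε / 2) = (Y ^ (ε / 2))⁻¹ := by
      rw [hY, one_div, inv_pow, Real.inv_rpow (by positivity)]
    have e2 : 1 / q = 2 * K * Y ^ (ε / 2) := by
      rw [hq, e1]
      have : 0 < Y ^ (ε / 2) := Real.rpow_pos_of_pos hY0 _
      field_simp
    have e3 : Y ^ ε = Y ^ (ε / 2) * Y ^ (ε / 2) := by rw [← Real.rpow_add hY0]; ring_nf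
    rw [e2, e3]
    exact mul_le_mul_of_nonneg_right (h2K.trans hs3) (by positivity)

/-! ## 3. The assembly at one scale -/

/-- the two bins read off a trajectory in the chart `x` are measurable functions of the trajectory -/
theorem k8b_asm_bins_meas {H : K7bHor} {c : K7bPar} {K : ℝ} (hok : H.Ok c K) (D a w ts : ℝ) (x : (ℤ × ℤ × ℤ) × K8Pr) (f A : Fin 2 → ℝ) :
    Measurable fun l : H.Lam => ((k5_bin w (k5_S f (k8bCo H D a x l) ts), k5_bin w ((k8bCo H D a x l).1 1 - A ⬝ᵥ (k8bCo H D a x l).2 0)) : ℤ × ℤ) := by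
  have h1 := hok.mp
  have h2 := hok.mq0
  have h3 := hok.mx0
  have h4 := hok.mx1
  refine Measurable.prodMk ?_ ?_
  · unfold k5_bin
    refine Measurable.floor (Measurable.div_const ?_ _)
    simp only [k5_S, k5_x, k5_y, k8bCo, dotProduct, Fin.sum_univ_two]
    simp
    fun_prop
  · unfold k5_bin
    refine Measurable.floor (Measurable.div_const ?_ _)
    simp only [k8bCo, dotProduct, Fin.sum_univ_two]
    simp
    fun_prop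

/-- the output of `k8b_chart_core` on all the occurring labels `X₂`, and the new labelling `F'` -/
structure K8bAsm (H : K7bHor) (c : K7bPar) (K' s D w : ℝ) (E₂ : Set (H.Lam × ℝ)) (F F' : K8Lab H) (X₂ : Finset ((ℤ × ℤ × ℤ) × K8Pr))
    (ts : (ℤ × ℤ × ℤ) × K8Pr → ℝ) (f A : (ℤ × ℤ × ℤ) × K8Pr → Fin 2 → ℝ) (Ls : (ℤ × ℤ × ℤ) × K8Pr → Set H.Lam)
    (Z : (ℤ × ℤ × ℤ) × K8Pr → Finset (ℤ × ℤ)) (E' : (ℤ × ℤ × ℤ) × K8Pr → Set (H.Lam × ℝ)) : Prop where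
  occ : ∀ z ∈ E₂, F.lb c.χ D z.1 ∈ X₂
  occ' : ∀ x ∈ X₂, ∃ z ∈ E₂, F.lb c.χ D z.1 = x
  ts01 : ∀ x ∈ X₂, ts x ∈ Icc (0 : ℝ) 1
  fb : ∀ x ∈ X₂, ‖f x‖ ≤ K'
  Ab : ∀ x ∈ X₂, ‖A x‖ ≤ K'
  mLs : ∀ x ∈ X₂, MeasurableSet (Ls x)
  sLs : ∀ x ∈ X₂, Ls x ⊆ F.ch c.χ D x
  cZ : ∀ x ∈ X₂, ((Z x).card : ℝ) ≤ K' * w ^ (-c.d)
  mem : ∀ x ∈ X₂, ∀ l ∈ Ls x, (k5_bin w (k5_S (f x) (k8bCo H D (c.a s) x l) (ts x)),
    k5_bin w ((k8bCo H D (c.a s) x l).1 1 - A x ⬝ᵥ (k8bCo H D (c.a s) x l).2 0)) ∈ Z x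
  mE : ∀ x ∈ X₂, MeasurableSet (E' x)
  sE : ∀ x ∈ X₂, E' x ⊆ E₂ ∩ {z | z.1 ∈ Ls x}
  mass : ∀ x ∈ X₂, H.ν (F.ch c.χ D x) ≤ ENNReal.ofReal K' * H.lam (E' x)
  dom : F'.dom = ⋃ x ∈ X₂, Ls x
  pr : ∀ x ∈ X₂, ∀ l ∈ Ls x, F'.pr l = k8bNew D (c.a s) w (ts x) x (f x) (A x) (k5_bin w (k5_S (f x) (k8bCo H D (c.a s) x l) (ts x)))
    (k5_bin w ((k8bCo H D (c.a s) x l).1 1 - A x ⬝ᵥ (k8bCo H D (c.a s) x l).2 0))
  junk : ∀ l, l ∉ F'.dom → F'.pr l = ⟨0, 0, 0, 0, 0, 0⟩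

section asm

variable {H : K7bHor} {c : K7bPar} {K' s D w : ℝ} {E₂ : Set (H.Lam × ℝ)} {F F' : K8Lab H} {X₂ : Finset ((ℤ × ℤ × ℤ) × K8Pr)}
    {ts : (ℤ × ℤ × ℤ) × K8Pr → ℝ} {f A : (ℤ × ℤ × ℤ) × K8Pr → Fin 2 → ℝ} {Ls : (ℤ × ℤ × ℤ) × K8Pr → Set H.Lam}
    {Z : (ℤ × ℤ × ℤ) × K8Pr → Finset (ℤ × ℤ)} {E' : (ℤ × ℤ × ℤ) × K8Pr → Set (H.Lam × ℝ)}

theorem k8b_asm_mem_dom (h : K8bAsm H c K' s D w E₂ F F' X₂ ts f A Ls Z E') {l : H.Lam} : l ∈ F'.dom ↔ ∃ x ∈ X₂, l ∈ Ls x := by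
  rw [h.dom]
  simp

theorem k8b_asm_mdom (h : K8bAsm H c K' s D w E₂ F F' X₂ ts f A Ls Z E') : MeasurableSet F'.dom := by
  rw [h.dom]
  exact Finset.measurableSet_biUnion _ h.mLs

theorem k8b_asm_fin (h : K8bAsm H c K' s D w E₂ F F' X₂ ts f A Ls Z E') : (F'.pr '' F'.dom).Finite := by
  classical
  refine Set.Finite.subset (Finset.finite_toSet (X₂.biUnion fun x => (Z x).image fun zz => k8bNew D (c.a s) w (ts x) x (f x) (A x) zz.1 zz.2)) ?_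
  rintro _ ⟨l, hl, rfl⟩
  obtain ⟨x, hx, hlx⟩ := (k8b_asm_mem_dom h).1 hl
  rw [Finset.mem_coe, Finset.mem_biUnion]
  exact ⟨x, hx, Finset.mem_image.2 ⟨_, h.mem x hx l hlx, (h.pr x hx l hlx).symm⟩⟩

theorem k8b_asm_mpr {K : ℝ} (hok : H.Ok c K) (h : K8bAsm H c K' s D w E₂ F F' X₂ ts f A Ls Z E') (h0 : K8Pr) : MeasurableSet (F'.pr ⁻¹' {h0}) := by
  classical
  have hd := k8b_asm_mdom h
  have e : F'.pr ⁻¹' {h0} = (⋃ x ∈ X₂, Ls x ∩ (fun l : H.Lam => ((k5_bin w (k5_S (f x) (k8bCo H D (c.a s) x l) (ts x)),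
      k5_bin w ((k8bCo H D (c.a s) x l).1 1 - A x ⬝ᵥ (k8bCo H D (c.a s) x l).2 0)) : ℤ × ℤ)) ⁻¹'
        {zz | k8bNew D (c.a s) w (ts x) x (f x) (A x) zz.1 zz.2 = h0}) ∪ (F'.domᶜ ∩ {_l | (⟨0, 0, 0, 0, 0, 0⟩ : K8Pr) = h0}) := by
    ext l
    simp only [mem_preimage, mem_singleton_iff, mem_union, mem_iUnion, mem_inter_iff, mem_compl_iff, mem_ofPred_eq, exists_prop]
    constructor
    · intro hl
      by_cases hld : l ∈ F'.dom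
      · obtain ⟨x, hx, hlx⟩ := (k8b_asm_mem_dom h).1 hld
        exact Or.inl ⟨x, hx, hlx, by rw [← h.pr x hx l hlx]; exact hl⟩
      · exact Or.inr ⟨hld, by rw [← h.junk l hld]; exact hl⟩
    · rintro (⟨x, hx, hlx, e⟩ | ⟨hld, e⟩)
      · rw [h.pr x hx l hlx]; exact e
      · rw [h.junk l hld]; exact e
  rw [e]
  refine MeasurableSet.union (Finset.measurableSet_biUnion _ fun x hx => (h.mLs x hx).inter ?_) (hd.compl.inter ?_)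
  · exact k8b_asm_bins_meas hok D (c.a s) w (ts x) x (f x) (A x) (MeasurableSet.of_discrete)
  · by_cases e0 : (⟨0, 0, 0, 0, 0, 0⟩ : K8Pr) = h0
    · simp [e0]
    · simp [e0]


theorem k8b_asm_fit (hc : c.WF) {K₂ : ℝ} (hK : 1 ≤ K₂) (hKK : K₂ ≤ K') (hs : s ∈ c.G) (hD : 0 < D) (hw : 0 < w) (hw1 : w ≤ 1)
    (hF : F.Ok c K₂ s D E₂) (h : K8bAsm H c K' s D w E₂ F F' X₂ ts f A Ls Z E') {l : H.Lam} (hl : l ∈ F'.dom) :
    (∀ t ∈ Icc (0 : ℝ) 1, |H.Xt l t - (F'.pr l).ev t (H.p l) (H.q0 l)| ≤ 2 * (c.a s * w)) ∧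
      ∀ t ∈ Icc (0 : ℝ) 1, ∀ p q : ℝ, |p - H.p l| ≤ D → |q - H.q0 l| ≤ D → |(F'.pr l).ev t p q| ≤ 40 * K' := by
  obtain ⟨x, hx, hlx⟩ := (k8b_asm_mem_dom h).1 hl
  rw [h.pr x hx l hlx]
  exact k8b_new_fit H c hc F hK hKK hs hD hw hw1 (h.ts01 x hx) hF x (f x) (A x) (h.fb x hx) (h.Ab x hx) (h.sLs x hx hlx)

theorem k8b_asm_mass {K₂ : ℝ} (hok : H.Ok c K₂) (hF : F.Ok c K₂ s D E₂) (h : K8bAsm H c K' s D w E₂ F F' X₂ ts f A Ls Z E') :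
    H.lam E₂ ≤ ENNReal.ofReal K₂ * (ENNReal.ofReal K' * H.lam (⋃ x ∈ X₂, E' x)) := by
  classical
  have h1 : ∀ x, H.lam (F.chI c.χ D x) ≤ ENNReal.ofReal K₂ * H.ν (F.ch c.χ D x) := by
    intro x
    have : IsFiniteMeasure H.ν := ⟨lt_of_le_of_lt hok.νle ENNReal.one_lt_top⟩
    have e : F.chI c.χ D x = F.ch c.χ D x ×ˢ univ := by
      ext z
      simp [K8Lab.chI]
    calc H.lam (F.chI c.χ D x) ≤ (ENNReal.ofReal K₂ • H.ν.prod k7bTime) (F.chI c.χ D x) := hok.dom _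
      _ = ENNReal.ofReal K₂ * (H.ν (F.ch c.χ D x) * k7bTime univ) := by
          rw [Measure.smul_apply, smul_eq_mul, e, k7bTime, Measure.prod_prod]
      _ = _ := by
          rw [k7bTime, Measure.restrict_apply MeasurableSet.univ, univ_inter, Real.volume_Icc]
          simp
  have h2 : E₂ ⊆ ⋃ x ∈ X₂, F.chI c.χ D x := by
    intro z hz
    simp only [mem_iUnion, exists_prop]
    exact ⟨F.lb c.χ D z.1, h.occ z hz, hF.cover z hz, rfl, rfl⟩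
  have h3 : H.lam (⋃ x ∈ X₂, E' x) = ∑ x ∈ X₂, H.lam (E' x) := by
    refine measure_biUnion_finset ?_ h.mE
    intro x hx y hy hxy
    refine Set.disjoint_left.2 fun z hz hz' => hxy ?_
    have a1 := h.sLs x hx (h.sE x hx hz).2
    have a2 := h.sLs y hy (h.sE y hy hz').2
    exact Prod.ext (a1.2.1.symm.trans a2.2.1) (a1.2.2.symm.trans a2.2.2)
  calc H.lam E₂ ≤ H.lam (⋃ x ∈ X₂, F.chI c.χ D x) := measure_mono h2
    _ ≤ ∑ x ∈ X₂, H.lam (F.chI c.χ D x) := measure_biUnion_finset_le _ _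
    _ ≤ ∑ x ∈ X₂, ENNReal.ofReal K₂ * (ENNReal.ofReal K' * H.lam (E' x)) :=
        Finset.sum_le_sum fun x hx => (h1 x).trans (mul_le_mul' le_rfl (h.mass x hx))
    _ = _ := by rw [h3, Finset.mul_sum, Finset.mul_sum]

theorem k8b_asm_num {K₂ s₁ : ℝ} (hc : c.WF) (hK : 0 ≤ K₂) (hK' : 0 ≤ K') (hw : 0 < w) (hok : H.Ok c K₂) (hF : F.Ok c K₂ s D E₂)
    (hs₁ : c.a s₁ ≤ c.a s * w) (h : K8bAsm H c K' s D w E₂ F F' X₂ ts f A Ls Z E')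
    (S : Finset ((ℤ × ℤ × ℤ) × K8Pr)) (hS : ∀ x' ∈ S, ∃ z ∈ ⋃ x ∈ X₂, E' x, (H.grp c.χ D z.1, F'.pr z.1) = x') :
    ∑ x' ∈ S, H.gW c.χ D x'.1 * ENNReal.ofReal (c.a s₁ ^ c.d) ≤ ENNReal.ofReal (K' * K₂ ^ 2) := by
  classical
  have : Nonempty K8Pr := ⟨⟨0, 0, 0, 0, 0, 0⟩⟩
  have hN : 0 < c.N := lt_of_lt_of_le one_pos hc.N1
  have ha : 0 < c.a s := Real.rpow_pos_of_pos hN _
  have ha₁ : 0 < c.a s₁ := Real.rpow_pos_of_pos hN _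
  have hpar : ∀ x' ∈ S, ∃ x ∈ X₂, ∃ zz ∈ Z x, x' = (x.1, k8bNew D (c.a s) w (ts x) x (f x) (A x) zz.1 zz.2) := by
    intro x' hx'
    obtain ⟨z, hz, rfl⟩ := hS x' hx'
    simp only [mem_iUnion, exists_prop] at hz
    obtain ⟨x, hx, hzx⟩ := hz
    have hl := (h.sE x hx hzx).2
    have hch := h.sLs x hx hl
    exact ⟨x, hx, _, h.mem x hx z.1 hl, Prod.ext hch.2.1 (h.pr x hx z.1 hl)⟩
  choose! par hparX zz hzz hxe using hpar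
  rw [← Finset.sum_fiberwise_of_maps_to hparX]
  have hreal : ∀ x ∈ X₂, ((Z x).card : ℝ) * c.a s₁ ^ c.d ≤ K' * c.a s ^ c.d := by
    intro x hx
    have h1 : c.a s₁ ^ c.d ≤ c.a s ^ c.d * w ^ c.d := by
      rw [← Real.mul_rpow ha.le hw.le]
      exact Real.rpow_le_rpow ha₁.le hs₁ hc.d0
    have hwd : 0 < w ^ c.d := Real.rpow_pos_of_pos hw _
    calc ((Z x).card : ℝ) * c.a s₁ ^ c.d ≤ (K' * w ^ (-c.d)) * (c.a s ^ c.d * w ^ c.d) :=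
          mul_le_mul (h.cZ x hx) h1 (Real.rpow_pos_of_pos ha₁ _).le (by positivity)
      _ = K' * c.a s ^ c.d := by
          rw [Real.rpow_neg hw.le]
          field_simp
  have e2 : ∀ x ∈ X₂, ∑ x' ∈ S with par x' = x, H.gW c.χ D x'.1 * ENNReal.ofReal (c.a s₁ ^ c.d)
      ≤ ENNReal.ofReal K' * (H.gW c.χ D x.1 * ENNReal.ofReal (c.a s ^ c.d)) := by
    intro x hx
    have c1 : ∀ x' ∈ S.filter (fun x' => par x' = x), H.gW c.χ D x'.1 * ENNReal.ofReal (c.a s₁ ^ c.d)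
        = H.gW c.χ D x.1 * ENNReal.ofReal (c.a s₁ ^ c.d) := by
      intro x' hx'
      obtain ⟨h1, h2⟩ := Finset.mem_filter.1 hx'
      have := congrArg Prod.fst (hxe x' h1)
      rw [this, h2]
    have c2 : (S.filter (fun x' => par x' = x)).card ≤ (Z x).card := by
      refine Finset.card_le_card_of_injOn zz ?_ ?_
      · intro x' hx'
        obtain ⟨h1, h2⟩ := Finset.mem_filter.1 (Finset.mem_coe.1 hx')
        have := hzz x' h1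
        rw [h2] at this
        exact this
      · intro x' hx' y' hy' e
        obtain ⟨h1, h2⟩ := Finset.mem_filter.1 (Finset.mem_coe.1 hx')
        obtain ⟨h3, h4⟩ := Finset.mem_filter.1 (Finset.mem_coe.1 hy')
        rw [hxe x' h1, hxe y' h3, h2, h4, e]
    rw [Finset.sum_congr rfl c1, Finset.sum_const, nsmul_eq_mul]
    calc ((S.filter (fun x' => par x' = x)).card : ℝ≥0∞) * (H.gW c.χ D x.1 * ENNReal.ofReal (c.a s₁ ^ c.d))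
        ≤ ((Z x).card : ℝ≥0∞) * (H.gW c.χ D x.1 * ENNReal.ofReal (c.a s₁ ^ c.d)) := by
          gcongr
      _ = H.gW c.χ D x.1 * ENNReal.ofReal (((Z x).card : ℝ) * c.a s₁ ^ c.d) := by
          rw [ENNReal.ofReal_mul (Nat.cast_nonneg _), ENNReal.ofReal_natCast]
          ring
      _ ≤ H.gW c.χ D x.1 * ENNReal.ofReal (K' * c.a s ^ c.d) :=
          mul_le_mul' le_rfl (ENNReal.ofReal_le_ofReal (hreal x hx))
      _ = _ := by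
          rw [ENNReal.ofReal_mul hK']
          ring
  refine (Finset.sum_le_sum e2).trans ?_
  rw [← Finset.mul_sum, ENNReal.ofReal_mul hK']
  exact mul_le_mul' le_rfl (k8f_num_sum hK hok F hF.pre X₂ h.occ')


theorem k8b_asm_main (hc : c.WF) {K₂ s₁ m Kf : ℝ} (hK : 1 ≤ K₂) (hKK : K₂ ≤ K') (hs : s ∈ c.G) (hD : 0 < D) (hw : 0 < w) (hw1 : w ≤ 1)
    (hok : H.Ok c K₂) (hE₂ : H.Res E₂ m) (hm : 0 < m) (hF : F.Ok c K₂ s D E₂) (hs₁ : c.a s₁ ≤ c.a s * w) (hs₁' : c.a s * w ≤ 2 * c.a s₁)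
    (hKf : 40 * K' ≤ Kf) (hKf' : 2 * (K₂ * K' / m) * (K' * K₂ ^ 2 + 1) ≤ Kf)
    (h : K8bAsm H c K' s D w E₂ F F' X₂ ts f A Ls Z E') :
    ∃ E₄ ⊆ E₂, H.Res E₄ (1 / (2 * (K₂ * K' / m))) ∧ F'.Ok c Kf s₁ D E₄ := by
  classical
  have hK0 : 0 < K₂ := by linarith
  have hK'0 : 0 < K' := by linarith
  have hN : 0 < c.N := lt_of_lt_of_le one_pos hc.N1
  have ha₁ : 0 < c.a s₁ := Real.rpow_pos_of_pos hN _
  have hKm : 0 < K₂ * K' / m := by positivity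
  have hE₃s : (⋃ x ∈ X₂, E' x) ⊆ E₂ := by
    intro z hz
    simp only [mem_iUnion, exists_prop] at hz
    obtain ⟨x, hx, hzx⟩ := hz
    exact (h.sE x hx hzx).1
  have hE₃m : MeasurableSet (⋃ x ∈ X₂, E' x) := Finset.measurableSet_biUnion _ h.mE
  have hcov : ∀ z ∈ ⋃ x ∈ X₂, E' x, z.1 ∈ F'.dom := by
    intro z hz
    simp only [mem_iUnion, exists_prop] at hz
    obtain ⟨x, hx, hzx⟩ := hz
    exact (k8b_asm_mem_dom h).2 ⟨x, hx, (h.sE x hx hzx).2⟩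
  have hmass : ENNReal.ofReal (1 / (K₂ * K' / m)) ≤ H.lam (⋃ x ∈ X₂, E' x) := by
    have h1 := hE₂.mass.trans (k8b_asm_mass hok hF h)
    rw [← mul_assoc, ← ENNReal.ofReal_mul hK0.le] at h1
    have e : 1 / (K₂ * K' / m) = m / (K₂ * K') := by field_simp
    rw [e, ENNReal.ofReal_div_of_pos (by positivity)]
    exact ENNReal.div_le_of_le_mul' h1
  set K1 : ℝ := 2 * (K₂ * K' / m) * (K' * K₂ ^ 2 + 1) with hK1
  have hK1pos : 0 < K1 := by positivity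
  obtain ⟨E₄, hE₄s, hE₄m, hloss, hfl⟩ := k8f_refloor H c hc hok (fun _ : Unit => F') (fun _ => D)
    (fun _ => ENNReal.ofReal (c.a s₁ ^ c.d)) (fun _ => ENNReal.ofReal (K' * K₂ ^ 2)) (ENNReal.ofReal K1)⁻¹
    (hE₃s.trans hE₂.sub) hE₃m (fun _ => hD) (fun _ => k8b_asm_mdom h) (fun _ => k8b_asm_mpr hok h) (fun _ => k8b_asm_fin h)
    (fun _ => hcov) (fun _ S hS => k8b_asm_num hc hK0.le hK'0.le hw hok hF hs₁ h S hS)
  have hloss' : H.lam ((⋃ x ∈ X₂, E' x) \ E₄) ≤ ENNReal.ofReal (1 / (2 * (K₂ * K' / m))) := by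
    refine hloss.trans (le_of_eq ?_)
    rw [Finset.univ_unique, Finset.sum_singleton, ← ENNReal.ofReal_one, ← ENNReal.ofReal_add (by positivity) zero_le_one,
      ← ENNReal.ofReal_inv_of_pos hK1pos, ← ENNReal.ofReal_mul (by positivity)]
    congr 1
    rw [hK1]
    field_simp
  have hoK : ENNReal.ofReal K1 ≤ ENNReal.ofReal Kf := ENNReal.ofReal_le_ofReal hKf'
  refine ⟨E₄, hE₄s.trans hE₃s, ⟨(hE₄s.trans hE₃s).trans hE₂.sub, hE₄m, k8f_mass_half H.lam hKm hmass hloss'⟩, ?_⟩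
  exact
  { mdom := k8b_asm_mdom h
    mpr := k8b_asm_mpr hok h
    fin := k8b_asm_fin h
    cover := fun z hz => hcov z (hE₄s hz)
    fit := fun l hl t ht => by
      refine ((k8b_asm_fit hc hK hKK hs hD hw hw1 hF h hl).1 t ht).trans ?_
      have : 4 * c.a s₁ ≤ Kf * c.a s₁ := mul_le_mul_of_nonneg_right (by linarith) ha₁.le
      linarith
    norm := fun l hl t ht p q h1 h2 => ((k8b_asm_fit hc hK hKK hs hD hw hw1 hF h hl).2 t ht p q h1 h2).trans hKf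
    floor := fun z hz => ((k8f_read hK1pos (hfl () z hz)).1).trans (mul_le_mul' hoK le_rfl)
    prior := fun z hz => ((k8f_read hK1pos (hfl () z hz)).2).trans (mul_le_mul' hoK le_rfl) }

end asm

theorem k8b_asm_exists {H : K7bHor} {c : K7bPar} {K₂ K' s D w : ℝ} {E₂ : Set (H.Lam × ℝ)} {F : K8Lab H} (hc : c.WF) (hD : 0 < D)
    (hok : H.Ok c K₂) (hE₂ : E₂ ⊆ H.Sp) (hF : F.Ok c K₂ s D E₂)
    (hcore : ∀ x, (∃ z ∈ E₂, F.lb c.χ D z.1 = x) → ∃ (ts : ℝ) (f A : Fin 2 → ℝ) (Ls : Set H.Lam) (Z : Finset (ℤ × ℤ))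
      (E' : Set (H.Lam × ℝ)), ts ∈ Icc (0 : ℝ) 1 ∧ ‖f‖ ≤ K' ∧ ‖A‖ ≤ K' ∧ MeasurableSet Ls ∧ Ls ⊆ F.ch c.χ D x ∧
        (Z.card : ℝ) ≤ K' * w ^ (-c.d) ∧
        (∀ l ∈ Ls, (k5_bin w (k5_S f (k8bCo H D (c.a s) x l) ts),
          k5_bin w ((k8bCo H D (c.a s) x l).1 1 - A ⬝ᵥ (k8bCo H D (c.a s) x l).2 0)) ∈ Z) ∧
        MeasurableSet E' ∧ E' ⊆ E₂ ∩ {z | z.1 ∈ Ls} ∧ H.ν (F.ch c.χ D x) ≤ ENNReal.ofReal K' * H.lam E') :
    ∃ F' X₂ ts f A Ls Z E', K8bAsm H c K' s D w E₂ F F' X₂ ts f A Ls Z E' := by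
  classical
  have hfin := k8f_lab_finite hok hc.χ0 hD F hF.fin hE₂ hF.cover
  have hX : ∀ x, x ∈ hfin.toFinset ↔ ∃ z ∈ E₂, F.lb c.χ D z.1 = x := by
    intro x
    rw [Set.Finite.mem_toFinset]
    rfl
  generalize hfin.toFinset = X₂ at hX
  have hcore' : ∀ x, ∃ (ts : ℝ) (f A : Fin 2 → ℝ) (Ls : Set H.Lam) (Z : Finset (ℤ × ℤ))
      (E' : Set (H.Lam × ℝ)), x ∈ X₂ → (ts ∈ Icc (0 : ℝ) 1 ∧ ‖f‖ ≤ K' ∧ ‖A‖ ≤ K' ∧ MeasurableSet Ls ∧ Ls ⊆ F.ch c.χ D x ∧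
        (Z.card : ℝ) ≤ K' * w ^ (-c.d) ∧
        (∀ l ∈ Ls, (k5_bin w (k5_S f (k8bCo H D (c.a s) x l) ts),
          k5_bin w ((k8bCo H D (c.a s) x l).1 1 - A ⬝ᵥ (k8bCo H D (c.a s) x l).2 0)) ∈ Z) ∧
        MeasurableSet E' ∧ E' ⊆ E₂ ∩ {z | z.1 ∈ Ls} ∧ H.ν (F.ch c.χ D x) ≤ ENNReal.ofReal K' * H.lam E') := by
    intro x
    by_cases hx : x ∈ X₂
    · obtain ⟨ts, f, A, Ls, Z, E', hh⟩ := hcore x ((hX x).1 hx)
      exact ⟨ts, f, A, Ls, Z, E', fun _ => hh⟩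
    · exact ⟨0, 0, 0, ∅, ∅, ∅, fun h => absurd h hx⟩
  choose ts f A Ls Z E' hh using hcore'
  refine ⟨⟨⋃ x ∈ X₂, Ls x, fun l => if l ∈ ⋃ x ∈ X₂, Ls x then
    k8bNew D (c.a s) w (ts (F.lb c.χ D l)) (F.lb c.χ D l) (f (F.lb c.χ D l)) (A (F.lb c.χ D l))
      (k5_bin w (k5_S (f (F.lb c.χ D l)) (k8bCo H D (c.a s) (F.lb c.χ D l) l) (ts (F.lb c.χ D l))))
      (k5_bin w ((k8bCo H D (c.a s) (F.lb c.χ D l) l).1 1 - A (F.lb c.χ D l) ⬝ᵥ (k8bCo H D (c.a s) (F.lb c.χ D l) l).2 0))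
    else ⟨0, 0, 0, 0, 0, 0⟩⟩, X₂, ts, f, A, Ls, Z, E', ?_⟩
  exact
  { occ := fun z hz => (hX _).2 ⟨z, hz, rfl⟩
    occ' := fun x hx => (hX x).1 hx
    ts01 := fun x hx => (hh x hx).1
    fb := fun x hx => (hh x hx).2.1
    Ab := fun x hx => (hh x hx).2.2.1
    mLs := fun x hx => (hh x hx).2.2.2.1
    sLs := fun x hx => (hh x hx).2.2.2.2.1
    cZ := fun x hx => (hh x hx).2.2.2.2.2.1
    mem := fun x hx => (hh x hx).2.2.2.2.2.2.1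
    mE := fun x hx => (hh x hx).2.2.2.2.2.2.2.1
    sE := fun x hx => (hh x hx).2.2.2.2.2.2.2.2.1
    mass := fun x hx => (hh x hx).2.2.2.2.2.2.2.2.2
    dom := rfl
    pr := fun x hx l hl => by
      have h1 : l ∈ ⋃ x ∈ X₂, Ls x := by
        simp only [mem_iUnion, exists_prop]
        exact ⟨x, hx, hl⟩
      have h2 : F.lb c.χ D l = x := by
        have := (hh x hx).2.2.2.2.1 hl
        exact Prod.ext this.2.1 this.2.2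
      show (if l ∈ ⋃ x ∈ X₂, Ls x then _ else _) = _
      rw [if_pos h1, h2]
    junk := fun l hl => if_neg hl }

theorem k8b_t4_num {P K : ℝ} (hP : 2 ^ 10 ≤ P) (hK : 1 ≤ K) (hKP : 4 * K ^ 4 ≤ P) :
    40 * P ≤ P ^ 8 ∧ 2 * (4 * K ^ 4 * P / (1 / (2 * K ^ 2))) * (P * (4 * K ^ 4) ^ 2 + 1) ≤ P ^ 8 ∧
      1 / P ^ 8 ≤ 1 / (2 * (4 * K ^ 4 * P / (1 / (2 * K ^ 2)))) := by
  have hP1 : 1 ≤ P := by linarith
  have hP0 : 0 < P := by linarith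
  have hu : K ^ 2 ≤ P := by nlinarith [sq_nonneg (K ^ 2 - 1), sq_nonneg K, mul_self_nonneg (K ^ 2)]
  have hu0 : 0 < K ^ 2 := by positivity
  have hV0 : 0 < 4 * K ^ 4 := by positivity
  generalize 4 * K ^ 4 = V at *
  generalize K ^ 2 = u at *
  have e : V * P / (1 / (2 * u)) = 2 * (u * V * P) := by
    field_simp
  have h1 : u * V * P ≤ P ^ 3 := by
    calc u * V * P ≤ P * P * P := by gcongr
      _ = P ^ 3 := by ring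
  have h2 : P * V ^ 2 + 1 ≤ 2 * P ^ 3 := by
    have : P * V ^ 2 ≤ P * P ^ 2 := by gcongr
    have h3 : 1 ≤ P ^ 3 := one_le_pow₀ hP1
    nlinarith
  have h8 : (8 : ℝ) ≤ P ^ 2 := by nlinarith
  have h5 : (4 : ℝ) ≤ P ^ 5 := by
    have : P ^ 1 ≤ P ^ 5 := pow_le_pow_right₀ hP1 (by norm_num)
    linarith
  have h7 : (40 : ℝ) ≤ P ^ 7 := by
    have : P ^ 1 ≤ P ^ 7 := pow_le_pow_right₀ hP1 (by norm_num)
    linarith
  have hp3 : 0 < P ^ 3 := by positivity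
  have huvp : 0 < u * V * P := by positivity
  rw [e]
  refine ⟨?_, ?_, ?_⟩
  · calc 40 * P ≤ P ^ 7 * P := by gcongr
      _ = P ^ 8 := by ring
  · calc 2 * (2 * (u * V * P)) * (P * V ^ 2 + 1) ≤ 2 * (2 * P ^ 3) * (2 * P ^ 3) := by gcongr
      _ = 8 * P ^ 6 := by ring
      _ ≤ P ^ 2 * P ^ 6 := by gcongr
      _ = P ^ 8 := by ring
  · apply one_div_le_one_div_of_le (by positivity)
    calc 2 * (2 * (u * V * P)) ≤ 2 * (2 * P ^ 3) := by gcongr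
      _ = 4 * P ^ 3 := by ring
      _ ≤ P ^ 5 * P ^ 3 := by gcongr
      _ = P ^ 8 := by ring

/-- **L-252-S8b-T4** (glue, ~700 l.; may be cut by its owner into: definition of `F'` + measurability | mass | numerators + `k8f_refloor`).   ONE BOOTSTRAP STEP AT ONE SCALE.
PROOF.  `γ` from `k8b_chart_core … (ε/8)`; given `n`: `(η₁, k₁)`; `η := η₁/8`, `k₀ ≥ k₁` with `4 ≤ 2^(k₀ η₁/2)` (so `4K⁴ ≤ ζ^(-η₁)`), `K ≤ ζ^(-ε/8)`, `2^10 ≤ 2^(k₀ ε/8)`.   `K' := ζ^(-ε/8)`, `a = c.a s`, `w = (1/2)^kw`.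
1. `k8b_sel`: `E₂ ⊆ E`, `lam E₂ ≥ 1/(2K²)`, `F.Ok c K₂ s D E₂`, `K₂ = 4K⁴`, `K8bSel`.   `K8Prep.mono`, `K8Lab.Cmp.mono`, `k8_ok_mono` raise the slack to `K₂` and restrict to `E₂`.
2. `X₂` := the finite set of labels `F.lb c.χ D z.1`, `z ∈ E₂` (`k8f_lab_finite`).   For `x ∈ X₂`: `k8b_chart_core` gives `ts x, f x, A x, Ls x, Z x, E' x` (`Classical.choose`; junk outside `X₂`).
3. `F'.dom := ⋃_{x ∈ X₂} Ls x` (disjoint: `Ls x ⊆ F.ch x`), `F'.pr l := if l ∈ F'.dom then k8bNew D a w (ts x) x (f x) (A x) (bin S) (bin J) else ⟨0,0,0,0,0,0⟩`, `x = F.lb c.χ D l`.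
   `mdom`: finite union.   `fin`: `F'.pr '' dom ⊆ ⋃_{x ∈ X₂} image (k8bNew … x …) (Z x)`.   `mpr`: on `Ls x` the predictor is a function of the two bins, which are measurable functions of `l` (`k8b_cc_facts`/measurability of the components of `k8bCo`, `Int.measurable_floor`); finite unions; the complement of `dom` for the junk value.
   `fit` (`≤ 2 a w ≤ 4 a_{s₁}`), `norm` (`≤ 40 K'`): `k8b_new_fit`.
4. `E₃ := ⋃_{x ∈ X₂} E' x ⊆ E₂`, covered by `F'.dom`.   `lam E₃ = ∑ lam (E' x) ≥ ∑ ν(ch x)/K' ≥ ∑ lam (E₂ ∩ chI x)/(K₂ K') = lam E₂/(K₂ K')` (`hok.dom`, time `≤ 1`).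
5. NUMERATORS: a label `x'` of `F'` occurring in `E₃` has the form `(x.1, k8bNew … x … z)` with `x ∈ X₂`, `z ∈ Z x`.   So for every finite set `S` of such labels
   `∑_{x' ∈ S} gW x'.1 a_{s₁}^d ≤ ∑_{x ∈ X₂} card (Z x) gW x.1 a_{s₁}^d ≤ K' w^(-d) (a w)^d ∑ gW x.1 = K' ∑_{x ∈ X₂} gW x.1 a^d ≤ K' K₂²` (`k8f_num_sum`; `a_{s₁} ≤ a w`).
6. `k8f_refloor` (`ι = Unit`, `F'`, `D`, `w := ofReal (a_{s₁}^d)`, `B := ofReal (K' K₂²)`, `κ := lam-mass bound / (2 (B + 1))`): `E₄ ⊆ E₃`, `lam E₄ ≥ lam E₃/2 ≥ ζ^ε`, floors and priors with constant `1/κ ≤ ζ^(-ε)`. -/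
theorem k8b_core_one (d θ : ℝ) (hd0 : 0 ≤ d) (hd : d < 1) (hθ : 0 < θ) (hθ1 : θ ≤ 1) (hFJ : k5_FJ d θ) (ε : ℝ) (hε : 0 < ε) :
    ∃ γ : ℝ, 0 < γ ∧ ∀ n : ℕ, ∃ (η : ℝ) (k₀ : ℕ), 0 < η ∧
      ∀ (H : K7bHor) (c : K7bPar) (K s s₁ D : ℝ) (E₀ E : Set (H.Lam × ℝ)) (F : K8Lab H)
        (ks : Finset ℕ) (kζ g kw : ℕ) (dep : ℕ → ℝ), c.d = d → K8bRel c ((2 : ℝ) ^ kζ) s D ((1 / 2 : ℝ) ^ kζ) → 1 ≤ K → H.Ok c K →
        H.Res E (1 / K) → K8Prep H c K E₀ E → F.Ok c K s D E → F.Cmp c K s D E →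
        k8bGrid ks kζ g → ks.card ≤ n → (g : ℝ) ≤ γ * kζ → k₀ ≤ kζ → K ≤ ((2 : ℝ) ^ kζ) ^ η → 100 * (kw : ℝ) ≤ θ * (1 - d) * kζ →
        K8bDep c s D ks dep → c.a s₁ ≤ c.a s * (1 / 2 : ℝ) ^ kw → c.a s * (1 / 2 : ℝ) ^ kw ≤ 2 * c.a s₁ →
        ∃ E' ⊆ E, H.Res E' (((1 / 2 : ℝ) ^ kζ) ^ ε) ∧ ∃ F' : K8Lab H, F'.Ok c (((2 : ℝ) ^ kζ) ^ ε) s₁ D E' := by
  obtain ⟨γ, hγ, hcore⟩ := k8b_chart_core d θ hd0 hd hθ hθ1 hFJ (ε / 8) (by positivity)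
  refine ⟨γ, hγ, fun n => ?_⟩
  obtain ⟨η₁, k₁, hη₁, hcore⟩ := hcore n
  have hη₂ : 0 < min η₁ (ε / 8) := lt_min hη₁ (by positivity)
  generalize hη₂d : min η₁ (ε / 8) = η₂ at hη₂
  have hη₂1 : η₂ ≤ η₁ := hη₂d ▸ min_le_left _ _
  have hη₂2 : η₂ ≤ ε / 8 := hη₂d ▸ min_le_right _ _
  refine ⟨η₂ / 8, max k₁ (max ⌈4 / η₂⌉₊ ⌈80 / ε⌉₊), by positivity, ?_⟩
  intro H c K s s₁ D E₀ E F ks kζ g kw dep hcd hR hK hok hE hP hF hC hG hn hg hk hKη hkw hdep ha1 ha2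
  subst hcd
  have hc := hR.wf
  have hk1 : k₁ ≤ kζ := (le_max_left _ _).trans hk
  have hk2 : 4 / η₂ ≤ kζ := (Nat.le_ceil _).trans (by exact_mod_cast ((le_max_left _ _).trans (le_max_right _ _)).trans hk)
  have hk3 : 80 / ε ≤ kζ := (Nat.le_ceil _).trans (by exact_mod_cast ((le_max_right _ _).trans (le_max_right _ _)).trans hk)
  have hT1 : (1 : ℝ) ≤ (2 : ℝ) ^ kζ := one_le_pow₀ (by norm_num)
  have hTe : ∀ e : ℝ, ((2 : ℝ) ^ kζ) ^ e = (2 : ℝ) ^ ((kζ : ℝ) * e) := fun e => by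
    rw [← Real.rpow_natCast, ← Real.rpow_mul (by norm_num)]
  generalize hTd : (2 : ℝ) ^ kζ = T at *
  have hT0 : 0 < T := by linarith
  -- the numerical facts
  have n1 : (4 : ℝ) ≤ T ^ (η₂ / 2) := by
    rw [hTe]
    have : (2 : ℝ) ≤ (kζ : ℝ) * (η₂ / 2) := by
      rw [div_le_iff₀ hη₂] at hk2
      linarith
    calc (4 : ℝ) = (2 : ℝ) ^ (2 : ℝ) := by norm_num
      _ ≤ _ := Real.rpow_le_rpow_of_exponent_le (by norm_num) this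
  have n2 : (2 : ℝ) ^ 10 ≤ T ^ (ε / 8) := by
    rw [hTe]
    have : (10 : ℝ) ≤ (kζ : ℝ) * (ε / 8) := by
      rw [div_le_iff₀ hε] at hk3
      linarith
    calc (2 : ℝ) ^ 10 = (2 : ℝ) ^ (10 : ℝ) := by norm_num
      _ ≤ _ := Real.rpow_le_rpow_of_exponent_le (by norm_num) this
  have n3 : 4 * K ^ 4 ≤ T ^ η₂ := by
    have h1 : K ^ 4 ≤ T ^ (η₂ / 2) := by
      calc K ^ 4 ≤ (T ^ (η₂ / 8)) ^ 4 := by gcongr
        _ = T ^ (η₂ / 2) := by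
          rw [← Real.rpow_natCast, ← Real.rpow_mul hT0.le]
          congr 1
          push_cast
          ring
    calc 4 * K ^ 4 ≤ T ^ (η₂ / 2) * T ^ (η₂ / 2) := by gcongr
      _ = T ^ η₂ := by
        rw [← Real.rpow_add hT0]
        congr 1
        ring
  have n4 : 4 * K ^ 4 ≤ T ^ η₁ := n3.trans (Real.rpow_le_rpow_of_exponent_le hT1 hη₂1)
  have n5 : 4 * K ^ 4 ≤ T ^ (ε / 8) := n3.trans (Real.rpow_le_rpow_of_exponent_le hT1 hη₂2)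
  have n6 : (T ^ (ε / 8)) ^ 8 = T ^ ε := by
    rw [← Real.rpow_natCast, ← Real.rpow_mul hT0.le]
    congr 1
    push_cast
    ring
  have n7 : ((1 / 2 : ℝ) ^ kζ) ^ ε = 1 / T ^ ε := by
    rw [one_div_pow, hTd, one_div, Real.inv_rpow hT0.le, one_div]
  have hKK : K ≤ 4 * K ^ 4 := by
    have : K ^ 1 ≤ K ^ 4 := pow_le_pow_right₀ hK (by norm_num)
    nlinarith
  have hK₂ : 1 ≤ 4 * K ^ 4 := hK.trans hKK
  obtain ⟨m1, m2, m3⟩ := k8b_t4_num n2 hK n5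
  rw [n6] at m1 m2 m3
  have hw0 : (0 : ℝ) < (1 / 2 : ℝ) ^ kw := by positivity
  have hw1 : (1 / 2 : ℝ) ^ kw ≤ 1 := pow_le_one₀ (by norm_num) (by norm_num)
  subst hTd
  -- 1. the selection
  obtain ⟨E₂, hE₂s, hE₂, hF₂, hSel⟩ := k8b_sel H c hc F hK hR.sG hR.D0 hok hE hF hC
  have hok₂ : H.Ok c (4 * K ^ 4) := k8_ok_mono hc (by linarith) hKK hok
  have hP₂ : K8Prep H c (4 * K ^ 4) E₀ E₂ := hP.mono hc hKK hE₂s
  have hC₂ : F.Cmp c (4 * K ^ 4) s D E₂ := hC.mono hc hKK hE₂s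
  -- 2., 3. the charts and the new labelling
  obtain ⟨F', X₂, ts, f, A, Ls, Z, E', hasm⟩ := k8b_asm_exists (K' := ((2 : ℝ) ^ kζ) ^ (ε / 8)) (w := (1 / 2 : ℝ) ^ kw) hc hR.D0 hok₂ hE₂.sub hF₂
    (fun x hx => hcore H c (4 * K ^ 4) s D E₀ E₂ F x ks kζ g kw dep rfl hR hK₂ hok₂ hE₂.meas hP₂ hF₂ hC₂ hSel hx hG hn hg hk1
      n4 hkw hdep)
  -- 4.-6.
  obtain ⟨E₄, hE₄s, hE₄, hF'⟩ := k8b_asm_main hc hK₂ n5 hR.sG hR.D0 hw0 hw1 hok₂ hE₂ (by positivity) hF₂ ha1 ha2 m1 m2 hasm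
  refine ⟨E₄, hE₄s.trans hE₂s, k8_res_mono hE₄ ?_, F', hF'⟩
  rw [n7]
  exact m3

/-! ## 4. The hub -/

/-- the exit of unit FIT -/
def K8bFit : Prop := ∀ d : ℝ, 0 ≤ d → d < 1 → ∃ θ : ℝ, 0 < θ ∧ θ ≤ 1 ∧ k5_FJ d θ

/-- dyadic rounding of a power of `N` -/
theorem k8b_t5_floor {N : ℝ} (hN : 1 < N) {σ : ℝ} (hσ : 0 ≤ σ) :
    N ^ (-σ) ≤ (1 / 2 : ℝ) ^ ⌊σ * Real.logb 2 N⌋₊ ∧ (1 / 2 : ℝ) ^ ⌊σ * Real.logb 2 N⌋₊ ≤ 2 * N ^ (-σ) := by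
  have hN0 : 0 < N := by linarith
  have hL : 0 < Real.logb 2 N := Real.logb_pos (by norm_num) hN
  have hNe : (2 : ℝ) ^ Real.logb 2 N = N := Real.rpow_logb (by norm_num) (by norm_num) hN0
  have e1 : N ^ (-σ) = (2 : ℝ) ^ (-(σ * Real.logb 2 N)) := by
    conv_lhs => rw [← hNe]
    rw [← Real.rpow_mul (by norm_num)]
    congr 1
    ring
  have e2 : ∀ n : ℕ, (1 / 2 : ℝ) ^ n = (2 : ℝ) ^ (-(n : ℝ)) := fun n => by
    rw [Real.rpow_neg (by norm_num), Real.rpow_natCast, one_div, inv_pow]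
  have hy : 0 ≤ σ * Real.logb 2 N := by positivity
  have h1 := Nat.floor_le hy
  have h2 := Nat.lt_floor_add_one (σ * Real.logb 2 N)
  rw [e1, e2]
  refine ⟨Real.rpow_le_rpow_of_exponent_le (by norm_num) (by linarith), ?_⟩
  calc (2 : ℝ) ^ (-(⌊σ * Real.logb 2 N⌋₊ : ℝ)) ≤ (2 : ℝ) ^ (1 + -(σ * Real.logb 2 N)) :=
        Real.rpow_le_rpow_of_exponent_le (by norm_num) (by linarith)
    _ = _ := by rw [Real.rpow_add (by norm_num), Real.rpow_one]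

/-- a slowly increasing sequence of exponents is a grid -/
theorem k8b_t5_grid (κ : ℕ → ℕ) (m g : ℕ) (h0 : κ 0 = 0) (hmono : Monotone κ) (hgap : ∀ j < m, κ (j + 1) ≤ κ j + g) :
    k8bGrid ((Finset.range (m + 1)).image κ) (κ m) g := by
  have key : ∀ i j : ℕ, j + i = m → κ j ≠ κ m → ∃ j' ≤ m, κ j < κ j' ∧ κ j' ≤ κ j + g := by
    intro i
    induction i with
    | zero =>
      intro j hj hne
      exact absurd (by rw [← hj]; rfl) hne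
    | succ i ih =>
      intro j hj hne
      have hjm : j < m := by omega
      rcases (hmono (Nat.le_succ j)).lt_or_eq with hlt | heq
      · exact ⟨j + 1, hjm, hlt, hgap j hjm⟩
      · have heq' : κ (j + 1) = κ j := heq.symm
        obtain ⟨j', h1, h2, h3⟩ := ih (j + 1) (by omega) (by rw [heq']; exact hne)
        rw [heq'] at h2 h3
        exact ⟨j', h1, h2, h3⟩
  refine ⟨?_, ?_, ?_, ?_⟩
  · exact Finset.mem_image.2 ⟨0, Finset.mem_range.2 (Nat.succ_pos _), h0⟩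
  · exact Finset.mem_image.2 ⟨m, Finset.mem_range.2 (Nat.lt_succ_self _), rfl⟩
  · intro k hk
    obtain ⟨j, hj, rfl⟩ := Finset.mem_image.1 hk
    exact hmono (Nat.lt_succ_iff.1 (Finset.mem_range.1 hj))
  · intro k hk hne
    obtain ⟨j, hj, rfl⟩ := Finset.mem_image.1 hk
    have hjm : j ≤ m := Nat.lt_succ_iff.1 (Finset.mem_range.1 hj)
    obtain ⟨j', h1, h2, h3⟩ := key (m - j) j (by omega) hne
    exact ⟨κ j', Finset.mem_image.2 ⟨j', Finset.mem_range.2 (Nat.lt_succ_iff.2 h1), rfl⟩, h2, h3⟩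


/-- the grid of the tested exponents -/
theorem k8b_t5_F1 {Ex Lg γ : ℝ} {m k₀ : ℕ} (hEx : 0 < Ex) (hLg : 0 < Lg) (hγ : 0 < γ) (hm : 2 / γ ≤ m) (hm0 : 0 < m)
    (hy : (4 + 2 * γ) / γ ≤ Ex * Lg) (hy2 : (k₀ : ℝ) + 1 ≤ Ex * Lg) :
    k8bGrid ((Finset.range (m + 1)).image fun j : ℕ => ⌊((j : ℝ) * Ex / m) * Lg⌋₊) ⌊Ex * Lg⌋₊ (⌈Ex * Lg / m⌉₊ + 1) ∧
      ((⌈Ex * Lg / m⌉₊ + 1 : ℕ) : ℝ) ≤ γ * (⌊Ex * Lg⌋₊ : ℝ) ∧ k₀ ≤ ⌊Ex * Lg⌋₊ := by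
  have hmR : (0 : ℝ) < m := by exact_mod_cast hm0
  have hyp : 0 < Ex * Lg := by positivity
  have hfl := Nat.lt_floor_add_one (Ex * Lg)
  refine ⟨?_, ?_, ?_⟩
  · have e : ⌊Ex * Lg⌋₊ = (fun j : ℕ => ⌊((j : ℝ) * Ex / m) * Lg⌋₊) m := by
      show _ = ⌊((m : ℝ) * Ex / m) * Lg⌋₊
      congr 2
      field_simp
    rw [e]
    refine k8b_t5_grid _ m _ (by simp) ?_ ?_
    · intro i j hij
      refine Nat.floor_mono ?_
      have : (i : ℝ) ≤ j := by exact_mod_cast hij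
      gcongr
    · intro j _
      show ⌊(((j + 1 : ℕ) : ℝ) * Ex / m) * Lg⌋₊ ≤ ⌊((j : ℝ) * Ex / m) * Lg⌋₊ + (⌈Ex * Lg / m⌉₊ + 1)
      have h1 : (0 : ℝ) ≤ (((j + 1 : ℕ) : ℝ) * Ex / m) * Lg := by positivity
      have h2 := Nat.floor_le h1
      have h3 := Nat.lt_floor_add_one (((j : ℝ) * Ex / m) * Lg)
      have h4 := Nat.le_ceil (Ex * Lg / m)
      have h5 : (((j + 1 : ℕ) : ℝ) * Ex / m) * Lg = ((j : ℝ) * Ex / m) * Lg + Ex * Lg / m := by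
        push_cast
        ring
      have h6 : ((⌊(((j + 1 : ℕ) : ℝ) * Ex / m) * Lg⌋₊ : ℕ) : ℝ) ≤ ((⌊((j : ℝ) * Ex / m) * Lg⌋₊ + (⌈Ex * Lg / m⌉₊ + 1) : ℕ) : ℝ) := by
        push_cast
        push_cast at h2 h5
        linarith
      exact_mod_cast h6
  · have h1 := Nat.ceil_lt_add_one (a := Ex * Lg / m) (by positivity)
    have h2 : Ex * Lg / m ≤ γ / 2 * (Ex * Lg) := by
      rw [div_le_iff₀ hmR]
      have : 1 ≤ γ / 2 * m := by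
        rw [div_le_iff₀ hγ] at hm
        linarith
      nlinarith
    have h3 : 4 + 2 * γ ≤ Ex * Lg * γ := by
      rwa [div_le_iff₀ hγ] at hy
    push_cast
    nlinarith
  · have : (k₀ : ℝ) < (⌊Ex * Lg⌋₊ : ℝ) + 1 := by linarith
    have : k₀ < ⌊Ex * Lg⌋₊ + 1 := by exact_mod_cast this
    omega


/-- the mesh relations -/
theorem k8b_t5_rel (c : K7bPar) (hc : c.WF) {s u Ex : ℝ} {M : ℝ × ℝ × ℝ} (hN : 2 ≤ c.N) (hs : 0 < s) (hs1 : s ≤ 1) (hu0 : 0 ≤ u)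
    (hu1 : u ≤ 1) (hEx0 : 0 < Ex) (hEx : Ex ≤ s / 10) (hk : 2 * c.k ≤ 1) (hsG : s ∈ c.G) (he : 4 * s ≤ c.e0)
    (hM1 : 5 ≤ M.1) (hM2 : 5 ≤ M.2.1) (hM3 : 5 ≤ M.2.2) (hξ : c.ξ < 2 * c.N ^ (-M.1)) (hχ : c.χ < 2 * c.N ^ (-M.2.1))
    (hϱ : c.ϱ < 2 * c.N ^ (-M.2.2)) :
    K8bRel c ((2 : ℝ) ^ ⌊Ex * Real.logb 2 c.N⌋₊) s (c.a s ^ u) ((1 / 2 : ℝ) ^ ⌊Ex * Real.logb 2 c.N⌋₊) := by
  have hN1 : 1 < c.N := by linarith
  have hN0 : 0 < c.N := by linarith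
  obtain ⟨f1, f2⟩ := k8b_t5_floor hN1 hEx0.le
  have eX : (2 : ℝ) ^ ⌊Ex * Real.logb 2 c.N⌋₊ = ((1 / 2 : ℝ) ^ ⌊Ex * Real.logb 2 c.N⌋₊)⁻¹ := by
    rw [one_div, inv_pow, inv_inv]
  have hX1 : (1 : ℝ) ≤ (2 : ℝ) ^ ⌊Ex * Real.logb 2 c.N⌋₊ := one_le_pow₀ (by norm_num)
  have hζ1 : (1 / 2 : ℝ) ^ ⌊Ex * Real.logb 2 c.N⌋₊ ≤ 1 := pow_le_one₀ (by norm_num) (by norm_num)
  have hζ0 : (0 : ℝ) < (1 / 2 : ℝ) ^ ⌊Ex * Real.logb 2 c.N⌋₊ := by positivity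
  generalize (1 / 2 : ℝ) ^ ⌊Ex * Real.logb 2 c.N⌋₊ = ζ at *
  generalize (2 : ℝ) ^ ⌊Ex * Real.logb 2 c.N⌋₊ = X at *
  have hXle : X ≤ c.N ^ Ex := by
    rw [eX, ← inv_inv (c.N ^ Ex), ← Real.rpow_neg hN0.le]
    exact inv_anti₀ (Real.rpow_pos_of_pos hN0 _) f1
  have hD : c.a s ^ u = c.N ^ (-(s * u)) := by
    rw [K7bPar.a, ← Real.rpow_mul hN0.le]
    congr 1
    ring
  have hX0 : 0 < X := by linarith
  have key : ∀ μ e : ℝ, μ ≤ c.N ^ (-e) → s * u + s + 2 * Ex ≤ e → X * μ ≤ c.a s ^ u * c.a s * ζ := by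
    intro μ e h1 h2
    calc X * μ ≤ X * c.N ^ (-e) := mul_le_mul_of_nonneg_left h1 hX0.le
      _ ≤ c.N ^ Ex * c.N ^ (-e) := mul_le_mul_of_nonneg_right hXle (Real.rpow_pos_of_pos hN0 _).le
      _ = c.N ^ (Ex - e) := by rw [← Real.rpow_add hN0]; congr 1
      _ ≤ c.N ^ (-(s * u) + -s + -Ex) := Real.rpow_le_rpow_of_exponent_le hN1.le (by linarith)
      _ = c.N ^ (-(s * u)) * c.N ^ (-s) * c.N ^ (-Ex) := by rw [Real.rpow_add hN0, Real.rpow_add hN0]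
      _ ≤ c.a s ^ u * c.a s * ζ := by
          rw [hD, K7bPar.a]
          gcongr
  have hsu : s * u ≤ s := by nlinarith
  have hsu0 : 0 ≤ s * u := by positivity
  have mesh : ∀ μ Mi : ℝ, 5 ≤ Mi → μ < 2 * c.N ^ (-Mi) → μ ≤ c.N ^ (-(4 : ℝ)) := by
    intro μ Mi h1 h2
    calc μ ≤ 2 * c.N ^ (-Mi) := h2.le
      _ ≤ c.N * c.N ^ (-(5 : ℝ)) := by
          have : c.N ^ (-Mi) ≤ c.N ^ (-(5 : ℝ)) := Real.rpow_le_rpow_of_exponent_le hN1.le (by linarith)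
          gcongr
      _ = c.N ^ (-(4 : ℝ)) := by
          nth_rewrite 1 [← Real.rpow_one c.N]
          rw [← Real.rpow_add hN0]
          norm_num
  exact
  { wf := hc
    X1 := hX1
    sG := hsG
    khalf := hk
    D0 := by rw [hD]; exact Real.rpow_pos_of_pos hN0 _
    D1 := by rw [hD]; exact Real.rpow_le_one_of_one_le_of_nonpos hN1.le (by linarith)
    ζ0 := hζ0
    ζ1 := hζ1
    aX := by
      calc X * c.a s ≤ c.N ^ Ex * c.N ^ (-s) := mul_le_mul_of_nonneg_right hXle (Real.rpow_pos_of_pos hN0 _).le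
        _ = c.N ^ (Ex + -s) := by rw [← Real.rpow_add hN0]
        _ ≤ 1 := Real.rpow_le_one_of_one_le_of_nonpos hN1.le (by linarith)
    ξm := key _ 4 (mesh _ _ hM1 hξ) (by linarith)
    χm := key _ 4 (mesh _ _ hM2 hχ) (by linarith)
    ϱm := key _ 4 (mesh _ _ hM3 hϱ) (by linarith)
    em := key _ c.e0 le_rfl (by linarith) }

/-- the tested widths are realised by prepared depths -/
theorem k8b_t5_dep (c : K7bPar) {s u Ex : ℝ} {m : ℕ} (hN : 1 < c.N) (hm0 : 0 < m) (hEx0 : 0 < Ex) (hEx : 10 * Ex = (u - 2 * c.k) * s)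
    (hk0 : 0 < c.k) (hk : 2 * c.k ≤ 1) (hG : ((Finset.range (m + 1)).image fun j : ℕ => s + (j : ℝ) * Ex / m) ⊆ c.G) :
    ∃ dep : ℕ → ℝ, K8bDep c s (c.a s ^ u) ((Finset.range (m + 1)).image fun j : ℕ => ⌊((j : ℝ) * Ex / m) * Real.logb 2 c.N⌋₊) dep := by
  have hN0 : 0 < c.N := by linarith
  have hmR : (0 : ℝ) < m := by exact_mod_cast hm0
  have hex : ∀ k ∈ (Finset.range (m + 1)).image fun j : ℕ => ⌊((j : ℝ) * Ex / m) * Real.logb 2 c.N⌋₊,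
      ∃ j : ℕ, j ≤ m ∧ ⌊((j : ℝ) * Ex / m) * Real.logb 2 c.N⌋₊ = k := by
    intro k hk
    obtain ⟨j, hj, e⟩ := Finset.mem_image.1 hk
    exact ⟨j, Nat.lt_succ_iff.1 (Finset.mem_range.1 hj), e⟩
  choose! jj hj1 hj2 using hex
  refine ⟨fun k => s + (jj k : ℝ) * Ex / m, fun k hk => ?_⟩
  beta_reduce
  have hσ0 : 0 ≤ (jj k : ℝ) * Ex / m := by positivity
  have hσ1 : (jj k : ℝ) * Ex / m ≤ Ex := by
    rw [div_le_iff₀ hmR]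
    have : (jj k : ℝ) ≤ m := by exact_mod_cast hj1 k hk
    nlinarith
  obtain ⟨f1, f2⟩ := k8b_t5_floor hN hσ0
  rw [hj2 k hk] at f1 f2
  have hmem : s + (jj k : ℝ) * Ex / m ∈ c.G :=
    hG (Finset.mem_image.2 ⟨jj k, Finset.mem_range.2 (Nat.lt_succ_iff.2 (hj1 k hk)), rfl⟩)
  generalize (jj k : ℝ) * Ex / m = σ at *
  have e1 : c.a (s + σ) / c.a s = c.N ^ (-σ) := by
    rw [K7bPar.a, K7bPar.a, ← Real.rpow_sub hN0]
    congr 1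
    ring
  refine ⟨hmem, by linarith, by rw [e1]; exact f1, by rw [e1]; exact f2, ?_⟩
  have e2 : c.a s ^ u * c.a s = c.N ^ (-(s * u) + -s) := by
    rw [K7bPar.a, ← Real.rpow_mul hN0.le, Real.rpow_add hN0]
    congr 2
    ring
  have e3 : c.h (s + σ) ^ 2 * c.a (s + σ) = c.N ^ (-(c.k * (s + σ)) * 2 + -(s + σ)) := by
    rw [K7bPar.h, K7bPar.a, Real.rpow_add hN0, Real.rpow_mul hN0.le]
    norm_num
  rw [e2, e3]
  refine Real.rpow_le_rpow_of_exponent_le hN.le ?_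
  nlinarith


/-- the numerical relations between the dyadic exponents -/
theorem k8b_t5_num {N Ex η ε τ Θ σw : ℝ} (hN : 1 < N) (hEx0 : 0 < Ex) (hη : 0 < η) (hε : 0 < ε) (hεE : Ex * ε ≤ τ) (hΘ : 0 < Θ)
    (hσ0 : 0 ≤ σw) (hσw : σw = Θ * Ex / 200) (hy : 2 ≤ Ex * Real.logb 2 N) :
    N ^ (η * Ex / 2) ≤ ((2 : ℝ) ^ ⌊Ex * Real.logb 2 N⌋₊) ^ η ∧
      100 * (⌊σw * Real.logb 2 N⌋₊ : ℝ) ≤ Θ * (⌊Ex * Real.logb 2 N⌋₊ : ℝ) ∧
      ((2 : ℝ) ^ ⌊Ex * Real.logb 2 N⌋₊) ^ ε ≤ N ^ τ := by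
  have hN0 : 0 < N := by linarith
  have hLg0 : 0 < Real.logb 2 N := Real.logb_pos (by norm_num) hN
  have hNe : (2 : ℝ) ^ Real.logb 2 N = N := Real.rpow_logb (by norm_num) (by norm_num) hN0
  have hfl := Nat.lt_floor_add_one (Ex * Real.logb 2 N)
  have hfl' := Nat.floor_le (by positivity : 0 ≤ Ex * Real.logb 2 N)
  have hhalf : Ex * Real.logb 2 N / 2 ≤ (⌊Ex * Real.logb 2 N⌋₊ : ℝ) := by linarith
  refine ⟨?_, ?_, ?_⟩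
  · rw [← Real.rpow_natCast, ← Real.rpow_mul (by norm_num)]
    conv_lhs => rw [← hNe]
    rw [← Real.rpow_mul (by norm_num)]
    refine Real.rpow_le_rpow_of_exponent_le (by norm_num) ?_
    calc Real.logb 2 N * (η * Ex / 2) = Ex * Real.logb 2 N / 2 * η := by ring
      _ ≤ _ := by gcongr
  · have h3 := Nat.floor_le (by positivity : 0 ≤ σw * Real.logb 2 N)
    calc 100 * (⌊σw * Real.logb 2 N⌋₊ : ℝ) ≤ 100 * (σw * Real.logb 2 N) := by gcongr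
      _ = Θ * (Ex * Real.logb 2 N / 2) := by rw [hσw]; ring
      _ ≤ _ := by gcongr
  · rw [← Real.rpow_natCast, ← Real.rpow_mul (by norm_num)]
    conv_rhs => rw [← hNe]
    rw [← Real.rpow_mul (by norm_num)]
    refine Real.rpow_le_rpow_of_exponent_le (by norm_num) ?_
    calc (⌊Ex * Real.logb 2 N⌋₊ : ℝ) * ε ≤ Ex * Real.logb 2 N * ε := by gcongr
      _ = Real.logb 2 N * (Ex * ε) := by ring
      _ ≤ Real.logb 2 N * τ := by gcongr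

/-- **L-252-S8b-T5** (glue, exponents only, ~500 l.).   `K8HCore` (`S8/Hubs.lean`).
PROOF.  `θ` from `hFit x.d`.   `α := θ (1 - d)/2000`, `smax := min 1 (e₀/4)`, `M0 := 5`.   Fix `u ∈ (2k, 1]`, `s > 0` with `s₁ := s (1 + α (u - 2k)) < smax`; `Ex := (u - 2k) s/10`.   Fix `M`, `τ`.   `ε := min 1 (τ/Ex)`.
`γ` from `k8b_core_one … ε`; `m := ⌈2/γ⌉₊ + 1`; `G0 := {s + j Ex/m | j ≤ m}`; `n := m + 1`; `(η, k₀)`; `τ' := η Ex/2`; `N1` large (below).   Write `Lg := Real.logb 2 c.N`.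
`kζ := ⌊Ex Lg⌋₊`, `κ j := ⌊(j Ex/m) Lg⌋₊`, `ks := image κ (range (m+1))`, `dep k := s + j Ex/m` for a chosen `j` with `κ j = k`, `g := ⌈Ex Lg/m⌉₊ + 1`, `kw := ⌊α (u - 2k) s Lg⌋₊`.
* `N^(-σ) ≤ (1/2)^⌊σ Lg⌋₊ ≤ 2 N^(-σ)` for `σ ≥ 0`: gives `K8bDep` (3rd, 4th clause, `c.a (dep k)/c.a s = N^(-j Ex/m)`), the two conditions on `s₁`, `N^(-Ex) ≤ ζ`, `2^kζ ≤ N^Ex`.
* `k8bGrid`: `κ 0 = 0`, `κ m = kζ`, monotone, consecutive gaps `≤ Ex Lg/m + 1 ≤ g`; `g ≤ γ kζ` for `Lg` large since `1/m ≤ γ/2`.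
* room of the support count: `D a_s = N^(-(u+1) s) ≤ N^(-2k (s+σ) - (s+σ))` iff `(2k+1) σ ≤ (u-2k) s`; `σ ≤ Ex`.
* `K8bRel` with `X = 2^kζ ≤ N^Ex`, `D = a_s^u`: `X N^(-M_i) ≤ N^(Ex - 5) ≤ N^(-(u+1) s - Ex) ≤ D a_s ζ` since `(u+1) s + 2 Ex ≤ 3`; `X N^(-e₀)`: `e₀ ≥ 4 smax ≥ (u+1) s + 2Ex`; `X a_s = N^(Ex - s) ≤ 1`; `khalf` from `2k < 1`.
* `100 kw ≤ θ (1-d) kζ`: `100 α (u-2k) s Lg = θ(1-d) Ex Lg/2 ≤ θ(1-d)(Ex Lg - 1)` for `Ex Lg ≥ 2`.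
* `K ≤ N^τ' = N^(η Ex/2) ≤ (2^kζ)^η` for `Ex Lg ≥ 2`.   `(2^kζ)^ε ≤ N^(Ex ε) ≤ N^τ`; `ζ^ε ≥ N^(-τ) = 1/N^τ`.
* hypotheses: `K8CmpC` = (`K8Prep`, `F.Ok`, `F.Cmp`), `K8Inp` = (`H.Ok`, `Res`, `1 ≤ K`), `K8Adm` = (`WF`, exponents, `G0 ⊆ c.G`, meshes).   Then `K8Lab.Ok.mono`, `k8_res_mono`. -/
theorem k8b_core (hFit : K8bFit) : K8HCore := by
  intro x hx hk
  obtain ⟨θ, hθ, hθ1, hFJ⟩ := hFit x.d hx.d0 hx.d1
  have hd1 : 0 < 1 - x.d := by linarith [hx.d1]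
  have hd2 : 1 - x.d ≤ 1 := by linarith [hx.d0]
  have hα0 : 0 < θ * (1 - x.d) / 2000 := by positivity
  have hα1 : θ * (1 - x.d) / 2000 ≤ 1 := by nlinarith
  refine ⟨θ * (1 - x.d) / 2000, min 1 (min (x.e0 / 4) (x.R / 2)), 5, hα0, hα1,
    lt_min one_pos (lt_min (by linarith [hx.e0]) (by linarith [hx.R0])), ?_⟩
  generalize hαd : θ * (1 - x.d) / 2000 = α at *
  intro u hu hu1 s hs hs1 M hM1 hM2 hM3 τ hτ
  have hk0 := hx.k0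
  have hδ : 0 < u - 2 * x.k := by linarith
  have hδ1 : u - 2 * x.k ≤ 1 := by linarith
  have hss : s ≤ s * (1 + α * (u - 2 * x.k)) := by nlinarith [mul_pos hα0 hδ]
  have hsm : s < min 1 (min (x.e0 / 4) (x.R / 2)) := lt_of_le_of_lt hss hs1
  have hs_1 : s < 1 := lt_of_lt_of_le hsm (min_le_left _ _)
  have hs_e : s < x.e0 / 4 := lt_of_lt_of_le hsm ((min_le_right _ _).trans (min_le_left _ _))
  have hs_R : s < x.R / 2 := lt_of_lt_of_le hsm ((min_le_right _ _).trans (min_le_right _ _))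
  obtain ⟨Ex, hExd⟩ : ∃ Ex : ℝ, Ex = (u - 2 * x.k) * s / 10 := ⟨_, rfl⟩
  have hEx0 : 0 < Ex := by rw [hExd]; positivity
  have hEx1 : Ex ≤ s / 10 := by rw [hExd]; nlinarith
  have hε : 0 < min 1 (τ / Ex) := lt_min one_pos (by positivity)
  obtain ⟨γ, hγ, h1⟩ := k8b_core_one x.d θ hx.d0 hx.d1 hθ hθ1 hFJ (min 1 (τ / Ex)) hε
  have hεE : Ex * min 1 (τ / Ex) ≤ τ := by
    calc Ex * min 1 (τ / Ex) ≤ Ex * (τ / Ex) := mul_le_mul_of_nonneg_left (min_le_right _ _) hEx0.le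
      _ = τ := by field_simp
  generalize min 1 (τ / Ex) = ε at *
  obtain ⟨m, hmd⟩ : ∃ m : ℕ, m = ⌈2 / γ⌉₊ + 1 := ⟨_, rfl⟩
  have hm0 : 0 < m := by omega
  have hmR : (0 : ℝ) < m := by exact_mod_cast hm0
  have hm : 2 / γ ≤ m := by
    rw [hmd]
    push_cast
    linarith [Nat.le_ceil (2 / γ)]
  obtain ⟨η, k₀, hη, h2⟩ := h1 (m + 1)
  refine ⟨(Finset.range (m + 1)).image (fun j : ℕ => s + (j : ℝ) * Ex / m), η * Ex / 2,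
    (2 : ℝ) ^ ((2 + (4 + 2 * γ) / γ + ((k₀ : ℝ) + 1)) / Ex + 1), by positivity, ?_, ?_⟩
  · intro σ hσ
    obtain ⟨j, hj, rfl⟩ := Finset.mem_image.1 hσ
    have hjm : (j : ℝ) ≤ m := by exact_mod_cast Nat.lt_succ_iff.1 (Finset.mem_range.1 hj)
    have h3 : (j : ℝ) * Ex / m ≤ Ex := by
      rw [div_le_iff₀ hmR]
      nlinarith
    constructor
    · positivity
    · linarith
  intro H a c K E hA hI hK hH
  obtain ⟨hP, hF, hC⟩ := hH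
  have hc := hA.wf
  have hN0 : 0 < c.N := lt_of_lt_of_le one_pos hc.N1
  have hNL : (2 + (4 + 2 * γ) / γ + ((k₀ : ℝ) + 1)) / Ex + 1 ≤ Real.logb 2 c.N := by
    rw [Real.le_logb_iff_rpow_le (by norm_num) hN0]
    exact hA.hN
  have hNe : (2 : ℝ) ^ Real.logb 2 c.N = c.N := Real.rpow_logb (by norm_num) (by norm_num) hN0
  have hq0 : 0 < (4 + 2 * γ) / γ := by positivity
  have hq1 : 0 < (2 + (4 + 2 * γ) / γ + ((k₀ : ℝ) + 1)) / Ex := by positivity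
  have hLg1 : 1 ≤ Real.logb 2 c.N := by linarith
  have hLg0 : 0 < Real.logb 2 c.N := by linarith
  have hN2 : 2 ≤ c.N := by
    calc (2 : ℝ) = (2 : ℝ) ^ (1 : ℝ) := by norm_num
      _ ≤ (2 : ℝ) ^ Real.logb 2 c.N := Real.rpow_le_rpow_of_exponent_le (by norm_num) hLg1
      _ = c.N := hNe
  have hN1 : 1 < c.N := by linarith
  have hy : 2 + (4 + 2 * γ) / γ + ((k₀ : ℝ) + 1) ≤ Ex * Real.logb 2 c.N := by
    have : (2 + (4 + 2 * γ) / γ + ((k₀ : ℝ) + 1)) / Ex ≤ Real.logb 2 c.N := by linarith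
    rw [div_le_iff₀ hEx0] at this
    linarith
  have hkc : c.k = x.k := hA.hk
  obtain ⟨g1, g2, g3⟩ := k8b_t5_F1 (k₀ := k₀) hEx0 hLg0 hγ hm hm0 (by linarith) (by linarith)
  have hsG : s ∈ c.G := hA.hG (Finset.mem_image.2 ⟨0, Finset.mem_range.2 (Nat.succ_pos _), by simp⟩)
  have hrel := k8b_t5_rel c hc hN2 hs hs_1.le (by linarith) hu1 hEx0 hEx1 (by rw [hkc]; linarith) hsG
    (by rw [hA.he]; linarith) hM1 hM2 hM3 hA.hξ.2 hA.hχ.2 hA.hϱ.2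
  obtain ⟨dep, hdep⟩ := k8b_t5_dep c (u := u) hN1 hm0 hEx0 (by rw [hkc, hExd]; ring) (by rw [hkc]; exact hk0)
    (by rw [hkc]; linarith) hA.hG
  obtain ⟨w1, w2⟩ := k8b_t5_floor hN1 (σ := α * (u - 2 * x.k) * s) (by positivity)
  have hcard : ((Finset.range (m + 1)).image fun j : ℕ => ⌊((j : ℝ) * Ex / m) * Real.logb 2 c.N⌋₊).card ≤ m + 1 :=
    Finset.card_image_le.trans (by simp)
  obtain ⟨hKη, hkw, hfin⟩ := k8b_t5_num (η := η) (ε := ε) (τ := τ) (Θ := θ * (1 - x.d)) (σw := α * (u - 2 * x.k) * s) hN1 hEx0 hη hε hεE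
    (by positivity) (by positivity) (by rw [← hαd, hExd]; ring) (by linarith)
  have ea : c.a (s * (1 + α * (u - 2 * x.k))) = c.a s * c.N ^ (-(α * (u - 2 * x.k) * s)) := by
    rw [K7bPar.a, K7bPar.a, ← Real.rpow_add hN0]
    congr 1
    ring
  have has : 0 < c.a s := Real.rpow_pos_of_pos hN0 _
  have ha1 : c.a (s * (1 + α * (u - 2 * x.k))) ≤ c.a s * (1 / 2 : ℝ) ^ ⌊α * (u - 2 * x.k) * s * Real.logb 2 c.N⌋₊ := by
    rw [ea]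
    exact mul_le_mul_of_nonneg_left w1 has.le
  have ha2 : c.a s * (1 / 2 : ℝ) ^ ⌊α * (u - 2 * x.k) * s * Real.logb 2 c.N⌋₊ ≤ 2 * c.a (s * (1 + α * (u - 2 * x.k))) := by
    rw [ea]
    calc _ ≤ c.a s * (2 * c.N ^ (-(α * (u - 2 * x.k) * s))) := mul_le_mul_of_nonneg_left w2 has.le
      _ = _ := by ring
  obtain ⟨E', hE', hR', F', hF'⟩ := h2 H c K s (s * (1 + α * (u - 2 * x.k))) (c.a s ^ u) a.1 E a.2 _ _ _ _ dep hA.hd hrel hI.K1 hI.ok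
    hI.res hP hF hC g1 hcard g2 g3 (hK.trans hKη) hkw hdep ha1 ha2
  refine ⟨E', hE', k8_res_mono hR' ?_, F', hF'.mono hc hfin⟩
  have e : ((1 / 2 : ℝ) ^ ⌊Ex * Real.logb 2 c.N⌋₊) ^ ε = 1 / ((2 : ℝ) ^ ⌊Ex * Real.logb 2 c.N⌋₊) ^ ε := by
    rw [one_div_pow, one_div, Real.inv_rpow (by positivity), one_div]
  rw [e]
  exact one_div_le_one_div_of_le (by positivity) hfin

theorem k8b_top_eqns_cite : True := by
  have := @K8bDep.eq_1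
  have := @K8bFit.eq_1
  trivial

end

end Claimed.Agent.R252
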